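import Vale.Agent.P095.Mult
import Vale.Agent.P101.Basic

/-! Quasicentral, almost invariant approximate units.

Plan. Spectral order on `A`. `exists_nested`: `h = ∑ 2⁻ⁿ (1 + ‖a n‖ ^ 2)⁻¹ • a n * star (a n)` for a dense
sequence, `f n = cfcₙ (fun t => min 1 (max (2 ^ (n + 1) * t - 1) 0)) h`; then `f (n + 1) * f n = f n` and
`f n * a → a` (`‖(1 - f n) a k‖ ^ 2 ≤ c k ‖(1 - f n) h (1 - f n)‖ ≤ c k 2⁻ⁿ`, computed in the unitization).
`exists_avg` (no Hahn-Banach): if finitely many bounded sequences `z n` of `A` satisfy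
`star (z n) * a → 0` for all `a`, then for `m 0 < m 1 < … < m (N - 1)` sparse enough and beyond any given
index, `‖N⁻¹ ∑ z (m j)‖ ^ 2 ≤ K ^ 2 / N + δ` (expand `star s * s`, the off diagonal terms are small).
Apply it to `cm (f n) * b - b * cm (f n)` and `α g (f n) - f n` (these lie in the range of `cm` and tend
to `0` strictly) and let `e (k + 1)` be such an average of `f m` with all `m` larger than the indices
used for `e k` plus one. -/

open Filter Topology
open scoped MultiplierAlgebra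

namespace Vale.Agent.P095

/-- averages over finite sets of indices -/
noncomputable def quasiAvg {E : Type} [AddCommGroup E] [Module ℂ E] (S : Finset ℕ) (x : ℕ → E) :
    E := (S.card : ℂ)⁻¹ • ∑ m ∈ S, x m

theorem quasi_const {E : Type} [AddCommGroup E] [Module ℂ E] {S : Finset ℕ} (hS : S.Nonempty)
    {x : ℕ → E} {y : E} (h : ∀ m ∈ S, x m = y) : quasiAvg S x = y := by
  have h0 : (S.card : ℂ) ≠ 0 := by exact_mod_cast hS.card_pos.ne'
  rw [quasiAvg, Finset.sum_congr rfl h, Finset.sum_const, ← Nat.cast_smul_eq_nsmul ℂ, smul_smul,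
    inv_mul_cancel₀ h0, one_smul]

theorem quasi_sub {E : Type} [AddCommGroup E] [Module ℂ E] (S : Finset ℕ) (x y : ℕ → E) :
    quasiAvg S (fun m => x m - y m) = quasiAvg S x - quasiAvg S y := by
  simp only [quasiAvg, Finset.sum_sub_distrib, smul_sub]

theorem quasi_norm {E : Type} [NormedAddCommGroup E] [NormedSpace ℂ E] {S : Finset ℕ}
    (hS : S.Nonempty) {x : ℕ → E} {c : ℝ} (h : ∀ m ∈ S, ‖x m‖ ≤ c) : ‖quasiAvg S x‖ ≤ c := by
  have h0 : (0 : ℝ) < S.card := by exact_mod_cast hS.card_pos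
  rw [quasiAvg, norm_smul, norm_inv, Complex.norm_natCast, inv_mul_le_iff₀ h0]
  refine (norm_sum_le _ _).trans ((Finset.sum_le_sum h).trans ?_)
  rw [Finset.sum_const, nsmul_eq_mul]

theorem quasi_sparse {M J : Type} [CStarAlgebra M] [Finite J] (I : AddSubmonoid M)
    (z : J → ℕ → M) (K : J → ℝ) (hI : ∀ j n, z j n ∈ I) (hK : ∀ j n, ‖z j n‖ ≤ K j)
    (h0 : ∀ j, ∀ s ∈ I, Tendsto (fun n => star (z j n) * s) atTop (𝓝 0)) (n₀ N : ℕ) :
    ∃ S : Finset ℕ, S.card = N ∧ (∀ m ∈ S, n₀ ≤ m) ∧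
      ∀ j, ‖∑ m ∈ S, z j m‖ ^ 2 ≤ N * (K j ^ 2 + 2) := by
  induction N with
  | zero => exact ⟨∅, rfl, by simp, by simp⟩
  | succ N ih =>
    obtain ⟨S, h1, h2, h3⟩ := ih
    have e1 : ∀ᶠ n in atTop, ∀ j, ‖star (z j n) * ∑ m ∈ S, z j m‖ < 1 :=
      eventually_all.2 fun j => NormedAddGroup.tendsto_nhds_zero.1
        (h0 j _ (sum_mem fun m _ => hI j m)) 1 one_pos
    obtain ⟨n, hn1, hn2, hn3⟩ :=
      (e1.and ((eventually_ge_atTop n₀).and (eventually_gt_atTop (S.sup id)))).exists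
    have hn : n ∉ S := fun h => absurd (Finset.le_sup (f := id) h) (not_le.2 hn3)
    refine ⟨insert n S, by rw [Finset.card_insert_of_notMem hn, h1], ?_, fun j => ?_⟩
    · intro m hm
      rcases Finset.mem_insert.1 hm with rfl | hm
      · exact hn2
      · exact h2 m hm
    · rw [Finset.sum_insert hn]
      set s := ∑ m ∈ S, z j m
      set w := z j n
      have a1 : ‖star w * s‖ ≤ 1 := (hn1 j).le
      have a2 : ‖star s * w‖ ≤ 1 := by
        rw [← norm_star, star_mul, star_star]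
        exact a1
      have a3 : ‖star w * w‖ ≤ K j ^ 2 := by
        rw [CStarRing.norm_star_mul_self, ← sq]
        exact pow_le_pow_left₀ (norm_nonneg _) (hK j n) 2
      have a4 : ‖star s * s‖ ≤ N * (K j ^ 2 + 2) := by
        rw [CStarRing.norm_star_mul_self, ← sq]
        exact h3 j
      have e : star (w + s) * (w + s) = star w * w + star w * s + (star s * w + star s * s) := by
        rw [star_add, add_mul, mul_add, mul_add]
      rw [sq, ← CStarRing.norm_star_mul_self, e]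
      have b1 := norm_add_le (star w * w + star w * s) (star s * w + star s * s)
      have b2 := norm_add_le (star w * w) (star w * s)
      have b3 := norm_add_le (star s * w) (star s * s)
      push_cast
      linarith

theorem quasi_exists_avg {M J : Type} [CStarAlgebra M] [Finite J] (I : AddSubmonoid M)
    (z : J → ℕ → M) (K : J → ℝ) (hI : ∀ j n, z j n ∈ I) (hK : ∀ j n, ‖z j n‖ ≤ K j)
    (h0 : ∀ j, ∀ s ∈ I, Tendsto (fun n => star (z j n) * s) atTop (𝓝 0)) {δ : ℝ} (hδ : 0 < δ)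
    (n₀ : ℕ) : ∃ S : Finset ℕ, S.Nonempty ∧ (∀ m ∈ S, n₀ ≤ m) ∧
      ∀ j, ‖quasiAvg S (z j)‖ ≤ δ := by
  have e1 : ∀ᶠ N : ℕ in atTop, ∀ j, K j ^ 2 + 2 ≤ δ ^ 2 * N :=
    eventually_all.2 fun j => (tendsto_natCast_atTop_atTop.const_mul_atTop
      (pow_pos hδ 2)).eventually_ge_atTop _
  obtain ⟨N, hN1, hN2⟩ := (e1.and (eventually_gt_atTop 0)).exists
  obtain ⟨S, h1, h2, h3⟩ := quasi_sparse I z K hI hK h0 n₀ N
  have hN : (0 : ℝ) < N := by exact_mod_cast hN2
  refine ⟨S, Finset.card_pos.1 (h1 ▸ hN2), h2, fun j => ?_⟩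
  rw [quasiAvg, norm_smul, norm_inv, Complex.norm_natCast, h1, inv_mul_le_iff₀ hN]
  refine (pow_le_pow_iff_left₀ (norm_nonneg _) (by positivity) two_ne_zero).1 ((h3 j).trans ?_)
  have := mul_le_mul_of_nonneg_left (hN1 j) hN.le
  nlinarith

/-- the cut off functions -/
noncomputable def quasiG (n : ℕ) (t : ℝ) : ℝ := min 1 (max (2 ^ (n + 1) * t - 1) 0)

theorem quasiG_cont (n : ℕ) : Continuous (quasiG n) := by
  unfold quasiG
  fun_prop

theorem quasiG_zero (n : ℕ) : quasiG n 0 = 0 := by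
  simp [quasiG]

theorem quasiG_mem (n : ℕ) (t : ℝ) : quasiG n t ∈ Set.Icc (0 : ℝ) 1 :=
  ⟨le_min zero_le_one (le_max_right _ _), min_le_left _ _⟩

theorem quasiG_one {n : ℕ} {t : ℝ} (h : 1 ≤ 2 ^ n * t) : quasiG n t = 1 := by
  refine min_eq_left (le_max_of_le_left ?_)
  rw [pow_succ]
  linarith

theorem quasiG_mul {n m : ℕ} (h : n < m) (t : ℝ) : quasiG m t * quasiG n t = quasiG n t := by
  by_cases h1 : 2 ^ (n + 1) * t ≤ 1
  · have : quasiG n t = 0 := by
      rw [quasiG, max_eq_right (by linarith), min_eq_right zero_le_one]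
    rw [this, mul_zero]
  · push Not at h1
    have h2 : (2 : ℝ) ^ (n + 1) ≤ 2 ^ m := pow_le_pow_right₀ one_le_two h
    have h3 : 0 < t := by
      by_contra h4
      push Not at h4
      have : (2 : ℝ) ^ (n + 1) * t ≤ 0 := mul_nonpos_of_nonneg_of_nonpos (by positivity) h4
      linarith
    rw [quasiG_one (h1.le.trans (mul_le_mul_of_nonneg_right h2 h3.le)), one_mul]

theorem quasiG_le (n : ℕ) {t : ℝ} (ht : 0 ≤ t) :
    ‖(1 - quasiG n t) * t * (1 - quasiG n t)‖ ≤ (1 / 2) ^ n := by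
  obtain ⟨h0, h1⟩ := quasiG_mem n t
  by_cases h : 1 ≤ 2 ^ n * t
  · rw [quasiG_one h]
    simp
  · push Not at h
    have h2 : t ≤ (1 / 2) ^ n := by
      rw [one_div_pow, le_div_iff₀ (by positivity)]
      linarith
    have h3 : 0 ≤ 1 - quasiG n t := by linarith
    rw [Real.norm_of_nonneg (by positivity)]
    refine le_trans ?_ h2
    have h4 : (1 - quasiG n t) * t ≤ t := mul_le_of_le_one_left ht (by linarith)
    exact (mul_le_of_le_one_right (by positivity) (by linarith)).trans h4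

variable {A G : Type} [NonUnitalCStarAlgebra A] [TopologicalSpace.SeparableSpace A] [Group G]

omit [Group G] in
theorem quasi_nested : ∃ f : ℕ → A, (∀ n, P101.PC (cm A (f n))) ∧
    (∀ n m, n < m → f m * f n = f n) ∧ ∀ a, Tendsto (fun n => f n * a) atTop (𝓝 a) := by
  obtain ⟨u, hu⟩ := TopologicalSpace.exists_dense_seq A
  let _ := CStarAlgebra.spectralOrder 𝓜(ℂ, A)
  have _ := CStarAlgebra.spectralOrderedRing 𝓜(ℂ, A)
  set c : ℕ → ℝ := fun k => (1 / 2) ^ k * (1 + ‖u k‖ ^ 2)⁻¹ with hc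
  have hc0 : ∀ k, 0 < c k := fun k => by positivity
  have hsum : Summable fun k => (c k : ℂ) • (u k * star (u k)) := by
    refine Summable.of_norm_bounded summable_geometric_two fun k => ?_
    rw [norm_smul, Complex.norm_real, Real.norm_of_nonneg (hc0 k).le,
      CStarRing.norm_self_mul_star, ← sq, hc, mul_assoc]
    refine mul_le_of_le_one_right (by positivity) ?_
    rw [inv_mul_le_iff₀ (by positivity)]
    linarith
  set h := ∑' k, (c k : ℂ) • (u k * star (u k)) with hh
  have hcm : Continuous (cm A) := AddMonoidHomClass.continuous_of_bound (cm A) 1 fun a => by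
    rw [norm_cm, one_mul]
  have hH : HasSum (fun k => (c k : ℂ) • (cm A (u k) * star (cm A (u k)))) (cm A h) := by
    have := hsum.hasSum.map (cm A) hcm
    simpa only [Function.comp_def, map_smul, map_mul, map_star] using this
  have hpos : ∀ k, 0 ≤ (c k : ℂ) • (cm A (u k) * star (cm A (u k))) := fun k =>
    by
      rw [Complex.coe_smul]
      exact smul_nonneg (hc0 k).le (mul_star_self_nonneg _)
  have hle : ∀ k, (c k : ℂ) • (cm A (u k) * star (cm A (u k))) ≤ cm A h := fun k =>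
    le_hasSum hH k fun j _ => hpos j
  have hH0 : 0 ≤ cm A h := (hpos 0).trans (hle 0)
  have hHs : IsSelfAdjoint (cm A h) := hH0.isSelfAdjoint
  have hs : IsSelfAdjoint h := cm_injective (by rw [map_star, hHs.star_eq])
  have hF : ∀ n, cm A (cfcₙ (quasiG n) h) = cfc (quasiG n) (cm A h) := fun n => by
    rw [NonUnitalStarAlgHomClass.map_cfcₙ (cm A) (quasiG n) h (quasiG_cont n).continuousOn
      (quasiG_zero n) hcm hs hHs, cfcₙ_eq_cfc (quasiG_cont n).continuousOn (quasiG_zero n)]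
  have hPC : ∀ n, P101.PC (cm A (cfcₙ (quasiG n) h)) := fun n => by
    rw [hF]
    exact P101.PC.cfc _ fun t _ => quasiG_mem n t
  refine ⟨fun n => cfcₙ (quasiG n) h, hPC, fun n m hnm => cm_injective ?_, fun a => ?_⟩
  · rw [map_mul, hF, hF, ← cfc_mul _ _ _ (quasiG_cont m).continuousOn (quasiG_cont n).continuousOn]
    simp only [quasiG_mul hnm]
  have key : ∀ n k, c k * ‖cfcₙ (quasiG n) h * u k - u k‖ ^ 2 ≤ (1 / 2) ^ n := by
    intro n k
    set y := 1 - cfc (quasiG n) (cm A h) with hy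
    have hg := quasiG_cont n
    have hy' : y = cfc (fun t => 1 - quasiG n t) (cm A h) := by
      rw [cfc_sub _ _ _ (by fun_prop) (by fun_prop), cfc_const_one ℝ _ hHs]
    have hys : IsSelfAdjoint y := by
      rw [hy']
      exact cfc_predicate _ _
    have e1 : ‖cfcₙ (quasiG n) h * u k - u k‖ = ‖y * cm A (u k)‖ := by
      rw [← norm_cm, map_sub, map_mul, hF, norm_sub_rev, hy, sub_mul, one_mul]
    have e2 : ‖y * cm A h * y‖ ≤ (1 / 2) ^ n := by
      have e : y * cm A h * y =
          cfc (fun t => (1 - quasiG n t) * t * (1 - quasiG n t)) (cm A h) := by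
        rw [cfc_mul _ _ _ (by fun_prop) (by fun_prop), cfc_mul _ _ _ (by fun_prop) (by fun_prop),
          cfc_id' ℝ _ hHs, ← hy']
      rw [e]
      exact norm_cfc_le (by positivity) fun t ht => quasiG_le n (spectrum_nonneg_of_nonneg hH0 ht)
    have e3 := CStarAlgebra.norm_le_norm_of_nonneg_of_le (hys.conjugate_nonneg (hpos k))
      (hys.conjugate_le_conjugate (hle k))
    have e4 : y * (c k : ℂ) • (cm A (u k) * star (cm A (u k))) * y =
        (c k : ℂ) • (y * cm A (u k) * star (y * cm A (u k))) := by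
      rw [star_mul, hys.star_eq, mul_smul_comm, smul_mul_assoc]
      simp only [mul_assoc]
    rw [e4, norm_smul, Complex.norm_real, Real.norm_of_nonneg (hc0 k).le,
      CStarRing.norm_self_mul_star, ← sq] at e3
    rw [e1]
    exact e3.trans e2
  refine Metric.tendsto_nhds.2 fun η hη => ?_
  obtain ⟨k, hk⟩ := hu.exists_dist_lt a (show 0 < η / 3 by positivity)
  have hlim : ∀ᶠ n : ℕ in atTop, (1 / 2 : ℝ) ^ n < c k * (η / 3) ^ 2 :=
    (tendsto_pow_atTop_nhds_zero_of_lt_one (by norm_num) (by norm_num)).eventually_lt_const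
      (by have := hc0 k; positivity)
  filter_upwards [hlim] with n hn
  have h1 : ‖cfcₙ (quasiG n) h * u k - u k‖ < η / 3 :=
    lt_of_pow_lt_pow_left₀ 2 (by positivity)
      (lt_of_mul_lt_mul_left ((key n k).trans_lt hn) (hc0 k).le)
  have h2 : ‖cfcₙ (quasiG n) h‖ ≤ 1 := by
    rw [← norm_cm]
    exact (hPC n).le
  rw [dist_eq_norm] at hk ⊢
  have e : cfcₙ (quasiG n) h * a - a = cfcₙ (quasiG n) h * (a - u k) +
      (cfcₙ (quasiG n) h * u k - u k) - (a - u k) := by
    rw [mul_sub]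
    abel
  have h3 : ‖cfcₙ (quasiG n) h * (a - u k)‖ ≤ ‖a - u k‖ :=
    (norm_mul_le _ _).trans (mul_le_of_le_one_left (norm_nonneg _) h2)
  rw [e]
  have h4 := norm_sub_le (cfcₙ (quasiG n) h * (a - u k) + (cfcₙ (quasiG n) h * u k - u k))
    (a - u k)
  have h5 := norm_add_le (cfcₙ (quasiG n) h * (a - u k)) (cfcₙ (quasiG n) h * u k - u k)
  linarith

theorem exists_quasi (α : G →* (A ≃⋆ₐ[ℂ] A)) (T : Finset 𝓜(ℂ, A)) (K : Finset G) (ε : ℕ → ℝ)
    (hε : ∀ n, 0 < ε n) : ∃ e : ℕ → A, e 0 = 0 ∧ (∀ n, P101.PC (cm A (e n))) ∧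
      (∀ n, e (n + 1) * e n = e n) ∧ (∀ a, Tendsto (fun n => e n * a) atTop (𝓝 a)) ∧
      (∀ n, ∀ b ∈ T, ‖cm A (e n) * b - b * cm A (e n)‖ ≤ ε n) ∧
      ∀ n, ∀ g ∈ K, ‖α g (e n) - e n‖ ≤ ε n := by
  obtain ⟨f, hPC, hmul, hlim⟩ := quasi_nested (A := A)
  have hcm : Continuous (cm A) := AddMonoidHomClass.continuous_of_bound (cm A) 1 fun a => by
    rw [norm_cm, one_mul]
  have hf1 : ∀ n, ‖f n‖ ≤ 1 := fun n => by
    rw [← norm_cm]
    exact (hPC n).le
  have hfs : ∀ n, star (f n) = f n := fun n => cm_injective (by rw [map_star, (hPC n).sa.star_eq])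
  have hα : ∀ g a, ‖α g a‖ = ‖a‖ := fun g a => StarAlgEquiv.norm_map (α g) a
  have hlim' : ∀ a, Tendsto (fun n => cm A (f n) * cm A a) atTop (𝓝 (cm A a)) := fun a => by
    simpa only [Function.comp_def, map_mul] using (hcm.tendsto a).comp (hlim a)
  let z : T ⊕ K → ℕ → 𝓜(ℂ, A) := fun j n => Sum.elim
    (fun b : T => cm A (f n) * b - b * cm A (f n)) (fun g : K => cm A (α g (f n) - f n)) j
  have hz := fun (k n₀ : ℕ) => quasi_exists_avg (AddMonoidHom.mrange (cm A)) z
    (Sum.elim (fun b : T => 2 * ‖(b : 𝓜(ℂ, A))‖) fun _ : K => 2) ?_ ?_ ?_ (hε k) n₀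
  rotate_left
  · rintro (b | g) n
    · exact ⟨b.1.snd (f n) - b.1.fst (f n), by rw [map_sub, ← cm_mul, ← mul_cm]; rfl⟩
    · exact ⟨_, rfl⟩
  · rintro (b | g) n
    · have h1 := (norm_mul_le (cm A (f n)) b).trans
        (mul_le_of_le_one_left (norm_nonneg _) (hPC n).le)
      have h2 := (norm_mul_le b.1 (cm A (f n))).trans
        (mul_le_of_le_one_right (norm_nonneg _) (hPC n).le)
      refine (norm_sub_le _ _).trans ?_
      simp only [Sum.elim_inl]
      linarith
    · simp only [z, Sum.elim_inr]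
      rw [norm_cm]
      refine (norm_sub_le _ _).trans ?_
      rw [hα]
      linarith [hf1 n]
  · rintro (b | g) _ ⟨a, rfl⟩
    · have h1 := ((hlim' a).const_mul (star b.1)).sub (hlim' ((star b.1).fst a))
      rw [← mul_cm, sub_self] at h1
      refine h1.congr fun n => ?_
      simp only [z, Sum.elim_inl]
      rw [star_sub, star_mul, star_mul, (hPC n).sa.star_eq, sub_mul, mul_assoc, mul_assoc]
    · have hc : Continuous (α g) := AddMonoidHomClass.continuous_of_bound (α g) 1 fun a => by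
        rw [hα, one_mul]
      have h1 := ((hc.tendsto _).comp (hlim ((α g).symm a))).sub (hlim a)
      rw [StarAlgEquiv.apply_symm_apply, sub_self] at h1
      have h2 := (hcm.tendsto _).comp h1
      rw [map_zero] at h2
      refine h2.congr fun n => ?_
      simp only [z, Sum.elim_inr, Function.comp_def]
      rw [← map_star, ← map_mul, star_sub, ← map_star, hfs, sub_mul, map_mul (α g),
        StarAlgEquiv.apply_symm_apply]
  choose S hS1 hS2 hS3 using hz
  let r : ℕ → ℕ := fun k => Nat.rec 0 (fun k x => (S (k + 1) x).sup id + 1) k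
  have hr : ∀ k, ∀ m ∈ S (k + 1) (r k), m < r (k + 1) := fun k m hm =>
    Nat.lt_succ_of_le (Finset.le_sup (f := id) hm)
  have hrk : ∀ k, k ≤ r k := by
    intro k
    induction k with
    | zero => exact le_rfl
    | succ k ih =>
      obtain ⟨m, hm⟩ := hS1 (k + 1) (r k)
      exact (Nat.succ_le_succ (ih.trans (hS2 _ _ m hm))).trans (hr k m hm)
  have hcmavg : ∀ (U : Finset ℕ) (x : ℕ → A),
      cm A (quasiAvg U x) = quasiAvg U fun m => cm A (x m) := fun U x => by
    simp only [quasiAvg, map_smul, map_sum]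
  refine ⟨fun k => Nat.rec 0 (fun k _ => quasiAvg (S (k + 1) (r k)) f) k, rfl, ?_, ?_, ?_, ?_, ?_⟩
  · rintro (_ | k)
    · refine ⟨?_, ?_, ?_⟩
      · simp
      · simp
      · simpa using IsStarProjection.norm_le _ (IsStarProjection.one 𝓜(ℂ, A))
    · show P101.PC (cm A (quasiAvg (S (k + 1) (r k)) f))
      rw [hcmavg]
      refine ⟨?_, quasi_norm (hS1 _ _) fun m _ => (hPC m).le, ?_⟩
      · simp only [IsSelfAdjoint, quasiAvg, star_smul, star_sum, fun m => (hPC m).sa.star_eq,
          star_inv₀, star_natCast]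
      · rw [← quasi_const (hS1 (k + 1) (r k)) (x := fun _ => (1 : 𝓜(ℂ, A))) fun _ _ => rfl,
          ← quasi_sub]
        exact quasi_norm (hS1 _ _) fun m _ => (hPC m).le'
  · rintro (_ | k)
    · exact mul_zero _
    · show quasiAvg (S (k + 2) (r (k + 1))) f * quasiAvg (S (k + 1) (r k)) f =
        quasiAvg (S (k + 1) (r k)) f
      have h1 : ∀ m ∈ S (k + 2) (r (k + 1)), f m * quasiAvg (S (k + 1) (r k)) f =
          quasiAvg (S (k + 1) (r k)) f := by
        intro m hm
        rw [quasiAvg, mul_smul_comm, Finset.mul_sum]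
        congr 1
        exact Finset.sum_congr rfl fun n hn => hmul n m ((hr k n hn).trans_le (hS2 _ _ m hm))
      rw [← quasi_const (hS1 _ _) h1]
      conv_lhs => rw [quasi_const (hS1 _ _) h1]
      rw [quasiAvg, smul_mul_assoc, Finset.sum_mul]
      rfl
  · intro a
    rw [← tendsto_add_atTop_iff_nat 1]
    refine Metric.tendsto_atTop.2 fun η hη => ?_
    obtain ⟨N, hN⟩ := Metric.tendsto_atTop.1 (hlim a) (η / 2) (half_pos hη)
    refine ⟨N, fun k hk => ?_⟩
    show dist (quasiAvg (S (k + 1) (r k)) f * a) a < η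
    have e : quasiAvg (S (k + 1) (r k)) f * a - a =
        quasiAvg (S (k + 1) (r k)) fun m => f m * a - a := by
      rw [quasi_sub, quasi_const (hS1 _ _) (x := fun _ => a) fun _ _ => rfl, quasiAvg, quasiAvg,
        smul_mul_assoc, Finset.sum_mul]
    rw [dist_eq_norm, e]
    refine (quasi_norm (hS1 _ _) fun m hm => ?_).trans_lt (half_lt_self hη)
    rw [← dist_eq_norm]
    exact (hN m (hk.trans ((hrk k).trans (hS2 _ _ m hm)))).le
  · rintro (_ | k) b hb
    · simpa using (hε 0).le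
    · show ‖cm A (quasiAvg (S (k + 1) (r k)) f) * b - b * cm A (quasiAvg (S (k + 1) (r k)) f)‖ ≤ _
      refine le_trans (le_of_eq ?_) (hS3 (k + 1) (r k) (Sum.inl ⟨b, hb⟩))
      rw [hcmavg]
      simp only [z, Sum.elim_inl, quasiAvg, Finset.sum_sub_distrib, smul_sub,
        smul_mul_assoc, mul_smul_comm, Finset.sum_mul, Finset.mul_sum]
  · rintro (_ | k) g hg
    · simpa using (hε 0).le
    · show ‖α g (quasiAvg (S (k + 1) (r k)) f) - quasiAvg (S (k + 1) (r k)) f‖ ≤ _
      refine le_trans (le_of_eq ?_) (hS3 (k + 1) (r k) (Sum.inr ⟨g, hg⟩))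
      rw [← norm_cm]
      simp only [z, Sum.elim_inr, quasiAvg, Finset.sum_sub_distrib, smul_sub, map_sub, map_smul,
        map_sum]

end Vale.Agent.P095
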