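import Vale.Agent.P095.Cen

/-! Multiplier algebras: strict limits, extension of actions, tensor products.

Plan. `m * cm A a = cm A (m.fst a)`, `cm A a * m = cm A (m.snd a)` (from `m.central`), `‖cm A a‖ = ‖a‖`
(`DoubleCentralizer.norm_fst`, `isometry_mul`), `‖m‖ = ‖m.fst‖`. `exists_strict`: the set of `a` for
which `(y k).fst a` is Cauchy along `l` is a closed submodule; `Y.fst a = lim`, `Y.snd a = lim`, bounded
by `K`. `exists_mact`: `(φ m).fst = φ ∘ m.fst ∘ φ⁻¹`, `(φ m).snd = φ ∘ m.snd ∘ φ⁻¹`.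
`exists_tens_mult`: with `l = CStarAlgebra.approximateUnit A` (spectral order on `A`), `j m` is the
strict limit of `cm C (ι (m.snd e ⊗ₜ 1))` and `k z` that of `cm C (ι (e ⊗ₜ z))` (restrict the index
type to the unit ball or use that `‖e‖ ≤ 1` eventually); they are determined by
`j m * cm C (ι (a ⊗ₜ z)) = cm C (ι (m.fst a ⊗ₜ z))`, `k w * cm C (ι (a ⊗ₜ z)) = cm C (ι (a ⊗ₜ (w * z)))`
and the same on the other side; `ext_dense` gives all algebraic identities. -/

open Filter Topology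
open scoped MultiplierAlgebra TensorProduct

namespace Vale.Agent.P095

/-- the inclusion of `A` in its multiplier algebra -/
noncomputable def cm (A : Type) [NonUnitalCStarAlgebra A] : A →⋆ₙₐ[ℂ] 𝓜(ℂ, A) :=
  DoubleCentralizer.coeHom

variable {A : Type} [NonUnitalCStarAlgebra A]

theorem cm_apply (a : A) : cm A a = (a : 𝓜(ℂ, A)) := rfl

theorem mult_ext_fst {m m' : 𝓜(ℂ, A)} (h : ∀ x, m.fst x = m'.fst x) : m = m' := by
  rw [← sub_eq_zero, ← norm_eq_zero, ← DoubleCentralizer.norm_fst, norm_eq_zero,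
    DoubleCentralizer.sub_fst, sub_eq_zero]
  exact ContinuousLinearMap.ext h

theorem mult_ext_snd {m m' : 𝓜(ℂ, A)} (h : ∀ x, m.snd x = m'.snd x) : m = m' := by
  rw [← sub_eq_zero, ← norm_eq_zero, ← DoubleCentralizer.norm_snd, norm_eq_zero,
    DoubleCentralizer.sub_snd, sub_eq_zero]
  exact ContinuousLinearMap.ext h

theorem mul_cm (m : 𝓜(ℂ, A)) (a : A) : m * cm A a = cm A (m.fst a) :=
  mult_ext_snd fun x => m.central x a

theorem cm_mul (m : 𝓜(ℂ, A)) (a : A) : cm A a * m = cm A (m.snd a) :=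
  mult_ext_fst fun x => (m.central a x).symm

theorem isIdl_cm : IsIdl (cm A) := fun m a => ⟨_, mul_cm m a⟩

theorem norm_cm (a : A) : ‖cm A a‖ = ‖a‖ := by
  rw [← DoubleCentralizer.norm_fst]
  exact ContinuousLinearMap.opNorm_mul_apply ℂ A a

theorem mult_isometry : Isometry (cm A) := AddMonoidHomClass.isometry_of_norm _ norm_cm

theorem cm_injective : Function.Injective (cm A) := mult_isometry.injective

theorem norm_le_of_cm {m : 𝓜(ℂ, A)} {K : ℝ} (hK : 0 ≤ K) (h : ∀ a, ‖m * cm A a‖ ≤ K * ‖a‖) :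
    ‖m‖ ≤ K := by
  rw [← DoubleCentralizer.norm_fst]
  refine ContinuousLinearMap.opNorm_le_bound _ hK fun a => ?_
  rw [← norm_cm, ← mul_cm]
  exact h a

theorem ext_dense {s : Set A} (hs : Dense (Submodule.span ℂ s : Set A)) {m m' : 𝓜(ℂ, A)}
    (h : ∀ a ∈ s, m * cm A a = m' * cm A a) : m = m' := by
  have : m.fst = m'.fst := ContinuousLinearMap.ext_on hs fun a ha =>
    cm_injective (by rw [← mul_cm, ← mul_cm, h a ha])
  exact mult_ext_fst fun x => by rw [this]

/-- strict convergence -/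
def SLim {κ : Type} (l : Filter κ) (y : κ → 𝓜(ℂ, A)) (Y : 𝓜(ℂ, A)) : Prop :=
  ∀ a, Tendsto (fun k => y k * cm A a) l (𝓝 (Y * cm A a)) ∧
    Tendsto (fun k => cm A a * y k) l (𝓝 (cm A a * Y))

theorem mult_lim {κ : Type} (l : Filter κ) [l.NeBot] (T : κ → A →L[ℂ] A) {K : ℝ}
    (hK : ∀ᶠ k in l, ‖T k‖ ≤ K) {s : Set A} (hs : Dense (Submodule.span ℂ s : Set A))
    (h : ∀ a ∈ s, Cauchy (l.map fun k => T k a)) :
    ∃ L : A →L[ℂ] A, ∀ a, Tendsto (fun k => T k a) l (𝓝 (L a)) := by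
  let S : Submodule ℂ A :=
    { carrier := {a | ∃ b, Tendsto (fun k => T k a) l (𝓝 b)}
      zero_mem' := ⟨0, by simpa only [map_zero] using tendsto_const_nhds⟩
      add_mem' := fun ⟨b, hb⟩ ⟨b', hb'⟩ => ⟨b + b', by simpa only [map_add] using hb.add hb'⟩
      smul_mem' := fun c _ ⟨b, hb⟩ => ⟨c • b, by simpa only [map_smul] using hb.const_smul c⟩ }
  have h1 : Submodule.span ℂ s ≤ S := Submodule.span_le.2 fun a ha => CompleteSpace.complete (h a ha)
  have hK0 : 0 ≤ K := by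
    obtain ⟨k, hk⟩ := hK.exists
    exact (norm_nonneg _).trans hk
  have h2 : ∀ a, ∃ b, Tendsto (fun k => T k a) l (𝓝 b) := fun a => by
    refine CompleteSpace.complete (Metric.cauchy_iff.2 ⟨inferInstance, fun ε hε => ?_⟩)
    obtain ⟨a', ha', h3⟩ := Metric.mem_closure_iff.1 (hs a) (ε / 4 / (K + 1)) (by positivity)
    obtain ⟨b, hb⟩ := h1 ha'
    refine ⟨Metric.ball b (ε / 2), ?_, fun x hx y hy => ?_⟩
    · rw [mem_map]
      filter_upwards [hK, Metric.tendsto_nhds.1 hb (ε / 4) (by positivity)] with k k1 k2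
      have k3 : dist (T k a) (T k a') ≤ (K + 1) * (ε / 4 / (K + 1)) :=
        ((T k).dist_le_opNorm a a').trans (by gcongr; linarith)
      rw [mul_div_cancel₀ _ (by positivity)] at k3
      have := dist_triangle (T k a) (T k a') b
      change dist (T k a) b < ε / 2
      linarith
    · have := dist_triangle_right x y b
      rw [Metric.mem_ball] at hx hy
      linarith
  choose L hL using h2
  refine ⟨LinearMap.mkContinuous ⟨⟨L, fun a a' => ?_⟩, fun c a => ?_⟩ K fun a => ?_, hL⟩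
  · exact tendsto_nhds_unique (hL _) (by simpa only [map_add] using (hL a).add (hL a'))
  · exact tendsto_nhds_unique (hL _) (by simpa only [map_smul, RingHom.id_apply] using (hL a).const_smul c)
  · refine le_of_tendsto (hL a).norm ?_
    filter_upwards [hK] with k hk
    exact (T k).le_of_opNorm_le hk a

theorem exists_strict {κ : Type} (l : Filter κ) [l.NeBot] (y : κ → 𝓜(ℂ, A)) {K : ℝ}
    (hK : ∀ᶠ k in l, ‖y k‖ ≤ K) {s : Set A} (hs : Dense (Submodule.span ℂ s : Set A))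
    (h1 : ∀ a ∈ s, Cauchy (l.map fun k => y k * cm A a))
    (h2 : ∀ a ∈ s, Cauchy (l.map fun k => cm A a * y k)) : ∃ Y, SLim l y Y := by
  have hi := (mult_isometry (A := A)).isUniformInducing
  obtain ⟨L, hL⟩ := mult_lim l (fun k => (y k).fst)
    (by simpa only [DoubleCentralizer.norm_fst] using hK) hs fun a ha => by
      rw [← hi.cauchy_map_iff]
      have := h1 a ha
      simp only [mul_cm] at this
      exact this
  obtain ⟨R, hR⟩ := mult_lim l (fun k => (y k).snd)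
    (by simpa only [DoubleCentralizer.norm_snd] using hK) hs fun a ha => by
      rw [← hi.cauchy_map_iff]
      have := h2 a ha
      simp only [cm_mul] at this
      exact this
  refine ⟨⟨(L, R), fun a b => tendsto_nhds_unique ((hR a).mul_const b) ?_⟩, fun a => ?_⟩
  · simpa only [DoubleCentralizer.central] using (hL b).const_mul a
  · simp only [mul_cm, cm_mul]
    exact ⟨(mult_isometry.continuous.tendsto _).comp (hL a),
      (mult_isometry.continuous.tendsto _).comp (hR a)⟩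

theorem SLim.norm_le {κ : Type} {l : Filter κ} [l.NeBot] {y : κ → 𝓜(ℂ, A)} {Y : 𝓜(ℂ, A)}
    (h : SLim l y Y) {K : ℝ} (hK : ∀ᶠ k in l, ‖y k‖ ≤ K) : ‖Y‖ ≤ K := by
  obtain ⟨k, hk⟩ := hK.exists
  refine norm_le_of_cm ((norm_nonneg _).trans hk) fun a => le_of_tendsto (h a).1.norm ?_
  filter_upwards [hK] with k hk
  refine (norm_mul_le _ _).trans ?_
  rw [norm_cm]
  gcongr

/-- an automorphism as a continuous linear map -/
noncomputable def multL (φ : A ≃⋆ₐ[ℂ] A) : A →L[ℂ] A where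
  toFun := φ
  map_add' := map_add φ
  map_smul' := map_smul φ
  cont := (StarAlgEquiv.isometry φ).continuous

/-- the extension of an automorphism to multipliers -/
noncomputable def multMap (φ : A ≃⋆ₐ[ℂ] A) (m : 𝓜(ℂ, A)) : 𝓜(ℂ, A) where
  fst := multL φ ∘L m.fst ∘L multL φ.symm
  snd := multL φ ∘L m.snd ∘L multL φ.symm
  central x y := by
    change φ (m.snd (φ.symm x)) * y = x * φ (m.fst (φ.symm y))
    apply φ.symm.injective
    change φ.symm _ = φ.symm _
    rw [map_mul, map_mul, φ.symm_apply_apply, φ.symm_apply_apply, m.central]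

theorem multMap_fst (φ : A ≃⋆ₐ[ℂ] A) (m : 𝓜(ℂ, A)) (x : A) :
    (multMap φ m).fst x = φ (m.fst (φ.symm x)) := rfl

theorem multMap_snd (φ : A ≃⋆ₐ[ℂ] A) (m : 𝓜(ℂ, A)) (x : A) :
    (multMap φ m).snd x = φ (m.snd (φ.symm x)) := rfl

/-- the extension of an automorphism as an automorphism -/
noncomputable def multEquiv (φ : A ≃⋆ₐ[ℂ] A) : 𝓜(ℂ, A) ≃⋆ₐ[ℂ] 𝓜(ℂ, A) where
  toFun := multMap φ
  invFun := multMap φ.symm
  left_inv m := mult_ext_fst fun x => by
    rw [multMap_fst, multMap_fst, φ.symm_symm, φ.symm_apply_apply, φ.symm_apply_apply]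
  right_inv m := mult_ext_fst fun x => by
    rw [multMap_fst, multMap_fst, φ.symm_symm, φ.apply_symm_apply, φ.apply_symm_apply]
  map_mul' m m' := mult_ext_fst fun x => by
    change φ (m.fst (m'.fst (φ.symm x))) = φ (m.fst (φ.symm (φ (m'.fst (φ.symm x)))))
    rw [φ.symm_apply_apply]
  map_add' m m' := mult_ext_fst fun x => map_add φ _ _
  map_star' m := mult_ext_fst fun x => by
    rw [multMap_fst, DoubleCentralizer.star_fst, DoubleCentralizer.star_fst, multMap_snd,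
      map_star φ, map_star φ.symm]
  map_smul' c m := mult_ext_fst fun x => map_smul φ _ _

theorem exists_mact {G : Type} [Group G] (α : G →* (A ≃⋆ₐ[ℂ] A)) :
    ∃ α' : G →* (𝓜(ℂ, A) ≃⋆ₐ[ℂ] 𝓜(ℂ, A)), ∀ g a, α' g (cm A a) = cm A (α g a) := by
  refine ⟨⟨⟨fun g => multEquiv (α g), ?_⟩, fun g h => ?_⟩, fun g a => mult_ext_fst fun x => ?_⟩
  · rw [map_one]
    exact StarAlgEquiv.ext fun m => mult_ext_fst fun x => rfl
  · change multEquiv (α (g * h)) = multEquiv (α g) * multEquiv (α h)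
    rw [map_mul]
    exact StarAlgEquiv.ext fun m => mult_ext_fst fun x => rfl
  · change α g (a * (α g).symm x) = α g a * x
    rw [map_mul, (α g).apply_symm_apply]

section tens

variable {Z C : Type} [CStarAlgebra Z] [NonUnitalCStarAlgebra C] (ι : A ⊗[ℂ] Z →⋆ₙₐ[ℂ] C)

theorem mult_dense (hd : DenseRange ι) :
    Dense (Submodule.span ℂ {c | ∃ a z, c = ι (a ⊗ₜ z)} : Set C) := by
  refine hd.mono ?_
  rintro _ ⟨x, rfl⟩
  induction x using TensorProduct.induction_on with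
  | zero => rw [map_zero]; exact Submodule.zero_mem _
  | tmul a z => exact Submodule.subset_span ⟨a, z, rfl⟩
  | add x y hx hy => rw [map_add]; exact Submodule.add_mem _ hx hy

theorem mult_tmul (a b : A) (z w : Z) :
    cm C (ι (a ⊗ₜ z)) * cm C (ι (b ⊗ₜ w)) = cm C (ι ((a * b) ⊗ₜ (z * w))) := by
  rw [← map_mul, ← map_mul, Algebra.TensorProduct.tmul_mul_tmul]

theorem mult_cont (hb : ∀ a z, ‖ι (a ⊗ₜ z)‖ ≤ ‖a‖ * ‖z‖) (z : Z) :
    Continuous fun a : A => cm C (ι (a ⊗ₜ z)) := by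
  refine mult_isometry.continuous.comp (LipschitzWith.of_dist_le_mul (K := ‖z‖₊) ?_).continuous
  intro a b
  rw [dist_eq_norm, dist_eq_norm, ← map_sub, ← TensorProduct.sub_tmul, mul_comm]
  exact hb _ _

theorem mult_exists (hd : DenseRange ι) (hb : ∀ a z, ‖ι (a ⊗ₜ z)‖ ≤ ‖a‖ * ‖z‖) (m : 𝓜(ℂ, A))
    (w : Z) : ∃ Y : 𝓜(ℂ, C), ∀ a z, Y * cm C (ι (a ⊗ₜ z)) = cm C (ι (m.fst a ⊗ₜ (w * z))) ∧
      cm C (ι (a ⊗ₜ z)) * Y = cm C (ι (m.snd a ⊗ₜ (z * w))) := by
  let _ := CStarAlgebra.spectralOrder A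
  have _ := CStarAlgebra.spectralOrderedRing A
  have hl := CStarAlgebra.increasingApproximateUnit A
  have h1 : ∀ a z, Tendsto (fun e => cm C (ι (m.snd e ⊗ₜ w)) * cm C (ι (a ⊗ₜ z)))
      (CStarAlgebra.approximateUnit A) (𝓝 (cm C (ι (m.fst a ⊗ₜ (w * z))))) := fun a z => by
    simp only [mult_tmul, m.central]
    exact ((mult_cont ι hb _).tendsto _).comp (hl.tendsto_mul_right _)
  have h2 : ∀ a z, Tendsto (fun e => cm C (ι (a ⊗ₜ z)) * cm C (ι (m.snd e ⊗ₜ w)))
      (CStarAlgebra.approximateUnit A) (𝓝 (cm C (ι (m.snd a ⊗ₜ (z * w))))) := fun a z => by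
    have h3 : ∀ e, a * m.snd e = m.snd (a * e) := fun e => cm_injective (by
      rw [map_mul, ← cm_mul, ← cm_mul, map_mul, mul_assoc])
    simp only [mult_tmul, h3]
    exact ((mult_cont ι hb _).tendsto _).comp
      ((m.snd.continuous.tendsto _).comp (hl.tendsto_mul_left _))
  have h4 : ∀ᶠ e in CStarAlgebra.approximateUnit A,
      ‖cm C (ι (m.snd e ⊗ₜ w))‖ ≤ ‖m.snd‖ * 1 * ‖w‖ := by
    filter_upwards [hl.eventually_norm] with e he
    rw [norm_cm]
    refine (hb _ _).trans ?_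
    exact mul_le_mul_of_nonneg_right ((m.snd.le_opNorm e).trans (by gcongr)) (norm_nonneg _)
  obtain ⟨Y, hY⟩ := exists_strict (CStarAlgebra.approximateUnit A)
    (fun e => cm C (ι (m.snd e ⊗ₜ w))) h4 (mult_dense ι hd)
    (by rintro _ ⟨a, z, rfl⟩; exact (h1 a z).cauchy_map)
    (by rintro _ ⟨a, z, rfl⟩; exact (h2 a z).cauchy_map)
  exact ⟨Y, fun a z => ⟨tendsto_nhds_unique (hY _).1 (h1 a z),
    tendsto_nhds_unique (hY _).2 (h2 a z)⟩⟩

end tens

theorem exists_tens_mult {Z C : Type} [CStarAlgebra Z] [NonUnitalCStarAlgebra C]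
    (ι : A ⊗[ℂ] Z →⋆ₙₐ[ℂ] C) (hd : DenseRange ι) (hb : ∀ a z, ‖ι (a ⊗ₜ z)‖ ≤ ‖a‖ * ‖z‖) :
    ∃ (j : 𝓜(ℂ, A) →⋆ₐ[ℂ] 𝓜(ℂ, C)) (k : Z →⋆ₐ[ℂ] 𝓜(ℂ, C)), (∀ m z, Commute (j m) (k z)) ∧
      ∀ a z, j (cm A a) * k z = cm C (ι (a ⊗ₜ z)) := by
  choose J hJ using mult_exists ι hd hb
  have ext : ∀ (Y : 𝓜(ℂ, C)) m w, (∀ a z, Y * cm C (ι (a ⊗ₜ z)) =
      cm C (ι (m.fst a ⊗ₜ (w * z)))) → J m w = Y := fun Y m w h =>
    ext_dense (mult_dense ι hd) (by rintro _ ⟨a, z, rfl⟩; rw [h, (hJ m w a z).1])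
  have h1 : J 1 1 = 1 := ext _ _ _ fun a z => by rw [one_mul, one_mul]; rfl
  have hmul : ∀ m m' w w', J (m * m') (w * w') = J m w * J m' w' := fun m m' w w' =>
    ext _ _ _ fun a z => by rw [mul_assoc, (hJ _ _ _ _).1, (hJ _ _ _ _).1, mul_assoc]; rfl
  have hstar : ∀ m w, J (star m) (star w) = star (J m w) := fun m w => ext _ _ _ fun a z => by
    rw [← star_star (cm C (ι (a ⊗ₜ z))), ← star_mul, ← map_star, ← map_star,
      TensorProduct.star_tmul, (hJ _ _ _ _).2, ← map_star, ← map_star, TensorProduct.star_tmul,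
      star_mul, star_star, DoubleCentralizer.star_fst]
  let j : 𝓜(ℂ, A) →ₗ[ℂ] 𝓜(ℂ, C) :=
    { toFun := fun m => J m 1
      map_add' := fun m m' => ext _ _ _ fun a z => by
        rw [add_mul, (hJ _ _ _ _).1, (hJ _ _ _ _).1, ← map_add, ← map_add,
          ← TensorProduct.add_tmul]
        rfl
      map_smul' := fun c m => ext _ _ _ fun a z => by
        rw [RingHom.id_apply, smul_mul_assoc, (hJ _ _ _ _).1, ← map_smul, ← map_smul,
          TensorProduct.smul_tmul']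
        rfl }
  let k : Z →ₗ[ℂ] 𝓜(ℂ, C) :=
    { toFun := fun w => J 1 w
      map_add' := fun w w' => ext _ _ _ fun a z => by
        rw [add_mul, (hJ _ _ _ _).1, (hJ _ _ _ _).1, ← map_add, ← map_add,
          ← TensorProduct.tmul_add, add_mul]
      map_smul' := fun c w => ext _ _ _ fun a z => by
        rw [RingHom.id_apply, smul_mul_assoc, (hJ _ _ _ _).1, ← map_smul, ← map_smul,
          ← TensorProduct.tmul_smul, smul_mul_assoc] }
  refine ⟨⟨AlgHom.ofLinearMap j h1 fun m m' => ?_, fun m => ?_⟩,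
    ⟨AlgHom.ofLinearMap k h1 fun w w' => ?_, fun w => ?_⟩, fun m z => ?_, fun a z => ?_⟩
  · exact (congrArg _ (mul_one 1).symm).trans (hmul m m' 1 1)
  · exact (congrArg _ (star_one Z).symm).trans (hstar m 1)
  · exact (congrArg (J · _) (mul_one 1).symm).trans (hmul 1 1 w w')
  · exact (congrArg (J · _) (star_one _).symm).trans (hstar 1 w)
  · change J m 1 * J 1 z = J 1 z * J m 1
    rw [← hmul, ← hmul, mul_one, one_mul, one_mul, mul_one]
  · change J (cm A a) 1 * J 1 z = _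
    rw [← hmul, mul_one, one_mul]
    exact ext _ _ _ fun b w => mult_tmul ι a b z w

end Vale.Agent.P095
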