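import Vale.Agent.P095.Cen

/-! Equivariant reindexing in the central sequence algebra. -/

open Filter Topology TopologicalSpace
open scoped BoundedContinuousFunction

namespace Vale.Agent.P095

open P101 P101.RichAux

variable {A M D G : Type} [NonUnitalCStarAlgebra A] [CStarAlgebra M] [CStarAlgebra D] [Group G]
  {i : A →⋆ₙₐ[ℂ] M} {ω : Ultrafilter ℕ} {π : cenSeq i ω →⋆ₐ[ℂ] D}

theorem sr_sub [Countable G] (h : IsF i ω π) {α : G →* (M ≃⋆ₐ[ℂ] M)} {hα : Inv i α}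
    {γ : G →* (D ≃⋆ₐ[ℂ] D)} (hγ : IsAct hα π γ) {E : Type} [CStarAlgebra E] [SeparableSpace E]
    (δ : G →* (E ≃⋆ₐ[ℂ] E)) (ψ : E →⋆ₐ[ℂ] D) (hψ : ∀ g e, ψ (δ g e) = γ g (ψ e)) :
    ∃ S : StarSubalgebra ℂ (cenSeq i ω × E), IsSeparable (S : Set (cenSeq i ω × E)) ∧
      (∀ s ∈ S, π s.1 = ψ s.2) ∧ (∀ g, ∀ s ∈ S, (seqAct hα ω g s.1, δ g s.2) ∈ S) ∧
      Dense (Prod.snd '' (S : Set (cenSeq i ω × E))) := by
  choose L hL using h.1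
  let act : G → cenSeq i ω × E →⋆ₐ[ℂ] cenSeq i ω × E := fun g =>
    ((seqAct hα ω g).comp (StarAlgHom.fst ℂ _ E)).prod
      ((δ g : E →⋆ₐ[ℂ] E).comp (StarAlgHom.snd ℂ _ E))
  let S := StarAlgebra.adjoin ℂ (Set.range fun p : G × ℕ =>
    act p.1 (L (ψ (denseSeq E p.2)), denseSeq E p.2))
  refine ⟨S, isSeparable_adjoin (Set.countable_range _), fun s hs =>
    StarAlgebra.adjoin_le (S := StarAlgHom.equalizer (π.comp (StarAlgHom.fst ℂ _ E))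
      (ψ.comp (StarAlgHom.snd ℂ _ E))) ?_ hs, fun g s hs =>
    StarAlgebra.adjoin_le (S := S.comap (act g)) ?_ hs, (denseRange_denseSeq E).mono ?_⟩
  · rintro _ ⟨p, rfl⟩
    exact (hγ p.1 _).symm.trans ((congrArg _ (hL _)).trans (hψ _ _).symm)
  · rintro _ ⟨p, rfl⟩
    exact StarAlgebra.subset_adjoin ℂ _ ⟨(g * p.1, p.2), Prod.ext (Subtype.ext
      (BoundedContinuousFunction.ext fun n => act_mul α _ _ _)) (act_mul δ _ _ _)⟩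
  · rintro _ ⟨j, rfl⟩
    exact ⟨_, StarAlgebra.subset_adjoin ℂ _ ⟨(1, j), rfl⟩, by simp [act]⟩

theorem sr_ext {R E : Type} [CStarAlgebra R] [CStarAlgebra E] (S : StarSubalgebra ℂ (R × E))
    (hd : Dense (Prod.snd '' (S : Set (R × E)))) (K : StarSubalgebra ℂ R) (θ : K →⋆ₐ[ℂ] D)
    (hK : ∀ s ∈ S, s.1 ∈ K) (h : ∀ s hs, ‖θ ⟨_, hK s hs⟩‖ ≤ ‖s.2‖) :
    ∃ σ : E →⋆ₐ[ℂ] D, ∀ s hs, σ s.2 = θ ⟨_, hK s hs⟩ := by
  obtain ⟨σ, hσ⟩ := exists_ext (θ.comp (((StarAlgHom.fst ℂ R E).comp S.subtype).codRestrict K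
    fun s => hK s.1 s.2)) ((StarAlgHom.snd ℂ R E).comp S.subtype) (hd.mono (by
      rintro _ ⟨s, hs, rfl⟩
      exact ⟨⟨s, hs⟩, rfl⟩)) fun s => h s.1 s.2
  exact ⟨σ, fun s hs => hσ ⟨s, hs⟩⟩

theorem sr_dom (κ : ℕ → ℕ) : ∃ (K : StarSubalgebra ℂ (cenSeq i ω)) (r : K →⋆ₐ[ℂ] cenSeq i ω),
    (∀ x, reidx κ x.1 ∈ cenSeq i ω → x ∈ K) ∧ ∀ x, (r x).1 = reidx κ x.1.1 :=
  ⟨(cenSeq i ω).comap ((reidx κ).comp (cenSeq i ω).subtype), (((reidx κ).comp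
    (cenSeq i ω).subtype).comp (StarSubalgebra.subtype _)).codRestrict _ fun x => x.2,
    fun _ h => h, fun _ => rfl⟩

/-- equivariant reindexing -/
theorem IsF.sr [SeparableSpace A] [Countable G] (h : IsF i ω π) (hi : IsIdl i)
    (hω : (ω : Filter ℕ) ≤ cofinite) {α : G →* (M ≃⋆ₐ[ℂ] M)} {hα : Inv i α}
    {γ : G →* (D ≃⋆ₐ[ℂ] D)} (hγ : IsAct hα π γ) {E : Type} [CStarAlgebra E] [SeparableSpace E]
    (δ : G →* (E ≃⋆ₐ[ℂ] E)) (ψ : E →⋆ₐ[ℂ] D) (hψ : ∀ g e, ψ (δ g e) = γ g (ψ e))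
    {T : Set D} (hT : IsSeparable T) :
    ∃ σ : E →⋆ₐ[ℂ] D, (∀ g e, σ (δ g e) = γ g (σ e)) ∧ ∀ e, ∀ t ∈ T, Commute (σ e) t := by
  choose L hL using h.1
  obtain ⟨S, hsep, hS, hS', hd⟩ := sr_sub h hγ δ ψ hψ
  obtain ⟨c, hc, hc'⟩ := hT
  obtain ⟨κ, -, hκ⟩ := h.exists_reidx hi hω (hsep.image continuous_fst)
    (hc.image fun t => (L t).1).isSeparable (fun _ => Set.univ) fun _ => univ_mem
  obtain ⟨K, r, hK, hr⟩ := sr_dom (i := i) (ω := ω) κ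
  obtain ⟨σ, hσ⟩ := sr_ext S hd K (π.comp r) (fun s hs => hK _ (hκ _ ⟨s, hs, rfl⟩).1) fun s hs =>
    ((hκ _ ⟨s, hs, rfl⟩).2.1 _ (hr _)).trans (by
      rw [hS _ hs]; exact NonUnitalStarAlgHom.norm_apply_le ψ _)
  have hσc := cont σ
  refine ⟨σ, fun g e => ?_, fun e t ht => ?_⟩
  · have := (StarAlgEquiv.isometry (δ g)).continuous
    have := (StarAlgEquiv.isometry (γ g)).continuous
    refine (isClosed_eq (f := fun e => σ (δ g e)) (g := fun e => γ g (σ e)) (by fun_prop)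
      (by fun_prop)).closure_subset_iff.2 ?_ (hd e)
    rintro _ ⟨s, hs, rfl⟩
    refine (hσ _ (hS' g _ hs)).trans ?_
    rw [hσ s hs, StarAlgHom.comp_apply, StarAlgHom.comp_apply, hγ]
    refine congrArg π (Subtype.ext (BoundedContinuousFunction.ext fun n => ?_))
    rw [seqAct_apply, hr, hr]
    rfl
  · refine (isClosed_eq (f := fun e => σ e * t) (g := fun e => t * σ e) (by fun_prop)
      (by fun_prop)).closure_subset_iff.2 ?_ (hd e)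
    rintro _ ⟨s, hs, rfl⟩
    refine (isClosed_eq (f := fun t => σ s.2 * t) (g := fun t => t * σ s.2) (by fun_prop)
      (by fun_prop)).closure_subset_iff.2 (fun t ht => ?_) (hc' ht)
    change _ * t = t * _
    rw [hσ s hs, StarAlgHom.comp_apply, ← hL t, ← map_mul, ← map_mul]
    refine (h.eq_iff.2 fun a => ((hκ _ ⟨s, hs, rfl⟩).2.2 _ ⟨t, ht, rfl⟩ a).congr fun n => ?_).symm
    change _ = ((L t).1 n * (r _).1 n - (r _).1 n * (L t).1 n) * _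
    rw [hr]
    rfl

theorem IsF.rich_fixed [SeparableSpace A] [Countable G] (h : IsF i ω π) (hi : IsIdl i)
    (hω : (ω : Filter ℕ) ≤ cofinite) {α : G →* (M ≃⋆ₐ[ℂ] M)} {hα : Inv i α}
    {γ : G →* (D ≃⋆ₐ[ℂ] D)} (hγ : IsAct hα π γ) : Rich (fixed γ) := by
  intro E _ _ ψ T hT
  obtain ⟨σ, h1, h2⟩ := h.sr hi hω hγ (1 : G →* (E ≃⋆ₐ[ℂ] E)) ((fixed γ).subtype.comp ψ)
    (fun g e => ((ψ e).2 g).symm) (hT.image continuous_subtype_val)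
  exact ⟨σ.codRestrict _ fun e g => (h1 g e).symm, fun e t ht =>
    Subtype.ext (h2 e _ ⟨t, ht, rfl⟩)⟩

theorem IsF.rich [SeparableSpace A] (h : IsF i ω π) (hi : IsIdl i)
    (hω : (ω : Filter ℕ) ≤ cofinite) : Rich D := by
  intro E _ _ ψ T hT
  have hα : Inv i (1 : Unit →* (M ≃⋆ₐ[ℂ] M)) := fun _ a => ⟨a, rfl⟩
  obtain ⟨σ, -, h2⟩ := h.sr hi hω (hα := hα) (γ := 1) (fun _ _ => rfl) (1 : Unit →* (E ≃⋆ₐ[ℂ] E)) ψ
    (fun _ _ => rfl) hT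
  exact ⟨σ, h2⟩

end Vale.Agent.P095
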