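import Vale.Agent.P095.Tens

/-! Existence of the minimal tensor product.

Plan. For `x : A ⊗ Z` and representation data `(H, K, ρ, σ)` let `θ x` be the extension to the
completion of `H ⊗ K` of the operator `TensorProduct.lift` of `(a, z) ↦ mapL (ρ a) (σ z)`; this is a
non-unital star homomorphism into `B (completion)` (compare `P101.spaExt`, `spa_adj`, `spaMap`,
`exists_minTensor` in P101/Spatial) with `‖θ (∑ a i ⊗ₜ z i)‖ = ‖∑ mapL (ρ (a i)) (σ (z i))‖`. The values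
are bounded by `∑ ‖a i‖ ‖z i‖` and the zero representation exists. For every index
`j = (n, a, z, k)` choose data whose value at `(a, z)` exceeds `sSup - 1 / (k + 1)`; map `A ⊗ Z` to
`lp (fun j => B j) ∞` and let `C` be the closure of the range (a closed
`NonUnitalStarSubalgebra`). -/

open scoped TensorProduct

namespace Vale.Agent.P095

theorem minEx_sup {R : Type} [NonUnitalRing R] [StarRing R] [Module ℂ R] {J : Type} [Nonempty J]
    (B : J → Type) [∀ j, NonUnitalCStarAlgebra (B j)] (θ : ∀ j, R →⋆ₙₐ[ℂ] B j)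
    (hb : ∀ x, BddAbove (Set.range fun j => ‖θ j x‖)) :
    ∃ (C : Type) (_ : NonUnitalCStarAlgebra C) (ι : R →⋆ₙₐ[ℂ] C), DenseRange ι ∧
      ∀ x, IsLUB (Set.range fun j => ‖θ j x‖) ‖ι x‖ := by
  let k : R →⋆ₙₐ[ℂ] lp B ⊤ :=
    { toFun := fun x => ⟨fun j => θ j x, memℓp_infty (hb x)⟩
      map_smul' := fun c x => lp.ext (funext fun j => map_smul (θ j) c x)
      map_zero' := lp.ext (funext fun j => map_zero (θ j))
      map_add' := fun x y => lp.ext (funext fun j => map_add (θ j) x y)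
      map_mul' := fun x y => lp.ext (funext fun j => map_mul (θ j) x y)
      map_star' := fun x => lp.ext (funext fun j => map_star (θ j) x) }
  let S := (NonUnitalStarAlgHom.range k).topologicalClosure
  have hS : IsClosed (S : Set (lp B ⊤)) := NonUnitalStarSubalgebra.isClosed_topologicalClosure _
  have hm : ∀ x, k x ∈ S := fun x => NonUnitalStarSubalgebra.le_topologicalClosure _ ⟨x, rfl⟩
  refine ⟨S, inferInstance, NonUnitalStarAlgHom.codRestrict k S hm, fun y => ?_,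
    fun x => lp.isLUB_norm (k x)⟩
  rw [closure_subtype]
  refine closure_mono ?_ y.2
  rintro _ ⟨x, rfl⟩
  exact ⟨_, ⟨x, rfl⟩, rfl⟩

variable {A Z : Type} [NonUnitalCStarAlgebra A] [CStarAlgebra Z]

theorem minEx_rep {H K : Type} [NormedAddCommGroup H] [InnerProductSpace ℂ H] [CompleteSpace H]
    [NormedAddCommGroup K] [InnerProductSpace ℂ K] [CompleteSpace K]
    (ρ : A →⋆ₙₐ[ℂ] (H →L[ℂ] H)) (σ : Z →⋆ₙₐ[ℂ] (K →L[ℂ] K)) :
    ∃ (B : Type) (_ : NonUnitalCStarAlgebra B) (θ : A ⊗[ℂ] Z →⋆ₙₐ[ℂ] B),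
      ∀ (n : ℕ) (a : Fin n → A) (z : Fin n → Z),
        ‖θ (∑ i, a i ⊗ₜ z i)‖ = ‖∑ i, TensorProduct.mapL (ρ (a i)) (σ (z i))‖ := by
  let j : A ⊗[ℂ] Z →ₗ[ℂ] (H ⊗[ℂ] K →L[ℂ] H ⊗[ℂ] K) := (P101.spaMap H K).toLinearMap ∘ₗ
    TensorProduct.map (ρ : A →ₗ[ℂ] (H →L[ℂ] H)) (σ : Z →ₗ[ℂ] (K →L[ℂ] K))
  have hj : ∀ a z, j (a ⊗ₜ z) = TensorProduct.mapL (ρ a) (σ z) := fun _ _ => rfl
  have hm : ∀ x y, j (x * y) = j x * j y := fun x y => by
    obtain ⟨n, a, z, rfl⟩ := TensorProduct.exists_sum_tmul_eq x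
    obtain ⟨m, b, w, rfl⟩ := TensorProduct.exists_sum_tmul_eq y
    simp only [Finset.sum_mul_sum, map_sum, Algebra.TensorProduct.tmul_mul_tmul, hj, map_mul,
      TensorProduct.mapL_mul]
  have hs : ∀ r x y, inner ℂ (j (star r) x) y = inner ℂ x (j r y) := fun r x y => by
    induction r with
    | zero => simp
    | add a b ha hb =>
      rw [star_add, map_add, map_add, add_apply, add_apply, inner_add_left, inner_add_right, ha, hb]
    | tmul a z =>
      rw [TensorProduct.star_tmul, hj, hj, map_star, map_star]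
      exact P101.spa_adj _ _ _ _
  refine ⟨UniformSpace.Completion (H ⊗[ℂ] K) →L[ℂ] UniformSpace.Completion (H ⊗[ℂ] K),
    inferInstance,
    { toFun := fun x => P101.spaExt _ (j x)
      map_smul' := fun c x => by rw [map_smul, map_smul]; rfl
      map_zero' := by rw [map_zero, map_zero]
      map_add' := fun x y => by rw [map_add, map_add]
      map_mul' := fun x y => by rw [hm, map_mul]
      map_star' := fun x => P101.spaExt_star (hs x) }, fun n a z => ?_⟩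
  refine (P101.norm_spaExt (j _)).trans ?_
  rw [map_sum]
  rfl

theorem RepNorm.le_sum {n : ℕ} {a : Fin n → A} {z : Fin n → Z} {r : ℝ} (h : RepNorm a z r) :
    r ≤ ∑ i, ‖a i‖ * ‖z i‖ := by
  obtain ⟨H, K, _, _, _, _, _, _, ρ, σ, rfl⟩ := h
  refine norm_sum_le_of_le (f := fun i => TensorProduct.mapL (ρ (a i)) (σ (z i))) _ fun i _ => ?_
  exact (TensorProduct.norm_mapL_le _ _).trans (mul_le_mul
    (NonUnitalStarAlgHom.norm_apply_le ρ _) (NonUnitalStarAlgHom.norm_apply_le σ _)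
    (norm_nonneg _) (norm_nonneg _))

theorem RepNorm.exists_hom {n : ℕ} {a : Fin n → A} {z : Fin n → Z} {r : ℝ} (h : RepNorm a z r) :
    ∃ (B : Type) (_ : NonUnitalCStarAlgebra B) (θ : A ⊗[ℂ] Z →⋆ₙₐ[ℂ] B),
      ‖θ (∑ i, a i ⊗ₜ z i)‖ = r ∧ ∀ (m : ℕ) (b : Fin m → A) (w : Fin m → Z),
        RepNorm b w ‖θ (∑ i, b i ⊗ₜ w i)‖ := by
  obtain ⟨H, K, _, _, _, _, _, _, ρ, σ, rfl⟩ := h
  obtain ⟨B, _, θ, hθ⟩ := minEx_rep ρ σ
  exact ⟨B, _, θ, hθ n a z, fun m b w => ⟨H, K, _, _, ‹_›, _, _, ‹_›, ρ, σ, hθ m b w⟩⟩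

theorem exists_minTensor (A Z : Type) [NonUnitalCStarAlgebra A] [CStarAlgebra Z] :
    ∃ (C : Type) (_ : NonUnitalCStarAlgebra C) (ι : A ⊗[ℂ] Z →⋆ₙₐ[ℂ] C), IsMinTensor ι := by
  let J := Σ n : ℕ, {q : (Fin n → A) × (Fin n → Z) × ℝ // RepNorm q.1 q.2.1 q.2.2}
  have : Nonempty J := ⟨⟨0, (0, 0, 0), ℂ, ℂ, _, _, inferInstance, _, _, inferInstance, 0, 0,
    by simp⟩⟩
  choose B i θ h1 h2 using fun j : J => j.2.2.exists_hom
  obtain ⟨C, _, ι, h3, h4⟩ := minEx_sup B θ fun x => by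
    obtain ⟨n, a, z, rfl⟩ := TensorProduct.exists_sum_tmul_eq x
    refine ⟨∑ i, ‖a i‖ * ‖z i‖, ?_⟩
    rintro _ ⟨j, rfl⟩
    exact (h2 j n a z).le_sum
  refine ⟨C, _, ι, h3, fun n a z => ?_⟩
  convert h4 (∑ i, a i ⊗ₜ z i) using 1
  ext r
  constructor
  · intro hr
    exact ⟨⟨n, (a, z, r), hr⟩, h1 _⟩
  · rintro ⟨j, rfl⟩
    exact h2 j n a z

end Vale.Agent.P095
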