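import Vale.Agent.P101.Rich
import Vale.Agent.P101.Sep
import Vale.Agent.P133.Quot

/-! The central sequence algebra `F(A) = (M_ω ∩ A') / Ann A` of an ideal `i : A → M`
(`M` unital: the unitization, the multiplier algebra, or `A` itself when `A` is unital),
the induced action, the fixed point algebra and equivariant reindexing. -/

open Filter Topology TopologicalSpace
open scoped BoundedContinuousFunction

namespace Vale.Agent.P095

open P101 P101.RichAux

theorem exists_quot_ideal {R : Type} [CStarAlgebra R] (J : TwoSidedIdeal R)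
    (hJ : IsClosed (J : Set R)) : ∃ (U : Type) (_ : CStarAlgebra U) (π : R →⋆ₐ[ℂ] U),
      Function.Surjective π ∧ ∀ x, π x = 0 ↔ x ∈ J := by
  obtain ⟨q, h1, h2, h3⟩ := P133.exists_quot J
  refine ⟨q.V, inferInstance, q.π, h1, fun x => ⟨fun h => ?_, h2 x⟩⟩
  refine hJ.closure_subset_iff.2 subset_rfl (Metric.mem_closure_iff.2 fun ε hε => ?_)
  obtain ⟨j, hj, h4⟩ := h3 x ε hε
  exact ⟨j, hj, by rwa [h, norm_zero, zero_add, ← dist_eq_norm] at h4⟩

/-- lifting with control of the norm -/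
theorem exists_lift_le {R U : Type} [CStarAlgebra R] [CStarAlgebra U] (π : R →⋆ₐ[ℂ] U)
    (hπ : Function.Surjective π) (u : U) : ∃ x, π x = u ∧ ‖x‖ ≤ ‖u‖ := by
  obtain ⟨x, rfl⟩ := hπ u
  rcases (norm_nonneg (π x)).eq_or_lt with h0 | h0
  · exact ⟨0, by rw [map_zero, norm_eq_zero.1 h0.symm], by simp⟩
  set c := ‖π x‖ with hc
  let g : ℝ → ℝ := fun t => c / √(max t (c ^ 2))
  have hp : ∀ t, 0 < max t (c ^ 2) := fun t => lt_max_of_lt_right (by positivity)
  have hg : Continuous g := continuous_const.div (by fun_prop) fun t => (Real.sqrt_pos.2 (hp t)).ne'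
  have hh : IsSelfAdjoint (star x * x) := .star_mul_self x
  refine ⟨x * cfc g (star x * x), ?_, ?_⟩
  · rw [map_mul, StarAlgHomClass.map_cfc π g _ hg.continuousOn (cont π) hh (hh.map π),
      cfc_congr (g := fun _ => 1), cfc_const_one ℝ _ (hh.map π), mul_one]
    intro t ht
    have h1 : t ≤ c ^ 2 := by
      rcases subsingleton_or_nontrivial U with hU | hU
      · exact absurd (isUnit_of_subsingleton _) ht
      have := spectrum.norm_le_norm_of_mem ht
      rw [map_mul, map_star, CStarRing.norm_star_mul_self, ← sq] at this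
      exact (le_abs_self t).trans this
    simp only [g, max_eq_right h1, Real.sqrt_sq h0.le, div_self h0.ne']
  · have hs : IsSelfAdjoint (cfc g (star x * x)) := cfc_predicate _ _
    refine (pow_le_pow_iff_left₀ (norm_nonneg _) h0.le two_ne_zero).1 ?_
    rw [sq, ← CStarRing.norm_star_mul_self, star_mul, hs.star_eq, mul_assoc, ← mul_assoc (star x)]
    nth_rw 2 [← cfc_id' ℝ (star x * x)]
    rw [← cfc_mul _ _ _ (by fun_prop) hg.continuousOn, ← cfc_mul _ _ _ hg.continuousOn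
      (by fun_prop)]
    refine norm_cfc_le (by positivity) fun t ht => ?_
    have h1 : g t * (t * g t) = c ^ 2 * (t / max t (c ^ 2)) := by
      simp only [g]
      rw [mul_left_comm, div_mul_div_comm, Real.mul_self_sqrt (hp t).le]
      ring
    let _ := CStarAlgebra.spectralOrder R
    have := CStarAlgebra.spectralOrderedRing R
    have h2 : 0 ≤ t := spectrum_nonneg_of_nonneg (star_mul_self_nonneg x) ht
    rw [h1, Real.norm_of_nonneg (mul_nonneg (by positivity) (div_nonneg h2 (hp t).le))]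
    exact mul_le_of_le_one_right (by positivity) ((div_le_one (hp t)).2 (le_max_left _ _))

section Nul

variable {M : Type} [CStarAlgebra M] {ω : Ultrafilter ℕ}

/-- null sequences along `ω` -/
def Nul (ω : Ultrafilter ℕ) (x : ℕ → M) : Prop := Tendsto x (ω : Filter ℕ) (𝓝 0)

theorem nul_iff {x : ℕ → M} : Nul ω x ↔ Tendsto (fun n => ‖x n‖) (ω : Filter ℕ) (𝓝 0) :=
  tendsto_zero_iff_norm_tendsto_zero

theorem nul_iff' {x : ℕ → M} : Nul ω x ↔ ∀ ε > 0, ∀ᶠ n in (ω : Filter ℕ), ‖x n‖ < ε :=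
  NormedAddGroup.tendsto_nhds_zero

theorem Nul.zero : Nul ω fun _ => (0 : M) := tendsto_const_nhds

theorem Nul.congr {x y : ℕ → M} (h : Nul ω x) (e : ∀ n, x n = y n) : Nul ω y := Tendsto.congr e h

theorem Nul.add {x y : ℕ → M} (h : Nul ω x) (h' : Nul ω y) : Nul ω fun n => x n + y n := by
  simpa [Nul] using Tendsto.add h h'

theorem Nul.sub {x y : ℕ → M} (h : Nul ω x) (h' : Nul ω y) : Nul ω fun n => x n - y n := by
  simpa [Nul] using Tendsto.sub h h'

theorem Nul.neg {x : ℕ → M} (h : Nul ω x) : Nul ω fun n => -x n := by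
  simpa [Nul] using Tendsto.neg h

theorem Nul.star {x : ℕ → M} (h : Nul ω x) : Nul ω fun n => star (x n) := by
  simpa [Nul] using Tendsto.star h

theorem Nul.of_le {N : Type} [CStarAlgebra N] {x : ℕ → M} {y : ℕ → N} (h : Nul ω x) (C : ℝ)
    (e : ∀ n, ‖y n‖ ≤ C * ‖x n‖) : Nul ω y :=
  squeeze_zero_norm e (by simpa using (nul_iff.1 h).const_mul C)

theorem Nul.mul_left {x : ℕ → M} (h : Nul ω x) (y : ℕ →ᵇ M) : Nul ω fun n => y n * x n :=
  h.of_le ‖y‖ fun n => (norm_mul_le _ _).trans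
    (mul_le_mul_of_nonneg_right (y.norm_coe_le_norm n) (norm_nonneg _))

theorem Nul.mul_right {x : ℕ → M} (h : Nul ω x) (y : ℕ →ᵇ M) : Nul ω fun n => x n * y n :=
  h.of_le ‖y‖ fun n => (norm_mul_le _ _).trans (by
    rw [mul_comm]; exact mul_le_mul_of_nonneg_right (y.norm_coe_le_norm n) (norm_nonneg _))

theorem Nul.const_mul {x : ℕ → M} (h : Nul ω x) (y : M) : Nul ω fun n => y * x n :=
  h.mul_left (.const ℕ y)

theorem Nul.mul_const {x : ℕ → M} (h : Nul ω x) (y : M) : Nul ω fun n => x n * y :=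
  h.mul_right (.const ℕ y)

theorem Nul.map {N : Type} [CStarAlgebra N] {x : ℕ → M} (h : Nul ω x) (φ : M →⋆ₐ[ℂ] N) :
    Nul ω fun n => φ (x n) :=
  h.of_le 1 fun n => by rw [one_mul]; exact NonUnitalStarAlgHom.norm_apply_le φ _

theorem isClosed_nul {X : Type} [PseudoMetricSpace X] (L : X → ℕ → M) (C : ℝ)
    (hL : ∀ x y n, ‖L x n - L y n‖ ≤ C * dist x y) : IsClosed {x | Nul ω (L x)} := by
  refine isClosed_of_closure_subset fun x hx => nul_iff'.2 fun ε hε => ?_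
  obtain ⟨δ, hδ, h1⟩ := exists_pos_mul_lt (half_pos hε) |C|
  obtain ⟨y, hy, h2⟩ := Metric.mem_closure_iff.1 hx δ hδ
  filter_upwards [nul_iff'.1 hy _ (half_pos hε)] with n hn
  have h3 := norm_add_le (L x n - L y n) (L y n)
  rw [sub_add_cancel] at h3
  have h4 : C * dist x y ≤ |C| * δ :=
    mul_le_mul (le_abs_self C) h2.le dist_nonneg (abs_nonneg C)
  linarith [hL x y n]

end Nul

variable {A M D G : Type} [NonUnitalCStarAlgebra A] [CStarAlgebra M] [CStarAlgebra D] [Group G]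

/-- the range of `i` is an ideal -/
def IsIdl (i : A →⋆ₙₐ[ℂ] M) : Prop := ∀ m a, ∃ b, m * i a = i b

theorem IsIdl.right {i : A →⋆ₙₐ[ℂ] M} (h : IsIdl i) (m : M) (a : A) : ∃ b, i a * m = i b := by
  obtain ⟨b, hb⟩ := h (star m) (star a)
  exact ⟨star b, by rw [map_star, ← hb, star_mul, star_star, ← map_star, star_star]⟩

/-- bounded sequences that asymptotically commute with the range of `i` -/
def cenSeq (i : A →⋆ₙₐ[ℂ] M) (ω : Ultrafilter ℕ) : StarSubalgebra ℂ (ℕ →ᵇ M) where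
  carrier := {x | ∀ a, Nul ω fun n => x n * i a - i a * x n}
  mul_mem' {x y} hx hy a := (((hy a).mul_left x).add ((hx a).mul_right y)).congr fun n => by
    simp only [BoundedContinuousFunction.mul_apply]; noncomm_ring
  add_mem' {x y} hx hy a := ((hx a).add (hy a)).congr fun n => by
    simp only [BoundedContinuousFunction.add_apply]; noncomm_ring
  algebraMap_mem' c a := Nul.zero.congr fun n => by
    simp [Algebra.algebraMap_eq_smul_one]
  star_mem' {x} hx a := (hx (star a)).star.neg.congr fun n => by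
    simp [map_star]

variable {i : A →⋆ₙₐ[ℂ] M} {ω : Ultrafilter ℕ}

theorem mem_cenSeq {x : ℕ →ᵇ M} :
    x ∈ cenSeq i ω ↔ ∀ a, Nul ω fun n => x n * i a - i a * x n := Iff.rfl

theorem norm_comm_le (x y : M) : ‖x * y - y * x‖ ≤ 2 * ‖y‖ * ‖x‖ :=
  (norm_sub_le _ _).trans (by linarith [norm_mul_le x y, norm_mul_le y x])

theorem norm_apply_sub (x y : ℕ →ᵇ M) (n : ℕ) : ‖x n - y n‖ ≤ dist x y := by
  rw [← dist_eq_norm]; exact BoundedContinuousFunction.dist_coe_le_dist n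

instance : IsClosed (cenSeq i ω : Set (ℕ →ᵇ M)) := by
  have : (cenSeq i ω : Set (ℕ →ᵇ M)) =
      ⋂ a, {x : ℕ →ᵇ M | Nul ω fun n => x n * i a - i a * x n} := by
    ext x; simp [mem_cenSeq]
  rw [this]
  refine isClosed_iInter fun a => isClosed_nul _ (2 * ‖i a‖) fun x y n => ?_
  rw [show x n * i a - i a * x n - (y n * i a - i a * y n) =
    (x n - y n) * i a - i a * (x n - y n) by noncomm_ring]
  exact (norm_comm_le _ _).trans (mul_le_mul_of_nonneg_left (norm_apply_sub x y n) (by positivity))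

/-- `π` presents `D` as the quotient of `cenSeq` by the annihilator of the range of `i` -/
def IsF (i : A →⋆ₙₐ[ℂ] M) (ω : Ultrafilter ℕ) (π : cenSeq i ω →⋆ₐ[ℂ] D) : Prop :=
  Function.Surjective π ∧ ∀ x, π x = 0 ↔ ∀ a, Nul ω fun n => x.1 n * i a

theorem isClosed_ann (a : A) : IsClosed {x : ℕ →ᵇ M | Nul ω fun n => x n * i a} :=
  isClosed_nul _ ‖i a‖ fun x y n => by
    rw [← sub_mul, mul_comm]
    exact (norm_mul_le _ _).trans (mul_le_mul_of_nonneg_right (norm_apply_sub x y n)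
      (norm_nonneg _))

theorem exists_F (i : A →⋆ₙₐ[ℂ] M) (ω : Ultrafilter ℕ) :
    ∃ (D : Type) (_ : CStarAlgebra D) (π : cenSeq i ω →⋆ₐ[ℂ] D), IsF i ω π := by
  let J : TwoSidedIdeal (cenSeq i ω) := .mk' {x | ∀ a, Nul ω fun n => x.1 n * i a}
    (fun a => Nul.zero.congr fun n => by simp)
    (fun {x y} hx hy a => ((hx a).add (hy a)).congr fun n => (add_mul _ _ _).symm)
    (fun {x} hx a => (hx a).neg.congr fun n => (neg_mul _ _).symm)
    (fun {x y} hy a => ((hy a).mul_left x.1).congr fun n => (mul_assoc _ _ _).symm)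
    (fun {x y} hx a => (((hx a).mul_right y.1).add ((y.2 a).mul_left x.1)).congr fun n => by
      change _ = x.1 n * y.1 n * i a
      noncomm_ring)
  obtain ⟨D, _, π, h1, h2⟩ := exists_quot_ideal J (by
    have : (J : Set (cenSeq i ω)) =
        ⋂ a, Subtype.val ⁻¹' {x : ℕ →ᵇ M | Nul ω fun n => x n * i a} := by
      ext x; simp [J]
    rw [this]
    exact isClosed_iInter fun a => (isClosed_ann a).preimage continuous_subtype_val)
  exact ⟨D, inferInstance, π, h1, fun x => (h2 x).trans (by simp [J])⟩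

variable {π : cenSeq i ω →⋆ₐ[ℂ] D}

theorem IsF.eq_iff (h : IsF i ω π) {x y : cenSeq i ω} :
    π x = π y ↔ ∀ a, Nul ω fun n => (x.1 n - y.1 n) * i a := by
  rw [← sub_eq_zero, ← map_sub, h.2]; rfl

/-- the fixed point algebra -/
def fixed (γ : G →* (D ≃⋆ₐ[ℂ] D)) : StarSubalgebra ℂ D where
  carrier := {d | ∀ g, γ g d = d}
  mul_mem' hx hy g := by rw [map_mul, hx g, hy g]
  add_mem' hx hy g := by rw [map_add, hx g, hy g]
  algebraMap_mem' c g := AlgHomClass.commutes (γ g) c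
  star_mem' hx g := by rw [map_star, hx g]

theorem mem_fixed {γ : G →* (D ≃⋆ₐ[ℂ] D)} {d : D} : d ∈ fixed γ ↔ ∀ g, γ g d = d := Iff.rfl

instance (γ : G →* (D ≃⋆ₐ[ℂ] D)) : IsClosed (fixed γ : Set D) := by
  have : (fixed γ : Set D) = ⋂ g, {d | γ g d = d} := by ext d; simp [mem_fixed]
  rw [this]
  exact isClosed_iInter fun g => isClosed_eq (StarAlgEquiv.isometry (γ g)).continuous continuous_id

/-- the action on `M` preserves the range of `i` -/
def Inv (i : A →⋆ₙₐ[ℂ] M) (α : G →* (M ≃⋆ₐ[ℂ] M)) : Prop := ∀ g a, ∃ b, α g (i a) = i b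

theorem act_inv (α : G →* (M ≃⋆ₐ[ℂ] M)) (g : G) (x : M) : α g (α g⁻¹ x) = x := by
  rw [← StarAlgEquiv.mul_apply, ← map_mul, mul_inv_cancel, map_one, StarAlgEquiv.one_apply]

theorem act_mul (α : G →* (M ≃⋆ₐ[ℂ] M)) (g h : G) (x : M) : α (g * h) x = α g (α h x) := by
  rw [map_mul, StarAlgEquiv.mul_apply]

theorem Inv.surj {α : G →* (M ≃⋆ₐ[ℂ] M)} (h : Inv i α) (g : G) (a : A) :
    ∃ b, i a = α g (i b) := by
  obtain ⟨b, hb⟩ := h g⁻¹ a
  exact ⟨b, by rw [← hb, act_inv]⟩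

/-- the action on central sequences -/
noncomputable def seqAct {α : G →* (M ≃⋆ₐ[ℂ] M)} (h : Inv i α) (ω : Ultrafilter ℕ) (g : G) :
    cenSeq i ω →⋆ₐ[ℂ] cenSeq i ω :=
  ((seqMap (α g : M →⋆ₐ[ℂ] M)).comp (cenSeq i ω).subtype).codRestrict _ fun x a => by
    obtain ⟨b, hb⟩ := h.surj g a
    refine ((x.2 b).map (α g : M →⋆ₐ[ℂ] M)).congr fun n => ?_
    rw [hb, map_sub, map_mul, map_mul]; rfl

theorem seqAct_apply {α : G →* (M ≃⋆ₐ[ℂ] M)} (h : Inv i α) (g : G) (x : cenSeq i ω) (n : ℕ) :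
    (seqAct h ω g x).1 n = α g (x.1 n) := rfl

/-- `γ` is the action induced by `α` -/
def IsAct {α : G →* (M ≃⋆ₐ[ℂ] M)} (h : Inv i α) (π : cenSeq i ω →⋆ₐ[ℂ] D)
    (γ : G →* (D ≃⋆ₐ[ℂ] D)) : Prop := ∀ g x, γ g (π x) = π (seqAct h ω g x)

theorem IsF.exists_act (hF : IsF i ω π) {α : G →* (M ≃⋆ₐ[ℂ] M)} (h : Inv i α) :
    ∃ γ : G →* (D ≃⋆ₐ[ℂ] D), IsAct h π γ := by
  choose J hJ using fun g => exists_factor π hF.1 (π.comp (seqAct h ω g)) fun x hx =>
    (hF.2 _).2 fun a => by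
      obtain ⟨b, hb⟩ := h.surj g a
      refine (((hF.2 x).1 hx b).map (α g : M →⋆ₐ[ℂ] M)).congr fun n => ?_
      rw [hb, map_mul]; rfl
  have hm : ∀ g k d, J (g * k) d = J g (J k d) := fun g k d => by
    obtain ⟨x, rfl⟩ := hF.1 d
    simp only [hJ, StarAlgHom.comp_apply]
    exact congrArg π (Subtype.ext (BoundedContinuousFunction.ext fun n => act_mul α g k _))
  have h1 : ∀ d, J 1 d = d := fun d => by
    obtain ⟨x, rfl⟩ := hF.1 d
    simp only [hJ, StarAlgHom.comp_apply]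
    exact congrArg π (Subtype.ext (BoundedContinuousFunction.ext fun n => by
      rw [seqAct_apply, map_one, StarAlgEquiv.one_apply]))
  refine ⟨MonoidHom.mk' (fun g => StarAlgEquiv.ofStarAlgHom (J g) (J g⁻¹)
    (StarAlgHom.ext fun d => (hm _ _ d).symm.trans (by simp [h1]))
    (StarAlgHom.ext fun d => (hm _ _ d).symm.trans (by simp [h1])))
    fun g k => StarAlgEquiv.ext fun d => hm g k d, fun g x => hJ g x⟩

theorem exists_diag (hω : (ω : Filter ℕ) ≤ cofinite) {𝒬 : Set (ℕ → ℕ → M)} (h : 𝒬.Countable)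
    (h' : ∀ Q ∈ 𝒬, ∀ n, Nul ω (Q n)) (P : ℕ → Set ℕ) (hP : ∀ n, P n ∈ ω) :
    ∃ κ : ℕ → ℕ, (∀ n, κ n ∈ P n) ∧ ∀ Q ∈ 𝒬, Nul ω fun n => Q n (κ n) := by
  obtain ⟨f, hf⟩ := (h.insert 0).exists_eq_range (Set.insert_nonempty _ _)
  have h0 : ∀ j n, Nul ω (f j n) := fun j n => by
    rcases (hf ▸ Set.mem_range_self j : f j ∈ insert 0 𝒬) with h | h
    · rw [h]; exact Nul.zero
    · exact h' _ h n
  have he : ∀ n : ℕ, ∃ k ∈ P n, ∀ j ∈ Set.Iic n, ‖f j n k‖ < 1 / ((n : ℝ) + 1) := fun n =>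
    Eventually.exists (f := (ω : Filter ℕ)) (Eventually.and (hP n)
      ((eventually_all_finite (Set.finite_Iic n)).2 fun j _ =>
        nul_iff'.1 (h0 j n) _ (by positivity)))
  choose κ h1 h2 using he
  have hω' : (ω : Filter ℕ) ≤ atTop := by rwa [← Nat.cofinite_eq_atTop]
  refine ⟨κ, h1, fun Q hQ => ?_⟩
  obtain ⟨j, rfl⟩ : Q ∈ Set.range f := hf ▸ Set.mem_insert_of_mem _ hQ
  refine squeeze_zero_norm' ?_ (tendsto_one_div_add_atTop_nhds_zero_nat.mono_left hω')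
  filter_upwards [hω' (eventually_ge_atTop j)] with n hn using (h2 n j hn).le

theorem norm_map_sub (a b : A) : ‖i a - i b‖ ≤ dist a b := by
  rw [← map_sub, dist_eq_norm]; exact NonUnitalStarAlgHom.norm_apply_le i _

theorem nul_mul_of_dense {s : Set A} (hs : Dense s) (x : ℕ →ᵇ M)
    (h : ∀ a ∈ s, Nul ω fun n => x n * i a) (a : A) : Nul ω fun n => x n * i a :=
  (isClosed_nul (fun a n => x n * i a) ‖x‖ fun a b n => by
    rw [← mul_sub]
    exact (norm_mul_le _ _).trans (mul_le_mul (x.norm_coe_le_norm n) (norm_map_sub a b)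
      (norm_nonneg _) (norm_nonneg _))).closure_subset_iff.2 h (hs a)

theorem mem_cenSeq_of_dense {s : Set A} (hs : Dense s) (x : ℕ →ᵇ M)
    (h : ∀ a ∈ s, Nul ω fun n => x n * i a - i a * x n) : x ∈ cenSeq i ω := fun a =>
  (isClosed_nul (fun a n => x n * i a - i a * x n) (2 * ‖x‖) fun a b n => by
    rw [show x n * i a - i a * x n - (x n * i b - i b * x n) =
      -((i a - i b) * x n - x n * (i a - i b)) by noncomm_ring, norm_neg]
    exact (norm_comm_le _ _).trans (mul_le_mul (by linarith [x.norm_coe_le_norm n])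
      (norm_map_sub a b) (norm_nonneg _) (by positivity))).closure_subset_iff.2 h (hs a)

/-- simultaneous reindexing: `κ n` may be chosen in prescribed `ω`-large sets `P n` -/
theorem IsF.exists_reidx [SeparableSpace A] (h : IsF i ω π) (hi : IsIdl i)
    (hω : (ω : Filter ℕ) ≤ cofinite) {X : Set (cenSeq i ω)} (hX : IsSeparable X)
    {Y : Set (ℕ →ᵇ M)} (hY : IsSeparable Y) (P : ℕ → Set ℕ) (hP : ∀ n, P n ∈ ω) :
    ∃ κ : ℕ → ℕ, (∀ n, κ n ∈ P n) ∧ ∀ x ∈ X, reidx κ x.1 ∈ cenSeq i ω ∧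
      (∀ z : cenSeq i ω, z.1 = reidx κ x.1 → ‖π z‖ ≤ ‖π x‖) ∧
      ∀ y ∈ Y, ∀ a, Nul ω fun n => (y n * x.1 (κ n) - x.1 (κ n) * y n) * i a := by
  obtain ⟨s, hs, hs'⟩ := exists_countable_dense A
  obtain ⟨c, hc, hc'⟩ := hX
  obtain ⟨d, hd, hd'⟩ := hY
  choose L hL hL' using fun x => exists_lift_le π h.1 (π x)
  let Q1 : cenSeq i ω × A → ℕ → ℕ → M := fun p _ k => p.1.1 k * i p.2 - i p.2 * p.1.1 k
  let Q2 : cenSeq i ω × A → ℕ → ℕ → M := fun p _ k => (p.1.1 k - (L p.1).1 k) * i p.2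
  let Q3 : (ℕ →ᵇ M) × cenSeq i ω × A → ℕ → ℕ → M := fun p n k =>
    (p.1 n * p.2.1.1 k - p.2.1.1 k * p.1 n) * i p.2.2
  obtain ⟨κ, h1, h2⟩ := exists_diag hω (𝒬 := Q1 '' ((c ∪ L '' c) ×ˢ s) ∪ Q2 '' (c ×ˢ s) ∪
      Q3 '' (d ×ˢ c ×ˢ s)) (((((hc.union (hc.image _)).prod hs).image _).union
      ((hc.prod hs).image _)).union ((hd.prod (hc.prod hs)).image _)) (by
    rintro _ ((⟨p, -, rfl⟩ | ⟨p, -, rfl⟩) | ⟨⟨y, x, a⟩, -, rfl⟩) n
    · exact p.1.2 p.2
    · exact h.eq_iff.1 (hL _).symm p.2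
    · obtain ⟨b, hb⟩ := hi (y n) a
      refine (((x.2 a).const_mul (y n)).sub (x.2 b)).congr fun k => ?_
      rw [← hb]
      simp only [Q3]
      noncomm_ring) P hP
  have a1 : ∀ x ∈ c ∪ L '' c, reidx κ x.1 ∈ cenSeq i ω := fun x hx =>
    mem_cenSeq_of_dense hs' _ fun a ha => h2 _ (Or.inl (Or.inl ⟨(x, a), ⟨hx, ha⟩, rfl⟩))
  refine ⟨κ, h1, fun x hx => ⟨?_, fun z hz => ?_, fun y hy a => ?_⟩⟩
  · exact (IsClosed.preimage ((cont (reidx κ)).comp continuous_subtype_val)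
      (inferInstance : IsClosed (cenSeq i ω : Set (ℕ →ᵇ M)))).closure_subset_iff.2
      (fun x hx => a1 x (Or.inl hx)) (hc' hx)
  · refine le_of_forall_pos_le_add fun ε hε => ?_
    obtain ⟨x', hx', h3⟩ := Metric.mem_closure_iff.1 (hc' hx) _ (half_pos hε)
    let z1 : cenSeq i ω := ⟨_, a1 x' (Or.inl hx')⟩
    let z2 : cenSeq i ω := ⟨_, a1 _ (Or.inr ⟨x', hx', rfl⟩)⟩
    have e : π z1 = π z2 := h.eq_iff.2 <| nul_mul_of_dense hs' (z1.1 - z2.1) fun a ha =>
      h2 _ (Or.inl (Or.inr ⟨(x', a), ⟨hx', ha⟩, rfl⟩))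
    have b1 : ‖π z2‖ ≤ ‖π x'‖ := (NonUnitalStarAlgHom.norm_apply_le π _).trans
      ((NonUnitalStarAlgHom.norm_apply_le (reidx κ) (L x').1).trans (hL' x'))
    rw [dist_eq_norm] at h3
    have b2 : ‖π z - π z1‖ ≤ ‖x - x'‖ := by
      rw [← map_sub]
      refine (NonUnitalStarAlgHom.norm_apply_le π _).trans ?_
      change ‖z.1 - reidx κ x'.1‖ ≤ _
      rw [hz, ← map_sub]
      exact NonUnitalStarAlgHom.norm_apply_le (reidx κ) _
    have b3 : ‖π x' - π x‖ ≤ ‖x - x'‖ := by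
      rw [← map_sub, norm_sub_rev x]; exact NonUnitalStarAlgHom.norm_apply_le π _
    rw [← e] at b1
    linarith [norm_le_insert' (π z) (π z1), norm_le_insert' (π x') (π x)]
  · refine nul_mul_of_dense hs' (y * reidx κ x.1 - reidx κ x.1 * y) (fun a ha => ?_) a
    refine (isClosed_nul (fun (y : ℕ →ᵇ M) n => (y n * x.1 (κ n) - x.1 (κ n) * y n) * i a)
      (2 * ‖x.1‖ * ‖i a‖) fun y y' n => ?_).closure_subset_iff.2 (fun y hy => ?_) (hd' hy)
    · rw [← sub_mul, show y n * x.1 (κ n) - x.1 (κ n) * y n - (y' n * x.1 (κ n) - x.1 (κ n) * y' n)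
        = (y n - y' n) * x.1 (κ n) - x.1 (κ n) * (y n - y' n) by noncomm_ring, mul_right_comm]
      refine (norm_mul_le _ _).trans (mul_le_mul_of_nonneg_right ((norm_comm_le _ _).trans ?_)
        (norm_nonneg _))
      exact mul_le_mul (by linarith [x.1.norm_coe_le_norm (κ n)]) (norm_apply_sub _ _ n)
        (norm_nonneg _) (by positivity)
    refine (isClosed_nul (fun (x : cenSeq i ω) n => (y n * x.1 (κ n) - x.1 (κ n) * y n) * i a)
      (2 * ‖y‖ * ‖i a‖) fun x x' n => ?_).closure_subset_iff.2 (fun x hx => ?_) (hc' hx)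
    · rw [← sub_mul, show y n * x.1 (κ n) - x.1 (κ n) * y n - (y n * x'.1 (κ n) - x'.1 (κ n) * y n)
        = -((x.1 (κ n) - x'.1 (κ n)) * y n - y n * (x.1 (κ n) - x'.1 (κ n))) by noncomm_ring,
        mul_right_comm]
      refine (norm_mul_le _ _).trans (mul_le_mul_of_nonneg_right ?_ (norm_nonneg _))
      rw [norm_neg]
      exact (norm_comm_le _ _).trans (mul_le_mul (by linarith [y.norm_coe_le_norm n])
        (norm_apply_sub x.1 x'.1 _) (norm_nonneg _) (by positivity))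
    exact h2 _ (Or.inr ⟨(y, x, a), ⟨hy, hx, ha⟩, rfl⟩)

end Vale.Agent.P095
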