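import Vale.Agent.P101.Defs2

/-! Definitions for equivariant Jiang-Su stability. -/

open scoped TensorProduct MultiplierAlgebra

namespace Vale.Agent.P095

/-- Amenability: bounded real functions on `G` carry a left invariant mean. -/
def IsAmenable (G : Type) [Group G] : Prop :=
  ∃ m : lp (fun _ : G => ℝ) ⊤ →ₗ[ℝ] ℝ, m 1 = 1 ∧ (∀ f, (∀ g, 0 ≤ f g) → 0 ≤ m f) ∧
    ∀ (h : G) (f f' : lp (fun _ : G => ℝ) ⊤), (∀ g, f' g = f (h * g)) → m f' = m f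

/-- `r` is the operator norm of `∑ ρ (a i) ⊗ σ (z i)` for some representations `ρ`, `σ`. -/
def RepNorm {A Z : Type} [NonUnitalCStarAlgebra A] [CStarAlgebra Z] {n : ℕ} (a : Fin n → A)
    (z : Fin n → Z) (r : ℝ) : Prop :=
  ∃ (H K : Type) (_ : NormedAddCommGroup H) (_ : InnerProductSpace ℂ H)
    (_ : CompleteSpace H) (_ : NormedAddCommGroup K) (_ : InnerProductSpace ℂ K)
    (_ : CompleteSpace K) (ρ : A →⋆ₙₐ[ℂ] (H →L[ℂ] H)) (σ : Z →⋆ₙₐ[ℂ] (K →L[ℂ] K)),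
    r = ‖∑ i, TensorProduct.mapL (ρ (a i)) (σ (z i))‖

/-- `ι` presents `C` as the minimal tensor product of `A` and `Z`. -/
def IsMinTensor {A Z C : Type} [NonUnitalCStarAlgebra A] [CStarAlgebra Z]
    [NonUnitalCStarAlgebra C] (ι : A ⊗[ℂ] Z →⋆ₙₐ[ℂ] C) : Prop :=
  DenseRange ι ∧ ∀ (n : ℕ) (a : Fin n → A) (z : Fin n → Z),
    IsLUB {r | RepNorm a z r} ‖ι (∑ i, a i ⊗ₜ z i)‖

/-- `A` is isomorphic to the minimal tensor product of `A` and `Z`. -/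
def IsStable (A Z : Type) [NonUnitalCStarAlgebra A] [CStarAlgebra Z] : Prop :=
  ∃ (C : Type) (_ : NonUnitalCStarAlgebra C) (ι : A ⊗[ℂ] Z →⋆ₙₐ[ℂ] C),
    IsMinTensor ι ∧ Nonempty (A ≃⋆ₐ[ℂ] C)

/-- `u` is a `β`-cocycle: unitary multipliers with `u (g h) = u g * β g (u h)`, where the
extension of `β g` to multipliers is `β g (T) x = β g (T ((β g)⁻¹ x))`. -/
def IsCocycle {G C : Type} [Group G] [NonUnitalCStarAlgebra C] (β : G →* (C ≃⋆ₐ[ℂ] C))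
    (u : G → 𝓜(ℂ, C)) : Prop :=
  (∀ g, u g ∈ unitary 𝓜(ℂ, C)) ∧
    ∀ g h x, (u (g * h)).fst x = (u g).fst (β g ((u h).fst ((β g).symm x)))

/-- cocycle conjugacy -/
def CocycleConj {G A C : Type} [Group G] [NonUnitalCStarAlgebra A] [NonUnitalCStarAlgebra C]
    (α : G →* (A ≃⋆ₐ[ℂ] A)) (β : G →* (C ≃⋆ₐ[ℂ] C)) : Prop :=
  ∃ (Φ : A ≃⋆ₐ[ℂ] C) (u : G → 𝓜(ℂ, C)), IsCocycle β u ∧
    ∀ g a, (Φ (α g a) : 𝓜(ℂ, C)) = u g * (β g (Φ a) : 𝓜(ℂ, C)) * star (u g)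

/-- `α` is cocycle conjugate to `α ⊗ id` on the minimal tensor product. -/
def EquivStable {G A : Type} [Group G] [NonUnitalCStarAlgebra A] (α : G →* (A ≃⋆ₐ[ℂ] A))
    (Z : Type) [CStarAlgebra Z] : Prop :=
  ∀ (C : Type) [NonUnitalCStarAlgebra C] (ι : A ⊗[ℂ] Z →⋆ₙₐ[ℂ] C), IsMinTensor ι →
    ∃ β : G →* (C ≃⋆ₐ[ℂ] C), (∀ g a z, β g (ι (a ⊗ₜ z)) = ι (α g a ⊗ₜ z)) ∧ CocycleConj α β

end Vale.Agent.P095
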