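import Vale.Agent.P095.Defs

/-! Simple and nuclear C*-algebras. -/

open scoped CStarAlgebra ComplexOrder

namespace Vale.Agent.P095

/-- `A` is nonzero and has no nontrivial closed two-sided ideal. -/
def IsSimple (A : Type) [NonUnitalCStarAlgebra A] : Prop :=
  Nontrivial A ∧ ∀ I : TwoSidedIdeal A, IsClosed (I : Set A) → I = ⊥ ∨ I = ⊤

/-- Nuclearity: the identity is a point-norm limit of compositions of contractive completely
positive maps through matrix algebras. -/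
def IsNuclear (A : Type) [NonUnitalCStarAlgebra A] [PartialOrder A] [StarOrderedRing A] : Prop :=
  ∀ (F : Finset A) (ε : ℝ), 0 < ε → ∃ (k : ℕ) (φ : A →CP CStarMatrix (Fin k) (Fin k) ℂ)
    (ψ : CStarMatrix (Fin k) (Fin k) ℂ →CP A),
    (∀ a, ‖φ a‖ ≤ ‖a‖) ∧ (∀ x, ‖ψ x‖ ≤ ‖x‖) ∧ ∀ a ∈ F, ‖ψ (φ a) - a‖ < ε

end Vale.Agent.P095
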