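import Vale.Agent.P095.Quasi

/-! Gluing strictly approximate witnesses to norm approximate witnesses in the multiplier algebra.

Plan. Take `e` from `exists_quasi` with `ε n = δ / 2 ^ n`; `g k = cm (e (k + 1) - e k)` are commuting
positive contractions, `g k * g l = 0` for `k + 2 ≤ l`, `cm (e m) * g k = 0` for `m < k`. For each `k` apply
`H` to a finite set containing `e (k + 1) - e k` and its products with `b`, `star b`, `b ∈ T` (they lie
in the range of `cm`), with tolerance `δ / 2 ^ k`; `z k c = g k * x k c * g k`. Then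
`‖z k c * b - b * z k c‖`, `‖z k c * z k c‖`, `‖α g (z k c) - z k c‖`,
`‖∑ c, star (z k c) * z k c - g k ^ 4‖` are all `≤ L δ / 2 ^ k` with `L` depending only on `T`, `card ι`.
Sums of elements `u k = g k * v k * g k` over a finite set of `k` of one parity have norm
`≤ max ‖u k‖` (two sided orthogonality). `y (c, b)` is the strict limit (`exists_strict`, `s = univ`)
of the finite sums of `z k c` over `k < n` of parity `b` (the tail from `m + 1` on, times `a`, is
`tail * (1 - cm (e m)) * cm a`). Strict limits are compatible with sums, `star`, products of bounded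
nets, multiplication by a fixed `b`, and `α' g`; `SLim.norm_le` transfers the bounds. For the sum:
`1` is the strict limit of `cm (e n) = ∑ k < n, g k`, and `‖g - g ^ 4‖ ≤ 12 / 25` for a positive
contraction, so the even and the odd part of `∑ k < n, (g k - g k ^ 4)` have norm `≤ 12 / 25`. -/

open scoped MultiplierAlgebra

namespace Vale.Agent.P095

open Filter Topology

section Alg

variable {M : Type} [CStarAlgebra M] {g x : M} {η : ℝ}

theorem glue_diag {u v : ℕ → M} (h : ∀ j l, j ≠ l → u j * v l = 0) (s : Finset ℕ) :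
    (∑ j ∈ s, u j) * ∑ j ∈ s, v j = ∑ j ∈ s, u j * v j := by
  rw [Finset.sum_mul]
  refine Finset.sum_congr rfl fun j hj => ?_
  rw [Finset.mul_sum, Finset.sum_eq_single_of_mem j hj fun l _ hl => h j l hl.symm]

theorem glue_orth {u : ℕ → M} {C : ℝ} (hC : 0 ≤ C) (h : ∀ j, ‖u j‖ ≤ C)
    (h1 : ∀ j l, j ≠ l → star (u j) * u l = 0) (h2 : ∀ j l, j ≠ l → u j * star (u l) = 0)
    (s : Finset ℕ) : ‖∑ j ∈ s, u j‖ ≤ C := by
  have h3 := IsSelfAdjoint.nnnorm_sum_eq_sup (f := fun j => star (u j) * u j) s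
    (fun j _ => IsSelfAdjoint.star_mul_self _) fun j l hl => by
      change star (u j) * u j * (star (u l) * u l) = 0
      rw [mul_assoc, ← mul_assoc (u j), h2 j l hl, zero_mul, mul_zero]
  have h4 : ‖∑ j ∈ s, star (u j) * u j‖₊ ≤ ⟨C * C, mul_nonneg hC hC⟩ := by
    rw [h3]
    refine Finset.sup_le fun j _ => ?_
    change ‖star (u j) * u j‖ ≤ C * C
    rw [CStarRing.norm_star_mul_self]
    exact mul_self_le_mul_self (norm_nonneg _) (h j)
  have h5 : ‖∑ j ∈ s, star (u j) * u j‖ ≤ C * C := h4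
  rw [← glue_diag h1, ← star_sum, CStarRing.norm_star_mul_self] at h5
  exact (mul_self_le_mul_self_iff (norm_nonneg _) hC).2 h5

theorem glue_l {a b : M} {C : ℝ} (ha : ‖a‖ ≤ 1) (hb : ‖b‖ ≤ C) : ‖a * b‖ ≤ C :=
  (norm_mul_le a b).trans ((mul_le_of_le_one_left (norm_nonneg b) ha).trans hb)

theorem glue_r {a b : M} {C : ℝ} (ha : ‖a‖ ≤ C) (hb : ‖b‖ ≤ 1) : ‖a * b‖ ≤ C :=
  (norm_mul_le a b).trans ((mul_le_of_le_one_right (norm_nonneg a) hb).trans ha)

theorem glue_sand {G v : ℕ → M} (hs : ∀ j, IsSelfAdjoint (G j)) (hG : ∀ j, ‖G j‖ ≤ 1)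
    (h0 : ∀ j l, j ≠ l → G j * G l = 0) (hv : ∀ j, ‖v j‖ ≤ 1) (s : Finset ℕ) :
    ‖∑ j ∈ s, G j * v j * G j‖ ≤ 1 := by
  refine glue_orth zero_le_one (fun j => glue_r (glue_l (hG j) (hv j)) (hG j)) (fun j l h => ?_)
    (fun j l h => ?_) s
  all_goals
    simp only [star_mul, (hs _).star_eq, mul_assoc]
    rw [← mul_assoc (G j) (G l), h0 j l h]
    simp only [zero_mul, mul_zero]

theorem glue_pow (h : P101.PC g) : ‖g - g ^ 4‖ ≤ 12 / 25 := by
  have e : g - g ^ 4 = cfc (fun t : ℝ => t - t ^ 4) g := by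
    rw [cfc_sub _ _ g, cfc_id' ℝ g h.sa, cfc_pow_id g 4 h.sa]
  rw [e]
  refine norm_cfc_le (by norm_num) fun t ht => ?_
  obtain ⟨h0, h1⟩ := h.spec ht
  have h2 : t ^ 4 ≤ t := pow_le_of_le_one h0 h1 (by norm_num)
  rw [Real.norm_of_nonneg (sub_nonneg.2 h2)]
  nlinarith [sq_nonneg (t ^ 2 - 2 / 5), sq_nonneg (t - 5 / 8)]

theorem glue_comm (hg : ‖g‖ ≤ 1) (hx : ‖x‖ ≤ 1) {b : M} (h1 : ‖x * g - g * x‖ ≤ η)
    (h2 : ‖x * (g * b) - g * b * x‖ ≤ η) (h3 : ‖g * b - b * g‖ ≤ 2 * η) :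
    ‖g * x * g * b - b * (g * x * g)‖ ≤ (5 + ‖b‖) * η := by
  have e : g * x * g * b - b * (g * x * g) = g * (x * (g * b) - g * b * x) +
      g * (g * b - b * g) * x + (g * b - b * g) * g * x - b * (g * (x * g - g * x)) := by
    noncomm_ring
  have h4 := (norm_mul_le b _).trans (mul_le_mul_of_nonneg_left (glue_l hg h1) (norm_nonneg b))
  rw [e]
  refine (norm_sub_le _ _).trans ?_
  linarith [norm_add₃_le (a := g * (x * (g * b) - g * b * x)) (b := g * (g * b - b * g) * x)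
    (c := (g * b - b * g) * g * x), glue_l hg h2, glue_r (glue_l hg h3) hx,
    glue_r (glue_r h3 hg) hx]

theorem glue_sq (hg : ‖g‖ ≤ 1) (hx : ‖x‖ ≤ 1) (h1 : ‖x * g - g * x‖ ≤ η) (h2 : ‖x * x * g‖ ≤ η) :
    ‖g * x * g * (g * x * g)‖ ≤ 3 * η := by
  have e : g * x * g * (g * x * g) = g * (x * x * g) * g * g -
      g * x * g * (x * g - g * x) * g - g * x * (x * g - g * x) * g * g := by
    noncomm_ring
  rw [e]
  refine (norm_sub_le _ _).trans ?_
  linarith [norm_sub_le (g * (x * x * g) * g * g) (g * x * g * (x * g - g * x) * g),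
    glue_r (glue_r (glue_l hg h2) hg) hg, glue_r (glue_l (glue_l (glue_l hg hx) hg) h1) hg,
    glue_r (glue_r (glue_l (glue_l hg hx) h1) hg) hg]

theorem glue_act (φ : M ≃⋆ₐ[ℂ] M) (hg : ‖g‖ ≤ 1) (hx : ‖x‖ ≤ 1) (h1 : ‖φ g - g‖ ≤ 2 * η)
    (h2 : ‖(φ x - x) * g‖ ≤ η) : ‖φ (g * x * g) - g * x * g‖ ≤ 5 * η := by
  have e : φ (g * x * g) - g * x * g = (φ g - g) * φ x * φ g + g * φ x * (φ g - g) +
      g * ((φ x - x) * g) := by
    rw [map_mul, map_mul]
    noncomm_ring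
  have hx' : ‖φ x‖ ≤ 1 := by rwa [StarAlgEquiv.norm_map]
  have hg' : ‖φ g‖ ≤ 1 := by rwa [StarAlgEquiv.norm_map]
  rw [e]
  refine norm_add₃_le.trans ?_
  linarith [glue_r (glue_r h1 hx') hg', glue_l (glue_l hg hx') h1, glue_l hg h2]

theorem glue_sum {ι : Type} [Fintype ι] {x : ι → M} (hs : IsSelfAdjoint g) (hg : ‖g‖ ≤ 1)
    (hx : ∀ c, ‖x c‖ ≤ 1) (h1 : ∀ c, ‖x c * g - g * x c‖ ≤ η)
    (h2 : ‖(∑ c, star (x c) * x c - 1) * g‖ ≤ η) :
    ‖∑ c, star (g * x c * g) * (g * x c * g) - g ^ 4‖ ≤ (2 * Fintype.card ι + 1) * η := by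
  have e : ∑ c, star (g * x c * g) * (g * x c * g) - g ^ 4 =
      g * (g * ((∑ c, star (x c) * x c - 1) * g)) * g -
        ∑ c, (star (g * x c * g) * ((x c * g - g * x c) * g) +
          star ((x c * g - g * x c) * g) * (x c * g * g)) := by
    simp only [sub_mul, mul_sub, Finset.mul_sum, Finset.sum_mul]
    rw [sub_right_comm, ← Finset.sum_sub_distrib]
    congr 1
    · refine Finset.sum_congr rfl fun c _ => ?_
      simp only [star_sub, star_mul, hs.star_eq]
      noncomm_ring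
    · noncomm_ring
  have h3 : ∀ c, ‖star (g * x c * g) * ((x c * g - g * x c) * g) +
      star ((x c * g - g * x c) * g) * (x c * g * g)‖ ≤ 2 * η := fun c => by
    have h4 := glue_r (h1 c) hg
    have h5 := glue_l ((norm_star _).trans_le (glue_r (glue_l hg (hx c)) hg)) h4
    have h6 := glue_r ((norm_star _).trans_le h4) (glue_r (glue_r (hx c) hg) hg)
    exact (norm_add_le _ _).trans (by linarith)
  have h4 := (norm_sum_le _ _).trans (Finset.sum_le_card_nsmul Finset.univ _ _ fun c _ => h3 c)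
  rw [nsmul_eq_mul, Finset.card_univ] at h4
  rw [e]
  refine (norm_sub_le _ _).trans ?_
  linarith [glue_r (glue_l hg (glue_l hg h2)) hg]

theorem glue_geom {u : ℕ → M} {C : ℝ} (hC : 0 ≤ C) (h : ∀ j, ‖u j‖ ≤ C * (1 / 2) ^ j) (n : ℕ) :
    ‖∑ j ∈ Finset.range n, u j‖ ≤ 2 * C := by
  refine (norm_sum_le _ _).trans ((Finset.sum_le_sum fun j _ => h j).trans ?_)
  rw [← Finset.mul_sum, mul_comm]
  exact mul_le_mul_of_nonneg_right (sum_geometric_two_le n) hC

end Alg

section Lim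

variable {A : Type} [NonUnitalCStarAlgebra A] {y w : ℕ → 𝓜(ℂ, A)} {Y W : 𝓜(ℂ, A)}

/-- one sided strict convergence -/
def GlueL (y : ℕ → 𝓜(ℂ, A)) (Y : 𝓜(ℂ, A)) : Prop :=
  ∀ a, Tendsto (fun n => y n * cm A a) atTop (𝓝 (Y * cm A a))

theorem GlueL.norm_le (h : GlueL y Y) {C : ℝ} (hC : ∀ n, ‖y n‖ ≤ C) : ‖Y‖ ≤ C := by
  refine norm_le_of_cm ((norm_nonneg _).trans (hC 0)) fun a => le_of_tendsto' (h a).norm fun n => ?_
  refine (norm_mul_le _ _).trans ?_
  rw [norm_cm]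
  exact mul_le_mul_of_nonneg_right (hC n) (norm_nonneg a)

theorem GlueL.sub (h : GlueL y Y) (h' : GlueL w W) : GlueL (fun n => y n - w n) (Y - W) := by
  intro a
  simp only [sub_mul]
  exact (h a).sub (h' a)

theorem GlueL.sum {ι : Type} [Fintype ι] {y : ι → ℕ → 𝓜(ℂ, A)} {Y : ι → 𝓜(ℂ, A)}
    (h : ∀ c, GlueL (y c) (Y c)) : GlueL (fun n => ∑ c, y c n) (∑ c, Y c) := by
  intro a
  simp only [Finset.sum_mul]
  exact tendsto_finsetSum _ fun c _ => h c a

theorem GlueL.left (h : GlueL y Y) (b : 𝓜(ℂ, A)) : GlueL (fun n => b * y n) (b * Y) := by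
  intro a
  simp only [mul_assoc]
  exact (h a).const_mul b

theorem GlueL.right (h : GlueL y Y) (b : 𝓜(ℂ, A)) : GlueL (fun n => y n * b) (Y * b) := by
  intro a
  simp only [mul_assoc, mul_cm b]
  exact h _

theorem GlueL.mul (h : GlueL y Y) (h' : GlueL w W) (hy : ∀ n, ‖y n‖ ≤ 1) :
    GlueL (fun n => y n * w n) (Y * W) := by
  intro a
  have h1 : Tendsto (fun n => y n * (w n * cm A a - W * cm A a)) atTop (𝓝 0) :=
    squeeze_zero_norm (fun n => glue_l (hy n) le_rfl) (tendsto_iff_norm_sub_tendsto_zero.1 (h' a))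
  have h2 := h1.add (h.right W a)
  simp only [mul_sub, mul_assoc, sub_add_cancel, zero_add] at h2
  simpa only [mul_assoc] using h2

theorem GlueL.map (h : GlueL y Y) (φ : 𝓜(ℂ, A) ≃⋆ₐ[ℂ] 𝓜(ℂ, A)) (hφ : ∀ a, ∃ b, φ (cm A b) = cm A a) :
    GlueL (fun n => φ (y n)) (φ Y) := by
  intro a
  obtain ⟨b, hb⟩ := hφ a
  simp only [← hb, ← map_mul]
  exact ((StarAlgEquiv.isometry φ).continuous.tendsto _).comp (h b)

theorem glue_lim {e : ℕ → A} (he : ∀ a, Tendsto (fun n => e n * a) atTop (𝓝 a))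
    {G v : ℕ → 𝓜(ℂ, A)} (hs : ∀ j, IsSelfAdjoint (G j)) (hG : ∀ j, ‖G j‖ ≤ 1)
    (h0 : ∀ j l, j ≠ l → G j * G l = 0) (h1 : ∀ m j, m < j → G j * cm A (e m) = 0)
    (hv : ∀ j, ‖v j‖ ≤ 1) : ∃ Y, GlueL (fun n => ∑ j ∈ Finset.range n, G j * v j * G j) Y ∧
      GlueL (fun n => star (∑ j ∈ Finset.range n, G j * v j * G j)) (star Y) := by
  have key : ∀ v : ℕ → 𝓜(ℂ, A), (∀ j, ‖v j‖ ≤ 1) → ∀ a,
      CauchySeq fun n => (∑ j ∈ Finset.range n, G j * v j * G j) * cm A a := fun v hv a => by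
    refine Metric.cauchySeq_iff'.2 fun ε hε => ?_
    obtain ⟨m, hm⟩ := (Metric.tendsto_nhds.1 (he a) ε hε).exists
    refine ⟨m + 1, fun n hn => ?_⟩
    have h2 : (∑ j ∈ Finset.Ico (m + 1) n, G j * v j * G j) * cm A (e m) = 0 := by
      rw [Finset.sum_mul]
      refine Finset.sum_eq_zero fun j hj => ?_
      rw [mul_assoc, h1 m j (Finset.mem_Ico.1 hj).1, mul_zero]
    have h3 : (∑ j ∈ Finset.Ico (m + 1) n, G j * v j * G j) * cm A a =
        (∑ j ∈ Finset.Ico (m + 1) n, G j * v j * G j) * cm A (a - e m * a) := by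
      rw [map_sub, map_mul, mul_sub, ← mul_assoc, h2, zero_mul, sub_zero]
    rw [dist_eq_norm, ← sub_mul, ← Finset.sum_Ico_eq_sub _ hn, h3]
    rw [dist_eq_norm'] at hm
    exact (glue_l (glue_sand hs hG h0 hv _) (norm_cm _).le).trans_lt hm
  obtain ⟨Y, hY⟩ := exists_strict atTop (fun n => ∑ j ∈ Finset.range n, G j * v j * G j)
    (Eventually.of_forall fun n => glue_sand hs hG h0 hv _) (s := Set.univ) (by simp)
    (fun a _ => key v hv a) fun a _ => by
      have h2 := star_isometry.uniformContinuous.comp_cauchySeq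
        (key (fun j => star (v j)) (fun j => (norm_star _).trans_le (hv j)) (star a))
      refine (congrArg CauchySeq (funext fun n => ?_)).mp h2
      simp only [Function.comp, star_mul, star_sum, (hs _).star_eq, map_star, star_star, mul_assoc]
  refine ⟨Y, fun a => (hY a).1, fun a => ?_⟩
  simpa only [star_mul, map_star, star_star] using (hY (star a)).2.star

end Lim

variable {A G : Type} [NonUnitalCStarAlgebra A] [TopologicalSpace.SeparableSpace A] [Group G]

theorem glue {ι : Type} [Fintype ι] (α : G →* (A ≃⋆ₐ[ℂ] A))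
    (α' : G →* (𝓜(ℂ, A) ≃⋆ₐ[ℂ] 𝓜(ℂ, A))) (hα : ∀ g a, α' g (cm A a) = cm A (α g a))
    (H : ∀ (S : Finset A) (K : Finset G) (ε : ℝ), 0 < ε → ∃ x : ι → 𝓜(ℂ, A),
      (∀ c, ‖x c‖ ≤ 1) ∧ ∀ a ∈ S, ‖(∑ c, star (x c) * x c - 1) * cm A a‖ ≤ ε ∧ ∀ c,
        ‖x c * cm A a - cm A a * x c‖ ≤ ε ∧ ‖x c * x c * cm A a‖ ≤ ε ∧
        ∀ g ∈ K, ‖(α' g (x c) - x c) * cm A a‖ ≤ ε)
    (T : Finset 𝓜(ℂ, A)) (K : Finset G) {ε : ℝ} (hε : 0 < ε) :
    ∃ y : ι × Bool → 𝓜(ℂ, A), ‖∑ c, star (y c) * y c - 1‖ ≤ 24 / 25 + ε ∧ ∀ c, ‖y c‖ ≤ 1 ∧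
      ‖y c * y c‖ ≤ ε ∧ (∀ b ∈ T, ‖y c * b - b * y c‖ ≤ ε) ∧ ∀ g ∈ K, ‖α' g (y c) - y c‖ ≤ ε := by
  classical
  obtain ⟨L, hL⟩ : ∃ L : ℝ, L = 5 + 2 * Fintype.card ι + ∑ b ∈ T, ‖b‖ := ⟨_, rfl⟩
  have hT0 : 0 ≤ ∑ b ∈ T, ‖b‖ := Finset.sum_nonneg fun _ _ => norm_nonneg _
  have hι : (0 : ℝ) ≤ Fintype.card ι := Nat.cast_nonneg _
  have hL0 : 0 < L := by linarith
  obtain ⟨η, hη⟩ : ∃ η : ℕ → ℝ, ∀ k, η k = ε / 4 / L * (1 / 2) ^ k := ⟨_, fun _ => rfl⟩
  have hη0 : ∀ k, 0 < η k := fun k => by rw [hη]; positivity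
  have hη1 : ∀ k, η (k + 1) ≤ η k := fun k => by
    rw [hη (k + 1), pow_succ, ← mul_assoc, ← hη]
    linarith [hη0 k]
  obtain ⟨e, e0, hpc, hee, hlim, hcm, hact⟩ := exists_quasi α T K η hη0
  have hE : ∀ m n, m < n → cm A (e n) * cm A (e m) = cm A (e m) := fun m n h => by
    induction n, h using Nat.le_induction with
    | base => rw [← map_mul, hee]
    | succ n _ ih => rw [← ih, ← mul_assoc, ← map_mul, hee]
  obtain ⟨g, hg⟩ : ∃ g : ℕ → 𝓜(ℂ, A), ∀ k, g k = cm A (e (k + 1)) - cm A (e k) := ⟨_, fun _ => rfl⟩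
  have hg' : ∀ k, cm A (e (k + 1) - e k) = g k := fun k => by rw [hg, map_sub]
  have gpc : ∀ k, P101.PC (g k) := fun k => by
    refine ⟨hg k ▸ (hpc _).sa.sub (hpc _).sa, ?_, ?_⟩
    · have := glue_l (hpc (k + 1)).le (hpc k).le'
      rwa [mul_sub, mul_one, hE k _ k.lt_succ_self, ← hg] at this
    · rw [hg, ← sub_add, ((IsSelfAdjoint.one _).sub (hpc _).sa).norm_add_eq_max (hpc k).sa
        (by rw [sub_mul, one_mul, hE k _ k.lt_succ_self, sub_self])]
      exact max_le (hpc _).le' (hpc _).le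
  have gE : ∀ m k, m < k → g k * cm A (e m) = 0 := fun m k h => by
    rw [hg, sub_mul, hE m _ (by omega), hE m _ h, sub_self]
  have gg : ∀ k l, l + 1 < k → g k * g l = 0 := fun k l h => by
    rw [hg l, mul_sub, gE _ _ h, gE _ _ (by omega), sub_self]
  have gG : ∀ (b : Bool) j l, j ≠ l → g (2 * j + b.toNat) * g (2 * l + b.toNat) = 0 := by
    intro b j l h
    rcases h.lt_or_gt with h | h
    · simpa only [star_mul, (gpc _).sa.star_eq, star_zero] using
        congrArg star (gg (2 * l + b.toNat) (2 * j + b.toNat) (by omega))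
    · exact gg _ _ (by omega)
  have est : ∀ k, ∃ x : ι → 𝓜(ℂ, A), (∀ c, ‖x c‖ ≤ 1) ∧
      ‖∑ c, star (g k * x c * g k) * (g k * x c * g k) - g k ^ 4‖ ≤ L * η k ∧ ∀ c,
        ‖g k * x c * g k * (g k * x c * g k)‖ ≤ L * η k ∧
        (∀ b ∈ T, ‖g k * x c * g k * b - b * (g k * x c * g k)‖ ≤ L * η k) ∧
        ∀ h ∈ K, ‖α' h (g k * x c * g k) - g k * x c * g k‖ ≤ L * η k := fun k => by
    obtain ⟨x, hx, h1⟩ := H (insert (e (k + 1) - e k) (T.image fun b => b.snd (e (k + 1) - e k))) K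
      _ (hη0 k)
    obtain ⟨h2, h3⟩ := h1 _ (Finset.mem_insert_self _ _)
    rw [hg'] at h2 h3
    have hk := (hη0 k).le
    refine ⟨x, hx, (glue_sum (gpc k).sa (gpc k).le hx (fun c => (h3 c).1) h2).trans
      (mul_le_mul_of_nonneg_right (by linarith) hk), fun c => ⟨(glue_sq (gpc k).le (hx c) (h3 c).1
        (h3 c).2.1).trans (mul_le_mul_of_nonneg_right (by linarith) hk), fun b hb => ?_,
        fun h hh => ?_⟩⟩
    · have h4 := ((h1 _ (Finset.mem_insert_of_mem (Finset.mem_image_of_mem _ hb))).2 c).1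
      rw [← cm_mul, hg'] at h4
      refine (glue_comm (gpc k).le (hx c) (h3 c).1 h4 ?_).trans
        (mul_le_mul_of_nonneg_right ?_ hk)
      · have e1 : g k * b - b * g k = (cm A (e (k + 1)) * b - b * cm A (e (k + 1))) -
            (cm A (e k) * b - b * cm A (e k)) := by
          rw [hg, sub_mul, mul_sub]
          abel
        rw [e1]
        exact (norm_sub_le _ _).trans (by linarith [hcm k b hb, hη1 k, hcm (k + 1) b hb])
      · linarith [Finset.single_le_sum (f := fun b => ‖b‖) (fun _ _ => norm_nonneg _) hb]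
    · refine (glue_act (α' h) (gpc k).le (hx c) ?_ ((h3 c).2.2 h hh)).trans
        (mul_le_mul_of_nonneg_right (by linarith) hk)
      rw [← hg', hα, ← map_sub, norm_cm, map_sub, sub_sub_sub_comm]
      exact (norm_sub_le _ _).trans (by linarith [hact k h hh, hη1 k, hact (k + 1) h hh])
  choose x hx hs hz using est
  obtain ⟨z, hzd⟩ : ∃ z : ι × Bool → ℕ → 𝓜(ℂ, A), ∀ c j, z c j = g (2 * j + c.2.toNat) *
    x (2 * j + c.2.toNat) c.1 * g (2 * j + c.2.toNat) := ⟨_, fun _ _ => rfl⟩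
  have hLη : ∀ j i, L * η (2 * j + i) ≤ ε / 4 * (1 / 2) ^ j := fun j i => by
    rw [hη, ← mul_assoc, mul_div_cancel₀ _ hL0.ne']
    exact mul_le_mul_of_nonneg_left (pow_le_pow_of_le_one (by norm_num) (by norm_num) (by omega))
      (by positivity)
  have hlimz : ∀ c, ∃ Y, GlueL (fun n => ∑ j ∈ Finset.range n, z c j) Y ∧
      GlueL (fun n => star (∑ j ∈ Finset.range n, z c j)) (star Y) := fun c => by
    simp only [hzd]
    exact glue_lim hlim (fun j => (gpc _).sa) (fun j => (gpc _).le) (gG c.2)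
      (fun m j h => gE _ _ (by omega)) fun j => hx _ _
  choose y hy hy' using hlimz
  have n1 : ∀ c n, ‖∑ j ∈ Finset.range n, z c j‖ ≤ 1 := fun c n => by
    simp only [hzd]
    exact glue_sand (fun j => (gpc _).sa) (fun j => (gpc _).le) (gG c.2) (fun j => hx _ _) _
  have o1 : ∀ c j l, j ≠ l → z c j * z c l = 0 ∧ star (z c j) * z c l = 0 := fun c j l h => by
    simp only [hzd, star_mul, (gpc _).sa.star_eq, mul_assoc]
    rw [← mul_assoc (g (2 * j + _)) (g (2 * l + _)), gG c.2 j l h]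
    simp only [zero_mul, mul_zero, and_self]
  have h4 : 0 ≤ ε / 4 := by positivity
  have h2 : 2 * (ε / 4) ≤ ε := by linarith
  refine ⟨y, ?_, fun c => ⟨(hy c).norm_le (n1 c), ?_, fun b hb => ?_, fun h hh => ?_⟩⟩
  · have l1 : GlueL (fun n => cm A (e (2 * n))) 1 := fun a => by
      have h5 : Isometry (cm A) := AddMonoidHomClass.isometry_of_norm _ norm_cm
      simp only [← map_mul, one_mul]
      exact (h5.continuous.tendsto a).comp
        ((hlim a).comp (tendsto_id.const_mul_atTop' (by norm_num : 0 < 2)))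
    refine ((GlueL.sum fun c => (hy' c).mul (hy c) fun n =>
      (norm_star _).trans_le (n1 c n)).sub l1).norm_le fun n => ?_
    have e1 : cm A (e (2 * n)) = ∑ b : Bool, ∑ j ∈ Finset.range n, g (2 * j + b.toNat) := by
      have h5 := Finset.sum_range_sub (fun j => cm A (e (2 * j))) n
      rw [mul_zero, e0, map_zero, sub_zero] at h5
      rw [← h5, Fintype.sum_bool, ← Finset.sum_add_distrib]
      refine Finset.sum_congr rfl fun j _ => ?_
      rw [hg, hg]
      exact (sub_add_sub_cancel _ _ _).symm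
    have e2 : ∑ c, star (∑ j ∈ Finset.range n, z c j) * ∑ j ∈ Finset.range n, z c j -
        cm A (e (2 * n)) = ∑ b : Bool, (∑ j ∈ Finset.range n,
          (∑ c, star (z (c, b) j) * z (c, b) j - g (2 * j + b.toNat) ^ 4) -
          ∑ j ∈ Finset.range n, (g (2 * j + b.toNat) - g (2 * j + b.toNat) ^ 4)) := by
      rw [e1, Fintype.sum_prod_type_right, ← Finset.sum_sub_distrib]
      refine Finset.sum_congr rfl fun b _ => ?_
      simp only [star_sum, fun c => glue_diag fun j l h => (o1 c j l h).2]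
      rw [Finset.sum_comm, Finset.sum_sub_distrib, Finset.sum_sub_distrib, sub_sub_sub_cancel_right]
    have h5 : ∀ b : Bool, ‖∑ j ∈ Finset.range n,
          (∑ c, star (z (c, b) j) * z (c, b) j - g (2 * j + b.toNat) ^ 4) -
          ∑ j ∈ Finset.range n, (g (2 * j + b.toNat) - g (2 * j + b.toNat) ^ 4)‖ ≤
        2 * (ε / 4) + 12 / 25 := fun b => by
      have h6 : ∀ j l, j ≠ l → (g (2 * j + b.toNat) - g (2 * j + b.toNat) ^ 4) *
          (g (2 * l + b.toNat) - g (2 * l + b.toNat) ^ 4) = 0 := fun j l h => by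
        rw [pow_succ _ 3, pow_succ' _ 3, ← one_sub_mul, ← mul_one_sub, mul_assoc,
          ← mul_assoc (g _), gG b j l h, zero_mul, mul_zero]
      have h7 : ∀ k, star (g k - g k ^ 4) = g k - g k ^ 4 := fun k =>
        (gpc k).sa.sub ((gpc k).sa.pow 4)
      refine (norm_sub_le _ _).trans (add_le_add (glue_geom h4 (fun j => ?_) n)
        (glue_orth (by norm_num) (fun j => glue_pow (gpc _)) (fun j l h => ?_) (fun j l h => ?_) _))
      · simp only [hzd]
        exact (hs _).trans (hLη j _)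
      · rw [h7, h6 j l h]
      · rw [h7, h6 j l h]
    rw [e2, Fintype.sum_bool]
    exact (norm_add_le _ _).trans (by linarith [h5 true, h5 false])
  · refine ((hy c).mul (hy c) (n1 c)).norm_le fun n => ?_
    rw [glue_diag fun j l h => (o1 c j l h).1]
    refine (glue_geom h4 (fun j => ?_) n).trans h2
    rw [hzd]
    exact (hz _ _).1.trans (hLη j _)
  · refine (((hy c).right b).sub ((hy c).left b)).norm_le fun n => ?_
    rw [Finset.sum_mul, Finset.mul_sum, ← Finset.sum_sub_distrib]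
    refine (glue_geom h4 (fun j => ?_) n).trans h2
    rw [hzd]
    exact ((hz _ _).2.1 b hb).trans (hLη j _)
  · refine (((hy c).map (α' h) fun a => ⟨(α h).symm a, by
      rw [hα, StarAlgEquiv.apply_symm_apply]⟩).sub (hy c)).norm_le fun n => ?_
    rw [map_sum, ← Finset.sum_sub_distrib]
    refine (glue_geom h4 (fun j => ?_) n).trans h2
    rw [hzd]
    exact ((hz _ _).2.2 h hh).trans (hLη j _)

end Vale.Agent.P095
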