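import Vale.Agent.P095.Cen

/-! One-sided equivariant intertwining for non-unital algebras.

Plan (compare `P101/Inter.lean`). Build unitaries `V n` of `M`, `V 0 = 1`, `V (n + 1) = V n * w n`,
and finite sets `S n` of `A` as in `P101.inter_seq`: `w n` comes from `H` for `S n`, the finite set of
`x'` with `i x' = star (V n) * i (b k) * V n`, `k ≤ n` (`b` a dense sequence of `C`; `IsIdl`,
`IsIdl.right`), the first `n` elements of an enumeration of `G`, and `ε = (1 / 2) ^ n`.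
`V n * i (j a) * star (V n)` is Cauchy, lies in the closed range of `i`, and its limit is `i (Φ a)`
with `Φ` an isometric surjective homomorphism. `u n g = V n * β g (star (V n))` is Cauchy in norm
(`‖u (n + 1) g - u n g‖ = ‖w n * β g (star (w n)) - 1‖ = ‖w n - β g (w n)‖`), each `u n` is a cocycle, and
`V n * i (j (α g a)) * star (V n) = u n g * β g (V n * i (j a) * star (V n)) * star (u n g)`. -/

namespace Vale.Agent.P095

open Filter Topology

section aux

variable {A C M G : Type} [NonUnitalCStarAlgebra A] [NonUnitalCStarAlgebra C] [CStarAlgebra M]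
  [Group G]

theorem inter_map_mem (γ : M ≃⋆ₐ[ℂ] M) {w : M} (hw : w ∈ unitary M) : γ w ∈ unitary M :=
  ⟨by rw [← map_star, ← map_mul, hw.1, map_one], by rw [← map_star, ← map_mul, hw.2, map_one]⟩

theorem inter_dist_conj {V : M} (hV : V ∈ unitary M) (x y : M) :
    dist (V * x * star V) (V * y * star V) = dist x y := by
  rw [dist_eq_norm, dist_eq_norm, ← sub_mul, ← mul_sub,
    CStarRing.norm_mul_mem_unitary _ (Unitary.star_mem hV), CStarRing.norm_mem_unitary_mul _ hV]

theorem inter_step (i : C →⋆ₙₐ[ℂ] M) (hI : IsIdl i) (β : G →* (M ≃⋆ₐ[ℂ] M)) (J : A → M)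
    (H : ∀ (S : Finset A) (T : Finset C) (K : Finset G) (ε : ℝ), 0 < ε → ∃ w ∈ unitary M,
      (∀ a ∈ S, ‖w * J a - J a * w‖ ≤ ε) ∧
      (∀ x ∈ T, ∃ a, ‖star w * i x * w - J a‖ ≤ ε) ∧ ∀ g ∈ K, ‖β g w - w‖ ≤ ε)
    (V : unitary M) (S : Finset A) (T : Finset C) (K : Finset G) (ε : ℝ) (hε : 0 < ε) :
    ∃ (W : unitary M) (S' : Finset A),
      (∀ a ∈ S, dist (V * J a * star (V : M)) (W * J a * star (W : M)) ≤ ε) ∧
      (∀ x ∈ T, ∃ a ∈ S', dist (i x) (W * J a * star (W : M)) ≤ ε) ∧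
      ∀ g ∈ K, dist (V * β g (star (V : M))) (W * β g (star (W : M))) ≤ ε := by
  classical
  have h0 : ∀ x, ∃ y, star (V : M) * i x * V = i y := fun x => by
    obtain ⟨b, hb⟩ := hI (star (V : M)) x
    rw [hb]
    exact hI.right _ _
  choose r hr using h0
  obtain ⟨w, hw, h1, h2, h3⟩ := H S (T.image r) K ε hε
  choose! c hc using h2
  refine ⟨V * ⟨w, hw⟩, (T.image r).image c, fun a ha => ?_, fun x hx => ?_, fun g hg => ?_⟩
  · have e : ((V * ⟨w, hw⟩ : unitary M) : M) * J a * star ((V * ⟨w, hw⟩ : unitary M) : M) =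
        V * (w * J a * star w) * star (V : M) := by
      simp only [Submonoid.coe_mul, star_mul, mul_assoc]
    rw [e, inter_dist_conj V.2, dist_comm, dist_eq_norm]
    refine le_of_eq_of_le ?_ (h1 a ha)
    rw [← CStarRing.norm_mul_mem_unitary (w * J a - J a * w) (Unitary.star_mem hw), sub_mul,
      mul_assoc (J a), Unitary.mul_star_self_of_mem hw, mul_one]
  · have hx' := Finset.mem_image_of_mem r hx
    refine ⟨_, Finset.mem_image_of_mem c hx', le_of_eq_of_le ?_ (hc _ hx')⟩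
    have hW := (V * ⟨w, hw⟩ : unitary M).2
    have e : i x = ((V * ⟨w, hw⟩ : unitary M) : M) * (star w * i (r x) * w) *
        star ((V * ⟨w, hw⟩ : unitary M) : M) := by
      have e1 : star w * i (r x) * w = star ((V * ⟨w, hw⟩ : unitary M) : M) * i x *
          ((V * ⟨w, hw⟩ : unitary M) : M) := by
        rw [← hr]
        simp only [Submonoid.coe_mul, star_mul, mul_assoc]
      rw [e1, ← mul_assoc, ← mul_assoc, hW.2, one_mul, mul_assoc, hW.2, mul_one]
    rw [← dist_eq_norm, ← inter_dist_conj hW (star w * i (r x) * w), ← e]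
  · refine le_of_eq_of_le ?_ (h3 g hg)
    have e : (V : M) * β g (star (V : M)) - ((V * ⟨w, hw⟩ : unitary M) : M) *
        β g (star ((V * ⟨w, hw⟩ : unitary M) : M)) =
        V * (β g w - w) * β g (star ((V * ⟨w, hw⟩ : unitary M) : M)) := by
      have e1 : β g w * β g (star ((V * ⟨w, hw⟩ : unitary M) : M)) = β g (star (V : M)) := by
        rw [← map_mul, Submonoid.coe_mul, star_mul, ← mul_assoc, hw.2, one_mul]
      rw [mul_sub, sub_mul, mul_assoc, e1, Submonoid.coe_mul]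
    rw [dist_eq_norm, e, CStarRing.norm_mul_mem_unitary _
      (inter_map_mem _ (Unitary.star_mem (V * ⟨w, hw⟩ : unitary M).2)),
      CStarRing.norm_mem_unitary_mul _ V.2]

theorem inter_seq (i : C →⋆ₙₐ[ℂ] M) (hI : IsIdl i) (β : G →* (M ≃⋆ₐ[ℂ] M)) (J : A → M)
    (H : ∀ (S : Finset A) (T : Finset C) (K : Finset G) (ε : ℝ), 0 < ε → ∃ w ∈ unitary M,
      (∀ a ∈ S, ‖w * J a - J a * w‖ ≤ ε) ∧
      (∀ x ∈ T, ∃ a, ‖star w * i x * w - J a‖ ≤ ε) ∧ ∀ g ∈ K, ‖β g w - w‖ ≤ ε)
    (a : ℕ → A) (b : ℕ → C) (e : ℕ → G) : ∃ (V : ℕ → unitary M) (S : ℕ → Finset A), Monotone S ∧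
      (∀ n, a n ∈ S (n + 1)) ∧
      (∀ n, ∀ x ∈ S n, dist (V n * J x * star (V n : M)) (V (n + 1) * J x * star (V (n + 1) : M)) ≤
        (1 / 2) ^ n) ∧
      (∀ n, ∀ k ≤ n, ∃ x ∈ S (n + 1),
        dist (i (b k)) (V (n + 1) * J x * star (V (n + 1) : M)) ≤ (1 / 2) ^ n) ∧
      ∀ n, ∀ k ≤ n, dist (V n * β (e k) (star (V n : M)))
        (V (n + 1) * β (e k) (star (V (n + 1) : M))) ≤ (1 / 2) ^ n := by
  classical
  choose W S' h1 h2 h3 using fun (p : unitary M × Finset A) (n : ℕ) =>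
    inter_step i hI β J H p.1 p.2 ((Finset.range (n + 1)).image b) ((Finset.range (n + 1)).image e)
      ((1 / 2) ^ n) (by positivity)
  let st : ℕ → unitary M × Finset A := fun n =>
    Nat.rec (1, ∅) (fun n p => (W p n, insert (a n) (p.2 ∪ S' p n))) n
  refine ⟨fun n => (st n).1, fun n => (st n).2, monotone_nat_of_le_succ fun n =>
    Finset.subset_union_left.trans (Finset.subset_insert _ _), fun n => Finset.mem_insert_self _ _,
    fun n => h1 (st n) n, fun n k hk => ?_, fun n k hk => h3 (st n) n (e k)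
      (Finset.mem_image_of_mem e (Finset.mem_range.2 (Nat.lt_succ_of_le hk)))⟩
  obtain ⟨x, hx, hx'⟩ := h2 (st n) n (b k)
    (Finset.mem_image_of_mem b (Finset.mem_range.2 (Nat.lt_succ_of_le hk)))
  exact ⟨x, Finset.mem_insert_of_mem (Finset.mem_union_right _ hx), hx'⟩

theorem inter_lim (i : C →⋆ₙₐ[ℂ] M) (hi : Function.Injective i) (φ : ℕ → A →⋆ₙₐ[ℂ] M)
    (hr : ∀ n x, ∃ y, i y = φ n x) (h : ∀ x, CauchySeq fun n => φ n x) :
    ∃ ψ : A →⋆ₙₐ[ℂ] C, ∀ x, Tendsto (fun n => φ n x) atTop (𝓝 (i (ψ x))) := by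
  have h0 : ∀ x, ∃ y, Tendsto (fun n => φ n x) atTop (𝓝 (i y)) := fun x => by
    obtain ⟨z, hz⟩ := cauchySeq_tendsto_of_complete (h x)
    obtain ⟨y, rfl⟩ := (NonUnitalStarAlgHom.isometry i hi).isClosedEmbedding.isClosed_range.mem_of_tendsto
      hz (Eventually.of_forall fun n => hr n x)
    exact ⟨y, hz⟩
  choose f hf using h0
  refine ⟨⟨⟨⟨⟨f, fun r x => hi ?_⟩, hi ?_, fun x y => hi ?_⟩, fun x y => hi ?_⟩, fun x => hi ?_⟩, hf⟩
  · exact tendsto_nhds_unique (hf _) (by simpa using (hf x).const_smul r)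
  · exact tendsto_nhds_unique (hf 0) (by simp)
  · exact tendsto_nhds_unique (hf _) (by simpa using (hf x).add (hf y))
  · exact tendsto_nhds_unique (hf _) (by simpa using (hf x).mul (hf y))
  · exact tendsto_nhds_unique (hf _) (by simpa [map_star] using (hf x).star)

end aux

theorem inter_equiv {A C M G : Type} [NonUnitalCStarAlgebra A] [NonUnitalCStarAlgebra C]
    [CStarAlgebra M] [Group G] [Countable G] [TopologicalSpace.SeparableSpace A]
    [TopologicalSpace.SeparableSpace C] (i : C →⋆ₙₐ[ℂ] M) (hi : Function.Injective i)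
    (hI : IsIdl i) (α : G →* (A ≃⋆ₐ[ℂ] A)) (β : G →* (M ≃⋆ₐ[ℂ] M)) (j : A →⋆ₙₐ[ℂ] C)
    (hj : Function.Injective j) (hjα : ∀ g a, β g (i (j a)) = i (j (α g a)))
    (H : ∀ (S : Finset A) (T : Finset C) (K : Finset G) (ε : ℝ), 0 < ε → ∃ w ∈ unitary M,
      (∀ a ∈ S, ‖w * i (j a) - i (j a) * w‖ ≤ ε) ∧
      (∀ x ∈ T, ∃ a, ‖star w * i x * w - i (j a)‖ ≤ ε) ∧ ∀ g ∈ K, ‖β g w - w‖ ≤ ε) :
    ∃ (Φ : A ≃⋆ₐ[ℂ] C) (u : G → M), (∀ g, u g ∈ unitary M) ∧
      (∀ g h, u (g * h) = u g * β g (u h)) ∧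
      ∀ g a, i (Φ (α g a)) = u g * β g (i (Φ a)) * star (u g) := by
  obtain ⟨a, ha⟩ := TopologicalSpace.exists_dense_seq A
  obtain ⟨b, hb⟩ := TopologicalSpace.exists_dense_seq C
  obtain ⟨e, he⟩ := exists_surjective_nat G
  obtain ⟨V, S, hS, h1, h2, h3, h4⟩ := inter_seq i hI β (fun a => i (j a)) H a b e
  have hii := NonUnitalStarAlgHom.isometry i hi
  have hiso : ∀ n x y, dist (V n * i (j x) * star (V n : M)) (V n * i (j y) * star (V n : M)) =
      dist x y := fun n x y => by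
    rw [inter_dist_conj (V n).2, hii.dist_eq, (NonUnitalStarAlgHom.isometry j hj).dist_eq]
  have hg : ∀ m, ∀ x ∈ S m, ∀ n, dist (V (n + m) * i (j x) * star (V (n + m) : M))
      (V (n + 1 + m) * i (j x) * star (V (n + 1 + m) : M)) ≤ (1 / 2) ^ m * (1 / 2) ^ n :=
    fun m x hx n => by
      rw [← pow_add, add_comm m n, add_right_comm]
      exact h2 _ x (hS (Nat.le_add_left _ _) hx)
  have hc : ∀ x, CauchySeq fun n => V n * i (j x) * star (V n : M) := fun x => by
    refine Metric.cauchySeq_iff'.2 fun ε hε => ?_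
    obtain ⟨k, hk⟩ := ha.exists_dist_lt x (by positivity : 0 < ε / 3)
    have h5 : CauchySeq fun n => V n * i (j (a k)) * star (V n : M) := (cauchySeq_shift (k + 1)).1
      (cauchySeq_of_le_geometric _ _ (by norm_num) (hg _ _ (h1 k)))
    obtain ⟨N, hN⟩ := Metric.cauchySeq_iff'.1 h5 _ (by positivity : 0 < ε / 3)
    refine ⟨N, fun n hn => (dist_triangle4 _ (V n * i (j (a k)) * star (V n : M))
      (V N * i (j (a k)) * star (V N : M)) _).trans_lt ?_⟩
    rw [hiso, hiso, dist_comm (a k)]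
    linarith [hN n hn]
  obtain ⟨ψ, hψ⟩ := inter_lim i hi
    (fun n => ((Unitary.conjStarAlgAut ℂ M (V n) : M →⋆ₙₐ[ℂ] M)).comp (i.comp j))
    (fun n x => by
      obtain ⟨y, hy⟩ := hI (V n) (j x)
      obtain ⟨z, hz⟩ := hI.right (star (V n : M)) y
      exact ⟨z, by rw [← hz, ← hy]; rfl⟩) hc
  have hψ' : ∀ x, Tendsto (fun n => V n * i (j x) * star (V n : M)) atTop (𝓝 (i (ψ x))) := hψ
  have h5 : Isometry ψ := Isometry.of_dist_eq fun x y => (hii.dist_eq _ _).symm.trans
    (tendsto_nhds_unique ((hψ' x).dist (hψ' y))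
      (tendsto_const_nhds.congr fun n => (hiso n x y).symm))
  have h6 : Function.Surjective ψ := by
    rw [← Set.range_eq_univ, ← h5.isClosedEmbedding.isClosed_range.closure_eq,
      ← Set.univ_subset_iff, ← hb.closure_range, isClosed_closure.closure_subset_iff]
    rintro _ ⟨k, rfl⟩
    refine Metric.mem_closure_iff.2 fun ε hε => ?_
    obtain ⟨n, hn, hn'⟩ := (((tendsto_pow_atTop_nhds_zero_of_lt_one (r := (1 / 2 : ℝ))
      (by norm_num) (by norm_num)).eventually_lt_const (half_pos hε)).and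
        (eventually_ge_atTop k)).exists
    obtain ⟨x, hx, hx'⟩ := h3 n k hn'
    have h7 := dist_le_of_le_geometric_of_tendsto₀ _ _ (by norm_num) (hg _ x hx)
      ((tendsto_add_atTop_iff_nat (n + 1)).2 (hψ' x))
    rw [zero_add, pow_succ, mul_div_assoc, show (1 / 2 / (1 - 1 / 2) : ℝ) = 1 by norm_num] at h7
    refine ⟨ψ x, ⟨x, rfl⟩, ?_⟩
    rw [← hii.dist_eq]
    refine (dist_triangle _ (V (n + 1) * i (j x) * star (V (n + 1) : M)) _).trans_lt ?_
    linarith
  have hu : ∀ g, ∃ u, Tendsto (fun n => V n * β g (star (V n : M))) atTop (𝓝 u) := fun g => by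
    obtain ⟨k, rfl⟩ := he g
    refine cauchySeq_tendsto_of_complete ((cauchySeq_shift k).1
      (cauchySeq_of_le_geometric (1 / 2) ((1 / 2) ^ k) (by norm_num) fun n => ?_))
    rw [← pow_add, add_comm k n, add_right_comm]
    exact h4 _ k (Nat.le_add_left _ _)
  choose u hu using hu
  have hβ : ∀ g, Continuous (β g) := fun g => (StarAlgEquiv.isometry (β g)).continuous
  have hm : ∀ g n, V n * β g (star (V n : M)) ∈ unitary M := fun g n =>
    mul_mem (V n).2 (inter_map_mem _ (Unitary.star_mem (V n).2))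
  refine ⟨StarAlgEquiv.ofBijective ψ ⟨h5.injective, h6⟩, u, fun g => ⟨?_, ?_⟩, fun g h => ?_,
    fun g x => ?_⟩
  · exact tendsto_nhds_unique ((hu g).star.mul (hu g))
      (tendsto_const_nhds.congr fun n => (hm g n).1.symm)
  · exact tendsto_nhds_unique ((hu g).mul (hu g).star)
      (tendsto_const_nhds.congr fun n => (hm g n).2.symm)
  · refine tendsto_nhds_unique (hu (g * h))
      (((hu g).mul (((hβ g).tendsto _).comp (hu h))).congr fun n => ?_)
    rw [Function.comp_apply, mul_assoc, ← map_mul, ← mul_assoc, (V n).2.1, one_mul, map_mul]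
    rfl
  · refine tendsto_nhds_unique (hψ' (α g x))
      ((((hu g).mul (((hβ g).tendsto _).comp (hψ' x))).mul (hu g).star).congr fun n => ?_)
    rw [Function.comp_apply, star_mul, ← map_star, star_star, ← hjα, ← mul_assoc, mul_assoc (V n : M),
      mul_assoc (V n : M), ← map_mul, ← map_mul, ← mul_assoc, ← mul_assoc, (V n).2.1, one_mul,
      mul_assoc (i (j x)), (V n).2.1, mul_one]

end Vale.Agent.P095
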