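import Vale.Agent.P095.Defs
import Vale.Agent.P101.Spatial

/-! The minimal tensor product of a non-unital algebra `A` with a unital algebra `Z`.

Plan. Every `x : A ⊗ Z` is `∑ i : Fin n, a i ⊗ₜ z i`. `norm_le`: each `RepNorm` value is at most
`‖a‖ ‖z‖` (`TensorProduct.norm_mapL_le`). `injective_left`: faithful unital representations `ρ` of the
unitization `A⁺¹` and `σ` of `Z` (`P101.exists_faithful`), `mapL (ρ a) (σ 1) = mapL (ρ a) 1` kills
`ξ ⊗ η` only if `ρ a ξ = 0` (`K` is nontrivial; `TensorProduct.norm_tmul`). `exists_act`: the sets of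
`RepNorm` values of `(a, z)` and `(φ ∘ a, z)` agree for an automorphism `φ` (`ρ ↦ ρ ∘ φ`), so
`‖ι (map φ id x)‖ = ‖ι x‖`; extend `ι x ↦ ι (map φ id x)` by density
(`LinearMap.extendOfNorm`, compare `P101.RichAux.exists_ext`), get homomorphisms `b g` with
`b (g h) = b g ∘ b h`, `b 1 = id` (compare `IsF.exists_act` in file Cen). -/

open scoped TensorProduct

namespace Vale.Agent.P095

variable {A Z C : Type} [NonUnitalCStarAlgebra A] [CStarAlgebra Z] [NonUnitalCStarAlgebra C]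
  {ι : A ⊗[ℂ] Z →⋆ₙₐ[ℂ] C}

theorem IsMinTensor.norm_le (h : IsMinTensor ι) (a : A) (z : Z) : ‖ι (a ⊗ₜ z)‖ ≤ ‖a‖ * ‖z‖ := by
  have h1 : ‖ι (∑ _i : Fin 1, a ⊗ₜ z)‖ ≤ ‖a‖ * ‖z‖ := (h.2 1 (fun _ => a) fun _ => z).2 (by
    rintro r ⟨H, K, _, _, _, _, _, _, ρ, σ, rfl⟩
    rw [Fin.sum_univ_one]
    exact (TensorProduct.norm_mapL_le _ _).trans (mul_le_mul
      (NonUnitalStarAlgHom.norm_apply_le ρ a) (NonUnitalStarAlgHom.norm_apply_le σ z)
      (norm_nonneg _) (norm_nonneg _)))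
  rwa [Fin.sum_univ_one] at h1

theorem IsMinTensor.injective_left [TopologicalSpace.SeparableSpace A]
    [TopologicalSpace.SeparableSpace Z] [Nontrivial Z] (h : IsMinTensor ι) {a : A}
    (ha : ι (a ⊗ₜ 1) = 0) : a = 0 := by
  have : TopologicalSpace.SeparableSpace (Unitization ℂ A) :=
    (Unitization.uniformEquivProd (𝕜 := ℂ) (A := A)).symm.surjective.denseRange.separableSpace
      (Unitization.uniformEquivProd (𝕜 := ℂ) (A := A)).symm.continuous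
  obtain ⟨H, _, _, _, ρ, hρ⟩ := P101.exists_faithful (Unitization ℂ A)
  obtain ⟨K, _, _, _, σ, hσ⟩ := P101.exists_faithful Z
  have h1 : ‖TensorProduct.mapL (ρ a) (σ 1)‖ ≤ ‖ι (∑ _i : Fin 1, a ⊗ₜ 1)‖ :=
    (h.2 1 (fun _ => a) fun _ => 1).1 ⟨H, K, _, _, ‹_›, _, _, ‹_›,
      ρ.toNonUnitalStarAlgHom.comp (Unitization.inrNonUnitalStarAlgHom ℂ A),
      σ.toNonUnitalStarAlgHom, by rw [Fin.sum_univ_one]; rfl⟩
  rw [Fin.sum_univ_one, ha, norm_zero, map_one] at h1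
  obtain ⟨η, hη⟩ : ∃ η : K, η ≠ 0 := by
    by_contra hc
    push Not at hc
    exact zero_ne_one (hσ (ContinuousLinearMap.ext fun η => (hc _).trans (hc _).symm))
  have h2 : ρ a = 0 := ContinuousLinearMap.ext fun ξ => by
    have h3 := (ContinuousLinearMap.le_of_opNorm_le _ h1 (ξ ⊗ₜ[ℂ] η))
    simpa [hη, TensorProduct.norm_tmul, mul_nonpos_iff, norm_nonneg] using h3
  exact Unitization.inr_injective (R := ℂ) (hρ (by rw [h2, Unitization.inr_zero, map_zero]))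

theorem IsMinTensor.separable [TopologicalSpace.SeparableSpace A]
    [TopologicalSpace.SeparableSpace Z] (h : IsMinTensor ι) :
    TopologicalSpace.SeparableSpace C := by
  let f : A →L[ℂ] Z →L[ℂ] C := LinearMap.mkContinuous₂
    ((TensorProduct.mk ℂ A Z).compr₂ (ι : A ⊗[ℂ] Z →ₗ[ℂ] C)) 1 fun a z => by
      rw [one_mul]
      exact h.norm_le a z
  have h1 := ((TopologicalSpace.isSeparable_range f.continuous₂).span (R := ℂ)).closure
  refine TopologicalSpace.isSeparable_univ_iff.1 (h1.mono ?_)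
  rw [← h.1.closure_range]
  refine closure_mono ?_
  rintro _ ⟨x, rfl⟩
  obtain ⟨n, a, z, rfl⟩ := TensorProduct.exists_sum_tmul_eq x
  rw [map_sum]
  exact Submodule.sum_mem _ fun i _ => Submodule.subset_span ⟨(a i, z i), rfl⟩

theorem IsMinTensor.tens_ext (h : IsMinTensor ι) (φ : A →⋆ₙₐ[ℂ] A) :
    ∃ ψ : C →⋆ₙₐ[ℂ] C, ∀ a z, ψ (ι (a ⊗ₜ z)) = ι (φ a ⊗ₜ z) := by
  let θ : A ⊗[ℂ] Z →ₗ[ℂ] C :=
    (ι : A ⊗[ℂ] Z →ₗ[ℂ] C) ∘ₗ TensorProduct.map (φ : A →ₗ[ℂ] A) LinearMap.id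
  have hθ : ∀ a z, θ (a ⊗ₜ z) = ι (φ a ⊗ₜ z) := fun _ _ => rfl
  have hn : ∀ x, ‖θ x‖ ≤ ‖ι x‖ := fun x => by
    obtain ⟨n, a, z, rfl⟩ := TensorProduct.exists_sum_tmul_eq x
    have e : θ (∑ i, a i ⊗ₜ z i) = ι (∑ i, φ (a i) ⊗ₜ z i) := by simp only [map_sum, hθ]
    rw [e]
    refine (h.2 n (fun i => φ (a i)) z).2 ?_
    rintro r ⟨H, K, _, _, _, _, _, _, ρ, σ, rfl⟩
    exact (h.2 n a z).1 ⟨H, K, _, _, ‹_›, _, _, ‹_›, ρ.comp φ, σ, rfl⟩
  have hm : ∀ x y, θ (x * y) = θ x * θ y := fun x y => by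
    obtain ⟨n, a, z, rfl⟩ := TensorProduct.exists_sum_tmul_eq x
    obtain ⟨m, b, w, rfl⟩ := TensorProduct.exists_sum_tmul_eq y
    simp only [Finset.sum_mul_sum, map_sum, Algebra.TensorProduct.tmul_mul_tmul, hθ, ← map_mul]
  have hs : ∀ x, θ (star x) = star (θ x) := fun x => by
    obtain ⟨n, a, z, rfl⟩ := TensorProduct.exists_sum_tmul_eq x
    simp only [star_sum, map_sum, TensorProduct.star_tmul, hθ, ← map_star]
  let f := θ.extendOfNorm (ι : A ⊗[ℂ] Z →ₗ[ℂ] C)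
  have hf : ∀ s, f (ι s) = θ s := fun s =>
    LinearMap.extendOfNorm_eq (e := (ι : A ⊗[ℂ] Z →ₗ[ℂ] C)) h.1
      ⟨1, fun s => (hn s).trans_eq (one_mul _).symm⟩ s
  refine ⟨{ toFun := f
            map_smul' := fun c x => map_smul f c x
            map_zero' := map_zero f
            map_add' := map_add f
            map_mul' := fun x y => ?_
            map_star' := fun x => ?_ }, fun a z => hf _⟩
  · refine h.1.induction_on₂ (p := fun x y => f (x * y) = f x * f y)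
      (isClosed_eq (by fun_prop) (by fun_prop)) (fun a b => ?_) x y
    rw [← map_mul, hf, hf, hf, hm]
  · refine h.1.induction_on (p := fun x => f (star x) = star (f x)) x
      (isClosed_eq (by fun_prop) (by fun_prop)) fun a => ?_
    rw [← map_star, hf, hf, hs]

theorem IsMinTensor.tens_eq (h : IsMinTensor ι) {ψ ψ' : C →⋆ₙₐ[ℂ] C}
    (e : ∀ a z, ψ (ι (a ⊗ₜ z)) = ψ' (ι (a ⊗ₜ z))) : ψ = ψ' := by
  have hc : ∀ χ : C →⋆ₙₐ[ℂ] C, Continuous χ := fun χ =>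
    AddMonoidHomClass.continuous_of_bound χ 1 fun x => by
      rw [one_mul]
      exact NonUnitalStarAlgHom.norm_apply_le χ x
  refine NonUnitalStarAlgHom.ext fun x => h.1.induction_on (p := fun x => ψ x = ψ' x) x
    (isClosed_eq (hc _) (hc _)) fun y => ?_
  obtain ⟨n, a, z, rfl⟩ := TensorProduct.exists_sum_tmul_eq y
  simp only [map_sum, e]

theorem IsMinTensor.exists_act (h : IsMinTensor ι) {G : Type} [Group G]
    (α : G →* (A ≃⋆ₐ[ℂ] A)) :
    ∃ β : G →* (C ≃⋆ₐ[ℂ] C), ∀ g a z, β g (ι (a ⊗ₜ z)) = ι (α g a ⊗ₜ z) := by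
  choose J hJ using fun g => h.tens_ext (α g : A →⋆ₙₐ[ℂ] A)
  have hJ' : ∀ g a z, J g (ι (a ⊗ₜ z)) = ι (α g a ⊗ₜ z) := hJ
  have hm : ∀ g k, J (g * k) = (J g).comp (J k) := fun g k => h.tens_eq fun a z => by
    rw [NonUnitalStarAlgHom.comp_apply, hJ', hJ', hJ', map_mul]
    rfl
  have h1 : J 1 = .id ℂ C := h.tens_eq fun a z => by
    rw [hJ', map_one]
    rfl
  exact ⟨MonoidHom.mk' (fun g => StarAlgEquiv.ofNonUnitalStarAlgHom (J g) (J g⁻¹)
    (by rw [← hm, inv_mul_cancel, h1]) (by rw [← hm, mul_inv_cancel, h1]))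
    fun g k => StarAlgEquiv.ext fun d => DFunLike.congr_fun (hm g k) d, hJ'⟩

end Vale.Agent.P095
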