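import Vale.Agent.P095.Key
import Vale.Agent.P095.Glue
import Vale.Agent.P095.Inter
import Vale.Agent.P095.Tens
import Vale.Agent.P101.Simple

/-! No characters on the fixed point algebra of `F(A)` imply equivariant `Z`-stability. -/

open Filter Topology TopologicalSpace
open scoped BoundedContinuousFunction MultiplierAlgebra TensorProduct

namespace Vale.Agent.P095

open P101 P101.RichAux

theorem exists_wit {F : Type} [CStarAlgebra F] (hR : Rich F) (hF : ∀ χ : F →⋆ₙₐ[ℂ] ℂ, χ = 0) :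
    ∃ x : Fin 5 → F, (∀ c, x c * x c = 0) ∧ ∑ c, star (x c) * x c = 1 := by
  obtain ⟨z, a, b, h⟩ := exists_pair hR hF 2 3 two_pos three_pos (by norm_num)
  have hp : ∀ t : ℝ, 0 < (1 - t) ^ 2 + t ^ 2 := fun t => by nlinarith [sq_nonneg (1 - 2 * t)]
  let g : ℝ → ℝ := fun t => (√((1 - t) ^ 2 + t ^ 2))⁻¹
  have hg : Continuous g := Continuous.inv₀ (by fun_prop) fun t => (Real.sqrt_pos.2 (hp t)).ne'
  have hz := h.pc.sa
  have hs : IsSelfAdjoint (cfc g z) := cfc_predicate _ _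
  have h1 : cfc g z * ((1 - z) * (1 - z) + z * z) * cfc g z = 1 := by
    have : (1 - z) * (1 - z) + z * z = cfc (fun t : ℝ => (1 - t) * (1 - t) + t * t) z := by
      rw [cfc_add .., cfc_mul .., cfc_mul .., cfc_sub .., cfc_id' ℝ z, cfc_const_one ℝ z]
    rw [this, ← cfc_mul .., ← cfc_mul .., ← cfc_const_one ℝ z]
    congr 1
    ext t
    have := Real.mul_self_sqrt (hp t).le
    have := (Real.sqrt_pos.2 (hp t)).ne'
    simp only [g]
    field_simp
    nlinarith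
  have ca : ∀ i j, Commute (cfc g z) (a i j) := fun i j => hz.commute_cfc
    (by simpa using (Commute.one_left _).sub_left (h.ua.comm i j)) g
  have cb : ∀ i j, Commute (cfc g z) (b i j) := fun i j => hz.commute_cfc (h.ub.comm i j) g
  have nil : ∀ {x : F}, Commute (cfc g z) x → x * x = 0 → x * cfc g z * (x * cfc g z) = 0 :=
    fun hx h0 => by rw [hx.mul_mul_mul_comm, h0, zero_mul]
  refine ⟨![a 0 1 * cfc g z, a 1 0 * cfc g z, b 0 1 * cfc g z, b 1 2 * cfc g z, b 2 0 * cfc g z],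
    fun c => ?_, ?_⟩
  · fin_cases c
    · exact nil (ca _ _) (h.ua.mul_ne (by decide) _ _)
    · exact nil (ca _ _) (h.ua.mul_ne (by decide) _ _)
    · exact nil (cb _ _) (h.ub.mul_ne (by decide) _ _)
    · exact nil (cb _ _) (h.ub.mul_ne (by decide) _ _)
    · exact nil (cb _ _) (h.ub.mul_ne (by decide) _ _)
  · have e : ∀ x : F, star (x * cfc g z) * (x * cfc g z) = cfc g z * (star x * x) * cfc g z :=
      fun x => by rw [star_mul, hs.star_eq]; noncomm_ring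
    have s1 := h.ua.sum
    have s2 := h.ub.sum
    rw [Fin.sum_univ_two] at s1
    rw [Fin.sum_univ_three] at s2
    rw [← h1, Fin.sum_univ_five, show (1 - z) * (1 - z) + z * z =
      (1 - z) * (a 0 0 + a 1 1) + z * (b 0 0 + b 1 1 + b 2 2) by rw [s1, s2]]
    simp only [Matrix.cons_val, e, h.ua.star, h.ub.star, h.ua.mul_same, h.ub.mul_same]
    noncomm_ring

theorem exists_restrict {M G : Type} [CStarAlgebra M] [Group G] (α : G →* (M ≃⋆ₐ[ℂ] M))
    (B : StarSubalgebra ℂ M) (hB : ∀ g, ∀ b ∈ B, α g b ∈ B) :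
    ∃ β : G →* (B ≃⋆ₐ[ℂ] B), ∀ g b, (β g b).1 = α g b.1 := by
  let J : G → B →⋆ₐ[ℂ] B := fun g =>
    ((α g : M →⋆ₐ[ℂ] M).comp B.subtype).codRestrict B fun b => hB g _ b.2
  exact ⟨MonoidHom.mk' (fun g => StarAlgEquiv.ofStarAlgHom (J g) (J g⁻¹)
    (StarAlgHom.ext fun d => Subtype.ext ((congrArg (fun k => α g⁻¹ (α k d.1)) (inv_inv g).symm).trans
      (act_inv α g⁻¹ _))) (StarAlgHom.ext fun d => Subtype.ext (act_inv α g _)))
    fun g k => StarAlgEquiv.ext fun d => Subtype.ext (act_mul α g k _), fun _ _ => rfl⟩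

theorem exists_env {M G κ : Type} [CStarAlgebra M] [Group G] [Countable G] [Fintype κ]
    (α : G →* (M ≃⋆ₐ[ℂ] M)) (hW : Wit κ α) {s : Set M} (hs : IsSeparable s) :
    ∃ (B : Type) (_ : CStarAlgebra B) (ψ : B →⋆ₐ[ℂ] M) (β : G →* (B ≃⋆ₐ[ℂ] B)),
      SeparableSpace B ∧ s ⊆ Set.range ψ ∧ (∀ g b, ψ (β g b) = α g (ψ b)) ∧ Wit κ β := by
  classical
  choose Y hY using fun T K (n : ℕ) => hW T K (1 / ((n : ℝ) + 1)) (by positivity)
  let S : Set M → StarSubalgebra ℂ M := fun d =>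
    StarAlgebra.adjoin ℂ (Set.image2 (fun g x => α g x) Set.univ d)
  have hS : ∀ d, ∀ x ∈ d, x ∈ S d := fun d x hx =>
    StarAlgebra.subset_adjoin ℂ _ (Set.mem_image2.2 ⟨1, trivial, x, hx, by simp⟩)
  have hS' : ∀ d g, ∀ x ∈ S d, α g x ∈ S d := fun d g x hx =>
    StarAlgebra.adjoin_le (S := (S d).comap (α g : M →⋆ₐ[ℂ] M)) (by
      rintro _ ⟨k, -, y, hy, rfl⟩
      exact StarAlgebra.subset_adjoin ℂ _ ⟨g * k, trivial, y, hy, act_mul α g k y⟩) hx
  have step : ∀ d : Set M, d.Countable → ∃ d' : Set M, d'.Countable ∧ d ⊆ d' ∧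
      (S d : Set M) ⊆ closure d' ∧ ∀ T : Finset M, ↑T ⊆ d → ∀ K n c, Y T K n c ∈ d' := by
    intro d hd
    obtain ⟨t, h1, h2⟩ := isSeparable_adjoin (Set.countable_univ.image2 hd fun g x => α g x)
    have h3 : {T : Finset M | ↑T ⊆ d}.Countable :=
      ((Set.countable_setOf_finite_subset hd).preimage_of_injOn (f := fun T : Finset M => (T : Set M))
        Finset.coe_injective.injOn).mono fun T hT => And.intro T.finite_toSet hT
    exact ⟨d ∪ t ∪ Set.image2 (fun T (p : Finset G × ℕ × κ) => Y T p.1 p.2.1 p.2.2) _ Set.univ,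
      (hd.union h1).union (h3.image2 Set.countable_univ _), fun x hx => Or.inl (Or.inl hx),
      h2.trans (closure_mono fun x hx => Or.inl (Or.inr hx)),
      fun T hT K n c => Or.inr ⟨T, hT, (K, n, c), trivial, rfl⟩⟩
  choose! nx h1 h2 h3 h4 using step
  obtain ⟨d0, hd0, hd0'⟩ := hs
  let d : ℕ → Set M := fun k => nx^[k] d0
  have hd : ∀ k, d (k + 1) = nx (d k) := fun k => Function.iterate_succ_apply' _ _ _
  have c1 : ∀ k, (d k).Countable := fun k => by
    induction k with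
    | zero => exact hd0
    | succ k ih => exact hd k ▸ h1 _ ih
  have mono : Monotone d := monotone_nat_of_le_succ fun k => hd k ▸ h2 _ (c1 k)
  have monoS : ∀ {k l}, k ≤ l → S (d k) ≤ S (d l) := fun h =>
    StarAlgebra.adjoin_mono (Set.image2_subset_left (mono h))
  let R : StarSubalgebra ℂ M :=
    { carrier := {x | ∃ k, x ∈ S (d k)}
      mul_mem' := fun ⟨k, hk⟩ ⟨l, hl⟩ =>
        ⟨max k l, mul_mem (monoS (le_max_left _ _) hk) (monoS (le_max_right _ _) hl)⟩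
      add_mem' := fun ⟨k, hk⟩ ⟨l, hl⟩ =>
        ⟨max k l, add_mem (monoS (le_max_left _ _) hk) (monoS (le_max_right _ _) hl)⟩
      algebraMap_mem' := fun c => ⟨0, algebraMap_mem _ c⟩
      star_mem' := fun ⟨k, hk⟩ => ⟨k, star_mem hk⟩ }
  let B := R.topologicalClosure
  have : IsClosed (B : Set M) := StarSubalgebra.isClosed_topologicalClosure _
  have b1 : ∀ k, d k ⊆ B := fun k x hx => subset_closure ⟨k, hS _ _ hx⟩
  have b2 : (B : Set M) ⊆ closure (⋃ k, d k) := closure_minimal (fun x ⟨k, hk⟩ =>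
    closure_mono (hd k ▸ Set.subset_iUnion d (k + 1)) (h3 _ (c1 k) hk)) isClosed_closure
  obtain ⟨β, hβ⟩ := exists_restrict α B fun g b hb =>
    map_mem_closure (StarAlgEquiv.isometry (α g)).continuous hb fun x ⟨k, hk⟩ => ⟨k, hS' _ g x hk⟩
  refine ⟨B, inferInstance, B.subtype, β, IsSeparable.separableSpace
    ⟨_, Set.countable_iUnion c1, b2⟩, fun x hx => ⟨⟨x, closure_minimal (b1 0) this (hd0' hx)⟩, rfl⟩,
    hβ, fun T K ε hε => ?_⟩
  obtain ⟨n, hn⟩ := exists_nat_one_div_lt (half_pos hε)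
  obtain ⟨k, hk⟩ := ((eventually_all_finset T).2 fun x _ => by
    obtain ⟨y, hy, hxy⟩ := Metric.mem_closure_iff.1 (b2 x.2) _ (by positivity : 0 < ε / 4)
    obtain ⟨k, hk⟩ := Set.mem_iUnion.1 hy
    exact (eventually_ge_atTop k).mono fun m hm => ⟨y, mono hm hk, by rwa [← dist_eq_norm]⟩ :
    ∀ᶠ k in atTop, ∀ x ∈ T, ∃ y ∈ d k, ‖x.1 - y‖ < ε / 4).exists
  choose! f hf hf' using hk
  obtain ⟨y1, y2⟩ := hY (T.image f) K n
  refine ⟨fun c => ⟨Y (T.image f) K n c, b1 (k + 1) (hd k ▸ h4 _ (c1 k) _ (by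
    rw [Finset.coe_image, Set.image_subset_iff]; exact hf) K n c)⟩, ?_, fun c => ⟨(y2 c).1,
      (y2 c).2.1.trans (by linarith), fun b hb => ?_, fun g hg => ?_⟩⟩
  · refine le_trans (le_of_eq ?_) (y1.trans (by linarith))
    refine congrArg norm (?_ : B.subtype _ = _)
    simp [map_star]
  · have h5 := (y2 c).2.2.1 _ (Finset.mem_image_of_mem f hb)
    have h6 := norm_comm_le (b.1 - f b) (Y (T.image f) K n c)
    have h7 := mul_le_mul (y2 c).1 (hf' b hb).le (norm_nonneg _) zero_le_one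
    change ‖Y (T.image f) K n c * b.1 - b.1 * Y (T.image f) K n c‖ ≤ ε
    generalize Y (T.image f) K n c = y at h5 h6 h7 ⊢
    rw [show y * b.1 - b.1 * y = (y * f b - f b * y) - ((b.1 - f b) * y - y * (b.1 - f b)) by
      noncomm_ring]
    linarith [norm_sub_le (y * f b - f b * y) ((b.1 - f b) * y - y * (b.1 - f b))]
  · refine le_trans (le_of_eq ?_) (((y2 c).2.2.2 g hg).trans (by linarith))
    exact congrArg (fun x => ‖x - _‖) (hβ g _)

theorem engine_wit {A D G : Type} [NonUnitalCStarAlgebra A] [SeparableSpace A] [CStarAlgebra D]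
    [Group G] [Countable G] (α : G →* (A ≃⋆ₐ[ℂ] A))
    (α' : G →* (𝓜(ℂ, A) ≃⋆ₐ[ℂ] 𝓜(ℂ, A))) (hα : ∀ g a, α' g (cm A a) = cm A (α g a))
    {ω : Ultrafilter ℕ} (hω : (ω : Filter ℕ) ≤ cofinite) {π : cenSeq (cm A) ω →⋆ₐ[ℂ] D}
    (h : IsF _ ω π) {hα' : Inv _ α'} {γ : G →* (D ≃⋆ₐ[ℂ] D)} (hγ : IsAct hα' π γ)
    (hF : ∀ χ : fixed γ →⋆ₙₐ[ℂ] ℂ, χ = 0) : Wit (Fin 5 × Bool) α' := by
  obtain ⟨x, h1, h2⟩ := exists_wit (h.rich_fixed isIdl_cm hω hγ) hF
  choose y hy hy' using fun c => exists_lift_le π h.1 (x c).1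
  refine fun T K ε hε => glue α α' hα (fun S K ε hε => ?_) T K hε
  have e : ∀ {u v : cenSeq (cm A) ω}, π u = π v → ∀ a, ∀ᶠ n in (ω : Filter ℕ),
      ‖(u.1 n - v.1 n) * cm A a‖ ≤ ε := fun huv a =>
    (nul_iff'.1 (h.eq_iff.1 huv a) ε hε).mono fun n hn => hn.le
  have e1 := e (u := ∑ c, star (y c) * y c) (v := 1) (by
    simpa [hy, map_star] using congrArg (fixed γ).subtype h2)
  have e2 := fun c => e (u := y c * y c) (v := 0) (by
    simpa [hy] using congrArg (fixed γ).subtype (h1 c))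
  have e3 := fun c g => e ((hγ g (y c)).symm.trans (by rw [hy]; exact (x c).2 g))
  obtain ⟨n, hn⟩ := ((eventually_all_finset S).2 fun a _ => (e1 a).and (eventually_all.2 fun c =>
    (nul_iff'.1 ((y c).2 a) ε hε).and ((e2 c a).and
      ((eventually_all_finset K).2 fun g _ => e3 c g a)))).exists
  refine ⟨fun c => (y c).1 n, fun c => ((y c).1.norm_coe_le_norm n).trans ((hy' c).trans ?_),
    fun a ha => ⟨by simpa using (hn a ha).1, fun c => ⟨((hn a ha).2 c).1.le,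
      by simpa using ((hn a ha).2 c).2.1, ((hn a ha).2 c).2.2⟩⟩⟩
  let _ := CStarAlgebra.spectralOrder (fixed γ)
  have := CStarAlgebra.spectralOrderedRing (fixed γ)
  have h3 := CStarAlgebra.norm_le_norm_of_nonneg_of_le (star_mul_self_nonneg (x c))
    ((Finset.single_le_sum (fun c _ => star_mul_self_nonneg (x c)) (Finset.mem_univ c)).trans_eq h2)
  rw [CStarRing.norm_star_mul_self] at h3
  exact abs_le_one_iff_mul_self_le_one.2 (h3.trans (IsStarProjection.one _).norm_le) |>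
    (le_abs_self _).trans

theorem dense_tmul {A Z C : Type} [NonUnitalCStarAlgebra A] [CStarAlgebra Z]
    [NonUnitalCStarAlgebra C] (ι : A ⊗[ℂ] Z →⋆ₙₐ[ℂ] C) (hd : DenseRange ι) :
    Dense (Submodule.span ℂ {x | ∃ a z, ι (a ⊗ₜ z) = x} : Set C) := hd.mono <| by
  rintro _ ⟨x, rfl⟩
  induction x using TensorProduct.induction_on with
  | zero => rw [map_zero]; exact zero_mem _
  | add x y hx hy => rw [map_add]; exact add_mem hx hy
  | tmul a z => exact Submodule.subset_span ⟨a, z, rfl⟩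

theorem engine_span {A Z C N G : Type} [NonUnitalCStarAlgebra A] [CStarAlgebra Z]
    [NonUnitalCStarAlgebra C] [CStarAlgebra N] [Group G] (j : 𝓜(ℂ, A) →⋆ₐ[ℂ] N) (k : Z →⋆ₐ[ℂ] N)
    (i : C →⋆ₙₐ[ℂ] N) (ι : A ⊗[ℂ] Z →⋆ₙₐ[ℂ] C) (hjk : ∀ a z, j (cm A a) * k z = i (ι (a ⊗ₜ z)))
    (hd : Dense (Submodule.span ℂ {x | ∃ a z, ι (a ⊗ₜ z) = x} : Set C)) (β : G →* (N ≃⋆ₐ[ℂ] N))
    (H : ∀ (S : Finset A) (T : Finset Z) (K : Finset G) (ε : ℝ), 0 < ε → ∃ w ∈ unitary N,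
      (∀ a ∈ S, ‖w * j (cm A a) - j (cm A a) * w‖ ≤ ε) ∧
      (∀ z ∈ T, ∃ b, ‖star w * k z * w - j b‖ ≤ ε) ∧ ∀ g ∈ K, ‖β g w - w‖ ≤ ε)
    (S : Finset A) (T : Finset C) (K : Finset G) {ε : ℝ} (hε : 0 < ε) : ∃ w ∈ unitary N,
      (∀ a ∈ S, ‖w * j (cm A a) - j (cm A a) * w‖ ≤ ε) ∧
      (∀ x ∈ T, ∃ a, ‖star w * i x * w - j (cm A a)‖ ≤ ε) ∧ ∀ g ∈ K, ‖β g w - w‖ ≤ ε := by
  classical
  have key : ∀ x ∈ Submodule.span ℂ {x | ∃ a z, ι (a ⊗ₜ z) = x}, ∃ (S : Finset A) (T : Finset Z)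
      (L : ℝ), 0 ≤ L ∧ ∀ δ, 0 ≤ δ → ∀ w ∈ unitary N,
      (∀ a ∈ S, ‖w * j (cm A a) - j (cm A a) * w‖ ≤ δ) →
      (∀ z ∈ T, ∃ b, ‖star w * k z * w - j b‖ ≤ δ) →
      ∃ a, ‖star w * i x * w - j (cm A a)‖ ≤ L * δ := fun x hx => by
    induction hx using Submodule.span_induction with
    | mem x hx =>
      obtain ⟨a, z, rfl⟩ := hx
      refine ⟨{a}, {z}, ‖k z‖ + ‖j (cm A a)‖, by positivity, fun δ hδ w hw h1 h2 => ?_⟩
      obtain ⟨b, hb⟩ := h2 z (Finset.mem_singleton_self z)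
      refine ⟨b.snd a, ?_⟩
      rw [← cm_mul, map_mul, ← hjk, show star w * (j (cm A a) * k z) * w - j (cm A a) * j b =
        j (cm A a) * (star w * k z * w - j b) - star w * ((w * j (cm A a) - j (cm A a) * w) *
        star w * k z) * w + (star w * w - 1) * j (cm A a) * star w * k z * w
        - star w * j (cm A a) * (w * star w - 1) * k z * w by noncomm_ring, hw.1, hw.2]
      simp only [sub_self, zero_mul, mul_zero, add_zero, sub_zero]
      refine (norm_sub_le _ _).trans ?_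
      rw [CStarRing.norm_mul_mem_unitary _ hw,
        CStarRing.norm_mem_unitary_mul _ (Unitary.star_mem hw)]
      have h3 := norm_mul_le ((w * j (cm A a) - j (cm A a) * w) * star w) (k z)
      rw [CStarRing.norm_mul_mem_unitary _ (Unitary.star_mem hw)] at h3
      have h4 := (norm_mul_le _ _).trans (mul_le_mul_of_nonneg_left hb (norm_nonneg (j (cm A a))))
      nlinarith [h1 a (Finset.mem_singleton_self a), norm_nonneg (k z)]
    | zero => exact ⟨∅, ∅, 0, le_rfl, fun _ _ _ _ _ _ => ⟨0, by simp⟩⟩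
    | add x y _ _ hx hy =>
      obtain ⟨S, T, L, hL, hx⟩ := hx
      obtain ⟨S', T', L', hL', hy⟩ := hy
      refine ⟨S ∪ S', T ∪ T', L + L', add_nonneg hL hL', fun δ hδ w hw h1 h2 => ?_⟩
      obtain ⟨u, hu⟩ := hx δ hδ w hw (fun a ha => h1 a (Finset.mem_union_left _ ha))
        fun f hf => h2 f (Finset.mem_union_left _ hf)
      obtain ⟨v, hv⟩ := hy δ hδ w hw (fun a ha => h1 a (Finset.mem_union_right _ ha))
        fun f hf => h2 f (Finset.mem_union_right _ hf)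
      refine ⟨u + v, ?_⟩
      rw [map_add, map_add, map_add, mul_add, add_mul, add_sub_add_comm, add_mul]
      exact (norm_add_le _ _).trans (add_le_add hu hv)
    | smul r x _ hx =>
      obtain ⟨S, T, L, hL, hx⟩ := hx
      refine ⟨S, T, ‖r‖ * L, mul_nonneg (norm_nonneg _) hL, fun δ hδ w hw h1 h2 => ?_⟩
      obtain ⟨u, hu⟩ := hx δ hδ w hw h1 h2
      refine ⟨r • u, ?_⟩
      rw [map_smul, map_smul, map_smul, mul_smul_comm, smul_mul_assoc, ← smul_sub, norm_smul,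
        mul_assoc ‖r‖]
      exact mul_le_mul_of_nonneg_left hu (norm_nonneg _)
  choose y hy hy' using fun x => Metric.mem_closure_iff.1 (hd x) _ (half_pos hε)
  choose S' T' L hL hk using fun x => key _ (hy x)
  have h0 : 0 ≤ ∑ x ∈ T, L x := Finset.sum_nonneg fun x _ => hL x
  obtain ⟨δ, hδ, h1⟩ := exists_pos_mul_lt (half_pos hε) (∑ x ∈ T, L x + 1)
  have h2 : δ ≤ ε := by nlinarith
  obtain ⟨w, hw, h3, h4, h5⟩ := H (S ∪ T.biUnion S') (T.biUnion T') K δ hδ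
  refine ⟨w, hw, fun a ha => (h3 a (Finset.mem_union_left _ ha)).trans h2, fun x hx => ?_,
    fun g hg => (h5 g hg).trans h2⟩
  obtain ⟨a, ha⟩ := hk x δ hδ.le w hw (fun a ha => h3 a (Finset.mem_union_right _
    (Finset.mem_biUnion.2 ⟨x, hx, ha⟩))) fun z hz => h4 z (Finset.mem_biUnion.2 ⟨x, hx, hz⟩)
  have h6 : ‖star w * i (x - y x) * w‖ < ε / 2 := by
    rw [CStarRing.norm_mul_mem_unitary _ hw, CStarRing.norm_mem_unitary_mul _ (Unitary.star_mem hw)]
    exact (NonUnitalStarAlgHom.norm_apply_le i _).trans_lt (dist_eq_norm x _ ▸ hy' x)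
  rw [map_sub, mul_sub, sub_mul] at h6
  have h7 := mul_le_mul_of_nonneg_right (Finset.single_le_sum (fun x _ => hL x) hx) hδ.le
  have h8 := norm_sub_le_norm_sub_add_norm_sub (star w * i x * w) (star w * i (y x) * w)
    (j (cm A a))
  exact ⟨a, by nlinarith⟩

theorem engine {A D G Z : Type} [NonUnitalCStarAlgebra A] [SeparableSpace A] [CStarAlgebra D]
    [Group G] [Countable G] [CStarAlgebra Z] (hZ : IsJiangSu Z) (α : G →* (A ≃⋆ₐ[ℂ] A))
    (α' : G →* (𝓜(ℂ, A) ≃⋆ₐ[ℂ] 𝓜(ℂ, A))) (hα : ∀ g a, α' g (cm A a) = cm A (α g a))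
    {ω : Ultrafilter ℕ} (hω : (ω : Filter ℕ) ≤ cofinite) {π : cenSeq (cm A) ω →⋆ₐ[ℂ] D}
    (h : IsF _ ω π) {hα' : Inv _ α'} {γ : G →* (D ≃⋆ₐ[ℂ] D)} (hγ : IsAct hα' π γ)
    (hF : ∀ χ : fixed γ →⋆ₙₐ[ℂ] ℂ, χ = 0) : EquivStable α Z := by
  intro C _ ι hι
  obtain ⟨β, hβ⟩ := hι.exists_act α
  obtain ⟨β', hβ'⟩ := exists_mact β
  obtain ⟨j, k, hc, hjk⟩ := exists_tens_mult ι hι.1 hι.norm_le
  obtain ⟨B, _, ψ, δ, _, hB, hδ, hW⟩ := exists_env α' (engine_wit α α' hα hω h hγ hF)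
    (isSeparable_range (NonUnitalStarAlgHom.isometry _ cm_injective).continuous)
  have hd := dense_tmul ι hι.1
  have hk : ∀ g z, β' g (k z) = k z := fun g z => ext_dense hd <| by
    rintro _ ⟨a, z', rfl⟩
    obtain ⟨a, rfl⟩ := EquivLike.surjective (α g) a
    conv_lhs => rw [← hβ, ← hβ', ← map_mul, ← hjk, (hc _ _).symm.left_comm, ← map_mul, hjk, hβ', hβ]
    rw [← hjk, ← hjk, (hc _ _).symm.left_comm, ← map_mul]
  have hj : ∀ g m, β' g (j m) = j (α' g m) := fun g m => ext_dense hd <| by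
    rintro _ ⟨a, z', rfl⟩
    obtain ⟨a, rfl⟩ := EquivLike.surjective (α g) a
    conv_lhs => rw [← hβ, ← hβ', ← map_mul, ← hjk, ← mul_assoc, ← map_mul, mul_cm, hjk, hβ', hβ]
    rw [← hjk, ← hjk, ← hα, ← hα, ← mul_cm, ← mul_assoc, ← map_mul, ← map_mul]
  have := hZ.separable
  have := hι.separable
  have := hZ.isSimpleRing
  obtain ⟨j0, hj0⟩ : ∃ j0 : A →⋆ₙₐ[ℂ] C, ∀ a, j0 a = ι (a ⊗ₜ 1) :=
    ⟨{ toFun := fun a => ι (a ⊗ₜ 1)
       map_smul' := fun c a => by rw [← TensorProduct.smul_tmul', map_smul]; rfl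
       map_zero' := by rw [TensorProduct.zero_tmul, map_zero]
       map_add' := fun a b => by rw [TensorProduct.add_tmul, map_add]
       map_mul' := fun a b => by rw [← map_mul, Algebra.TensorProduct.tmul_mul_tmul, mul_one]
       map_star' := fun a => by rw [← map_star, TensorProduct.star_tmul, star_one] }, fun _ => rfl⟩
  have hj1 : ∀ a, cm C (j0 a) = j (cm A a) := fun a => by rw [hj0, ← hjk, map_one, mul_one]
  obtain ⟨Φ, u, h1, h2, h3⟩ := inter_equiv (cm C) cm_injective isIdl_cm α β' j0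
    ((injective_iff_map_eq_zero _).2 fun a ha => hι.injective_left (hj0 a ▸ ha))
    (fun g a => by rw [hj1, hj1, hj, hα]) fun S T K ε hε => by
      simp only [hj1]
      refine engine_span j k (cm C) ι hjk hd β' (fun S T K ε hε => ?_) S T K hε
      classical
      choose b hb using fun a => hB (Set.mem_range_self a)
      obtain ⟨w, hw, h1, h2, h3⟩ := key hZ hW β' (j.comp ψ) k (fun _ _ => hc _ _)
        (fun g b => (hj _ _).trans (congrArg j (hδ g b).symm)) hk (S.image b) T K hε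
      exact ⟨w, hw, fun a ha => hb a ▸ h1 _ (Finset.mem_image_of_mem b ha),
        fun z hz => (h2 z hz).imp' ψ fun _ h => h, h3⟩
  refine ⟨β, hβ, Φ, u, ⟨h1, fun g h x => cm_injective ?_⟩, fun g a => ?_⟩
  · rw [← mul_cm, ← mul_cm, ← hβ', ← mul_cm, map_mul, hβ', StarAlgEquiv.apply_symm_apply, h2,
      mul_assoc]
  · rw [← cm_apply, ← cm_apply, h3, hβ']

end Vale.Agent.P095
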