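import Vale.Agent.P101.Defs2

/-! The definitions used in the statement on equivariant Jiang-Su stability. -/

open scoped TensorProduct MultiplierAlgebra CStarAlgebra

namespace Vale.Agent.P095.St

/-- a left invariant finitely additive probability measure on all subsets -/
def IsAmenable (G : Type) [Group G] : Prop :=
  ∃ μ : Set G → ℝ, μ Set.univ = 1 ∧ (∀ S, 0 ≤ μ S) ∧
    (∀ S T, Disjoint S T → μ (S ∪ T) = μ S + μ T) ∧ ∀ g S, μ ((fun x => g * x) '' S) = μ S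

/-- no nontrivial closed two-sided ideals -/
def IsSimple (A : Type) [NonUnitalCStarAlgebra A] : Prop :=
  ∀ I : TwoSidedIdeal A, IsClosed (I : Set A) → I = ⊥ ∨ I = ⊤

/-- `B` is a full matrix algebra -/
def IsMatrixAlg (B : Type) [NonUnitalCStarAlgebra B] : Prop :=
  ∃ k : ℕ, Nonempty (B ≃⋆ₐ[ℂ] Matrix (Fin k) (Fin k) ℂ)

/-- `F` is approximated within `ε` by contractive completely positive maps through `B` -/
def Factors {A : Type} [NonUnitalCStarAlgebra A] [PartialOrder A] [StarOrderedRing A]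
    (F : Finset A) (ε : ℝ) (B : Type) [NonUnitalCStarAlgebra B] [PartialOrder B]
    [StarOrderedRing B] : Prop :=
  ∃ (φ : A →CP B) (ψ : B →CP A),
    (∀ a, ‖φ a‖ ≤ ‖a‖) ∧ (∀ x, ‖ψ x‖ ≤ ‖x‖) ∧ ∀ a ∈ F, ‖ψ (φ a) - a‖ < ε

/-- the completely positive approximation property -/
def IsNuclear (A : Type) [NonUnitalCStarAlgebra A] [PartialOrder A] [StarOrderedRing A] : Prop :=
  ∀ (F : Finset A) (ε : ℝ), 0 < ε → ∃ (B : Type) (_ : NonUnitalCStarAlgebra B)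
    (_ : PartialOrder B) (_ : StarOrderedRing B), IsMatrixAlg B ∧ Factors F ε B

/-- `r` is the norm of `∑ ρ (a i) ⊗ σ (z i)` for representations `ρ` on `H` and `σ` on `K` -/
def RepOn {A Z : Type} [NonUnitalCStarAlgebra A] [CStarAlgebra Z] (H K : Type)
    [NormedAddCommGroup H] [InnerProductSpace ℂ H] [CompleteSpace H]
    [NormedAddCommGroup K] [InnerProductSpace ℂ K] [CompleteSpace K]
    {n : ℕ} (a : Fin n → A) (z : Fin n → Z) (r : ℝ) : Prop :=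
  ∃ (ρ : A →⋆ₙₐ[ℂ] (H →L[ℂ] H)) (σ : Z →⋆ₙₐ[ℂ] (K →L[ℂ] K)),
    r = ‖∑ i, TensorProduct.mapL (ρ (a i)) (σ (z i))‖

/-- the same for some Hilbert spaces -/
def RepNorm {A Z : Type} [NonUnitalCStarAlgebra A] [CStarAlgebra Z] {n : ℕ} (a : Fin n → A)
    (z : Fin n → Z) (r : ℝ) : Prop :=
  ∃ (H K : Type) (_ : NormedAddCommGroup H) (_ : InnerProductSpace ℂ H) (_ : CompleteSpace H)
    (_ : NormedAddCommGroup K) (_ : InnerProductSpace ℂ K) (_ : CompleteSpace K), RepOn H K a z r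

/-- `ι` presents `C` as the minimal tensor product of `A` and `Z` -/
def IsMinTensor {A Z C : Type} [NonUnitalCStarAlgebra A] [CStarAlgebra Z]
    [NonUnitalCStarAlgebra C] (ι : A ⊗[ℂ] Z →⋆ₙₐ[ℂ] C) : Prop :=
  DenseRange ι ∧ ∀ (n : ℕ) (a : Fin n → A) (z : Fin n → Z),
    IsLUB {r | RepNorm a z r} ‖ι (∑ i, a i ⊗ₜ z i)‖

/-- `C` is the minimal tensor product of `A` and `Z` -/
def IsMinOf (A Z C : Type) [NonUnitalCStarAlgebra A] [CStarAlgebra Z]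
    [NonUnitalCStarAlgebra C] : Prop := ∃ ι : A ⊗[ℂ] Z →⋆ₙₐ[ℂ] C, IsMinTensor ι

/-- the minimal tensor product exists -/
def HasMin (A Z : Type) [NonUnitalCStarAlgebra A] [CStarAlgebra Z] : Prop :=
  ∃ (C : Type) (_ : NonUnitalCStarAlgebra C), IsMinOf A Z C

/-- star isomorphic -/
def Iso (A C : Type) [NonUnitalCStarAlgebra A] [NonUnitalCStarAlgebra C] : Prop :=
  Nonempty (A ≃⋆ₐ[ℂ] C)

/-- `A` is isomorphic to the minimal tensor product of `A` and `Z` -/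
def IsStable (A Z : Type) [NonUnitalCStarAlgebra A] [CStarAlgebra Z] : Prop :=
  ∃ (C : Type) (_ : NonUnitalCStarAlgebra C), IsMinOf A Z C ∧ Iso A C

/-- unitary multipliers with `u (g h) = u g * β g (u h)`, where `β g T = β g ∘ T ∘ (β g)⁻¹` -/
def IsCocycle {G C : Type} [Group G] [NonUnitalCStarAlgebra C] (β : G →* (C ≃⋆ₐ[ℂ] C))
    (u : G → 𝓜(ℂ, C)) : Prop :=
  (∀ g, u g ∈ unitary 𝓜(ℂ, C)) ∧
    ∀ g h x, (u (g * h)).fst x = (u g).fst (β g ((u h).fst ((β g).symm x)))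

/-- cocycle conjugacy -/
def CocycleConj {G A C : Type} [Group G] [NonUnitalCStarAlgebra A] [NonUnitalCStarAlgebra C]
    (α : G →* (A ≃⋆ₐ[ℂ] A)) (β : G →* (C ≃⋆ₐ[ℂ] C)) : Prop :=
  ∃ (Φ : A ≃⋆ₐ[ℂ] C) (u : G → 𝓜(ℂ, C)), IsCocycle β u ∧
    ∀ g a, (Φ (α g a) : 𝓜(ℂ, C)) = u g * (β g (Φ a) : 𝓜(ℂ, C)) * star (u g)

/-- `α ⊗ id` exists on the minimal tensor product `C` and is cocycle conjugate to `α` -/
def StableOn {G A : Type} [Group G] [NonUnitalCStarAlgebra A] (α : G →* (A ≃⋆ₐ[ℂ] A))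
    (Z C : Type) [CStarAlgebra Z] [NonUnitalCStarAlgebra C] : Prop :=
  ∀ ι : A ⊗[ℂ] Z →⋆ₙₐ[ℂ] C, IsMinTensor ι →
    ∃ β : G →* (C ≃⋆ₐ[ℂ] C), (∀ g a z, β g (ι (a ⊗ₜ z)) = ι (α g a ⊗ₜ z)) ∧ CocycleConj α β

/-- equivariant `Z`-stability -/
def EquivStable {G A : Type} [Group G] [NonUnitalCStarAlgebra A] (α : G →* (A ≃⋆ₐ[ℂ] A))
    (Z : Type) [CStarAlgebra Z] : Prop :=
  ∀ (C : Type) [NonUnitalCStarAlgebra C], StableOn α Z C

/-- every action of `G` on `A` is equivariantly `Z`-stable -/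
def AllStable (G A Z : Type) [Group G] [NonUnitalCStarAlgebra A] [CStarAlgebra Z] : Prop :=
  ∀ α : G →* (A ≃⋆ₐ[ℂ] A), EquivStable α Z

end Vale.Agent.P095.St
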