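import Vale.Agent.P095.Folner
import Vale.Agent.P095.Stmt

/-! An invariant finitely additive measure gives Folner sets. -/

namespace Vale.Agent.P095

theorem St.IsAmenable.folner {G : Type} [Group G] [DecidableEq G] (h : St.IsAmenable G)
    (K : Finset G) {η : ℝ} (hη : 0 < η) : ∃ F : Finset G, F.Nonempty ∧
      ∀ k ∈ K, (((F.image fun g => k * g) \ F).card : ℝ) ≤ η * F.card := by
  classical
  by_contra hc
  push Not at hc
  obtain ⟨T, hT⟩ := fol_double K hη hc
  obtain ⟨f, hf, hfT⟩ := (Finset.all_card_le_biUnion_card_iff_exists_injective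
    (fun x : G × Bool => T.image fun s => s * x.1)).1 fun s => by
      have h1 : s.card ≤ 2 * (s.image Prod.fst).card := by
        have : s ⊆ s.image Prod.fst ×ˢ (Finset.univ : Finset Bool) := fun x hx =>
          Finset.mem_product.2 ⟨Finset.mem_image_of_mem _ hx, Finset.mem_univ _⟩
        have := Finset.card_le_card this
        simpa [mul_comm] using this
      refine h1.trans ((hT _).trans (Finset.card_le_card fun y hy => ?_))
      obtain ⟨a, ha, b, hb, rfl⟩ := Finset.mem_mul.1 hy
      obtain ⟨x, hx, rfl⟩ := Finset.mem_image.1 hb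
      exact Finset.mem_biUnion.2 ⟨x, hx, Finset.mem_image_of_mem _ ha⟩
  obtain ⟨μ, h1, h0, ha, hi⟩ := h
  have he : μ ∅ = 0 := by simpa using ha ∅ ∅ (by simp)
  have hs : ∀ {ι : Type} (s : Finset ι) (B : ι → Set G), Pairwise (Function.onFun Disjoint B) →
      μ (⋃ x ∈ s, B x) = ∑ x ∈ s, μ (B x) := fun s B hB => by
    induction s using Finset.induction_on with
    | empty => simpa using he
    | insert x s hx ih =>
      rw [Finset.set_biUnion_insert, Finset.sum_insert hx, ha, ih]
      exact Set.disjoint_iUnion₂_right.2 fun y hy => hB fun h => hx (h ▸ hy)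
  let A : Bool → G → Set G := fun b s => {g | f (g, b) = s * g}
  have hA : ∀ b, ∑ s ∈ T, μ (A b s) = 1 := fun b => by
    rw [← hs T (A b) fun s t hst => Set.disjoint_left.2 fun g h h' =>
      hst (mul_right_cancel (h.symm.trans h')), ← h1]
    congr 1
    refine Set.eq_univ_of_forall fun g => ?_
    obtain ⟨s, hs, hs'⟩ := Finset.mem_image.1 (hfT (g, b))
    exact Set.mem_biUnion hs hs'.symm
  have hB := hs (Finset.univ ×ˢ T) (fun x => (fun g => x.2 * g) '' A x.1 x.2) fun x y hxy =>
    Set.disjoint_left.2 <| by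
      rintro _ ⟨g, hg, rfl⟩ ⟨g', hg', h⟩
      obtain ⟨rfl, h2⟩ := Prod.mk.inj (hf (hg'.trans (h.trans hg.symm)))
      exact hxy (Prod.ext h2.symm (mul_right_cancel h).symm)
  simp only [hi, Finset.sum_product, hA] at hB
  have h2 := ha _ _ (disjoint_compl_right (a := ⋃ x ∈ (Finset.univ ×ˢ T : Finset (Bool × G)),
    (fun g => x.2 * g) '' A x.1 x.2))
  rw [Set.union_compl_self, h1, hB] at h2
  have := h0 (⋃ x ∈ (Finset.univ ×ˢ T : Finset (Bool × G)), (fun g => x.2 * g) '' A x.1 x.2)ᶜ
  rw [Fintype.sum_bool] at h2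
  linarith

end Vale.Agent.P095
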