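import Vale.Agent.P095.ZFib
import Vale.Agent.P095.Cen
import Vale.Agent.P095.Tens
import Vale.Agent.P101.Simple

/-! Approximately central nilpotent witnesses in the Jiang-Su algebra, and no characters on `F(A)`
for `Z`-stable `A`.

Plan for `zwit`. Approximate `F` by `ι m f`, `f` in a finite `F'` at one level `m` (the witnesses
are contractions since `∑ star x * x = 1`). Take `H` from `fibre_wit` for `F'`. As in the proof of
`hp_of_std` (file P101/Osc) get `n`, `μ : B m → B n` with `ι n ∘ μ = ι m` and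
`OscFlat (ev n) μ (F' ∪ H) δ`, `δ < ‖b‖` for `b ∈ H`, with frame `w`. `osc_left_hom` gives `ψ₀` with
`ev 0 (μ f) = ψ₀ f ⊗ₖ 1`, and similarly `ev 1 (μ f) = 1 ⊗ₖ ψ₁ f`; `ψᵢ b ≠ 0` on `H` since otherwise
`‖ev t (μ b)‖ ≤ δ` for all `t`, but `‖μ b‖ = ‖b‖`. With `x⁰, x¹` from `fibre_wit` and
`W s t = star (w t) * w s` put `X (c, false) t = √(1 - t) • W 0 t * (x⁰ c ⊗ₖ 1) * star (W 0 t)` and
`X (c, true) t = √t • W 1 t * (1 ⊗ₖ x¹ c) * star (W 1 t)`; these are elements of `B n`.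

Plan for `IsF.noChar`. Let `Φ : A ≃ C`, `t a z = Φ.symm (ι (a ⊗ₜ z))`, `‖t a z‖ ≤ ‖a‖ ‖z‖`
(`IsMinTensor.norm_le`), finite sums of `t a z` are dense. Let `e n` be self-adjoint contractions
with `e n * a → a` for all `a` (`exists_approx_seq` below, from `CStarAlgebra.approximateUnit` and a
dense sequence), `x n c` from `zwit` for the first `n` points of a dense sequence of `Z` and
`ε = 1 / (n + 1)`. The bounded sequences `n ↦ i (t (e n) (x n c))` are central, their classes `d c`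
satisfy `d c * d c = 0`, `∑ star (d c) * d c = 1`; so `χ (d c) = 0`, `χ 1 = 0`, `χ = 0`. -/

open Filter Topology

namespace Vale.Agent.P095

open P101
open scoped Kronecker TensorProduct BoundedContinuousFunction

theorem zw_contr {E ι : Type} [CStarAlgebra E] [Fintype ι] {x : ι → E}
    (h : ∑ c, star (x c) * x c = 1) (c : ι) : ‖x c‖ ≤ 1 := by
  let _ := CStarAlgebra.spectralOrder E
  have := CStarAlgebra.spectralOrderedRing E
  have h1 : star (x c) * x c ≤ 1 := h ▸ Finset.single_le_sum (f := fun c => star (x c) * x c)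
    (fun c _ => star_mul_self_nonneg (x c)) (Finset.mem_univ c)
  rw [← CStarAlgebra.norm_le_one_iff_of_nonneg _ (star_mul_self_nonneg _),
    CStarRing.norm_star_mul_self] at h1
  nlinarith [norm_nonneg (x c)]

theorem zw_uni {E : Type} [CStarAlgebra E] {u : E} (hu : u ∈ unitary E) (x : E) :
    ‖u * x * star u‖ = ‖x‖ := by
  rw [CStarRing.norm_mul_mem_unitary _ (Unitary.star_mem hu), CStarRing.norm_mem_unitary_mul _ hu]

theorem zw_near {E : Type} [CStarAlgebra E] {x : E} (hx : ‖x‖ ≤ 1) (a b : E) :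
    ‖x * a - a * x‖ ≤ ‖x * b - b * x‖ + 2 * ‖a - b‖ := by
  have h1 := norm_comm_le (a - b) x
  rw [show x * a - a * x = (x * b - b * x) - ((a - b) * x - x * (a - b)) by noncomm_ring]
  refine (norm_sub_le _ _).trans ?_
  nlinarith [norm_nonneg (a - b)]

theorem zw_conj {E : Type} [CStarAlgebra E] {u v a b y : E} (hu : u ∈ unitary E)
    (hv : v ∈ unitary E) (hy : ‖y‖ ≤ 1) :
    ‖star u * (v * y * star v) * u * a - a * (star u * (v * y * star v) * u)‖ ≤
      ‖y * b - b * y‖ + 2 * ‖u * a * star u - v * b * star v‖ := by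
  have c : ∀ {w : E}, w ∈ unitary E → ∀ x, star w * (w * x) = x := fun hw x => by
    rw [← mul_assoc, Unitary.star_mul_self_of_mem hw, one_mul]
  have c' : ∀ x, u * (star u * x) = x := fun x => by
    rw [← mul_assoc, Unitary.mul_star_self_of_mem hu, one_mul]
  have h1 := zw_near ((zw_uni hv y).trans_le hy) (u * a * star u) (v * b * star v)
  rw [← zw_uni hu, ← zw_uni hv (y * b - b * y)]
  convert h1 using 2
  · simp only [mul_sub, sub_mul, mul_assoc, c', Unitary.mul_star_self_of_mem hu, mul_one]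
  · simp only [mul_sub, sub_mul, mul_assoc, c hv]

theorem zw_norm_le {p q : ℕ} {B : Type} [CStarAlgebra B]
    {ev : unitInterval → (B →⋆ₐ[ℂ] Mat p q)} (h : IsDimDrop p q ev) {b : B} {K : ℝ} (hK : 0 ≤ K)
    (hb : ∀ t, ‖toMC (ev t b)‖ ≤ K) : ‖b‖ ≤ K := by
  obtain ⟨j, h1, h2⟩ := h.exists_hom
  rw [← NonUnitalStarAlgHom.norm_map j h1 b]
  exact (ContinuousMap.norm_le _ hK).2 fun t => by rw [h2]; exact hb t

theorem zw_core {p q : ℕ} {A B : Type} [CStarAlgebra A] [CStarAlgebra B]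
    {ev : unitInterval → (B →⋆ₐ[ℂ] Mat p q)} (h : IsDimDrop p q ev) {μ : A →⋆ₐ[ℂ] B}
    {F : Finset A} {δ η : ℝ} (hδ : 0 ≤ δ) (hη : 0 ≤ η) (hF : OscFlat ev μ F δ)
    (y : Bool → Fin 3 → Mat p q) (h0 : ∀ c, ∃ x, y false c = x ⊗ₖ 1)
    (h1 : ∀ c, ∃ x, y true c = 1 ⊗ₖ x) (h2 : ∀ β c, y β c * y β c = 0)
    (h3 : ∀ β, ∑ c, star (y β c) * y β c = 1)
    (h4 : ∀ β c, ∀ f ∈ F, ‖toMC (y β c * ev (if β then 1 else 0) (μ f) -
      ev (if β then 1 else 0) (μ f) * y β c)‖ ≤ η) :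
    ∃ x : Fin 3 × Bool → B, (∀ c, x c * x c = 0) ∧ ∑ c, star (x c) * x c = 1 ∧
      ∀ c, ∀ f ∈ F, ‖x c * μ f - μ f * x c‖ ≤ η + 2 * δ := by
  obtain ⟨w, hw, hu, H⟩ := hF
  have c1 : ∀ t x, star (w t) * (w t * x) = x := fun t x => by
    rw [← mul_assoc, Unitary.star_mul_self_of_mem (hu t), one_mul]
  have c2 : ∀ t x, w t * (star (w t) * x) = x := fun t x => by
    rw [← mul_assoc, Unitary.mul_star_self_of_mem (hu t), one_mul]
  have c3 := fun t => Unitary.star_mul_self_of_mem (hu t)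
  let e : Bool → unitInterval := fun β => if β then 1 else 0
  let r : Bool → unitInterval → ℝ := fun β t => √(if β then t else 1 - t)
  let Y : Bool → Fin 3 → unitInterval → Mat p q := fun β c t =>
    star (w t) * (w (e β) * y β c * star (w (e β))) * w t
  have hr : ∀ β t, r β t * r β t = if β then (t : ℝ) else 1 - t := fun β t =>
    Real.mul_self_sqrt (by split_ifs; exacts [t.2.1, sub_nonneg.2 t.2.2])
  have hY : ∀ β c, Y β c (e β) = y β c := fun β c => by simp only [Y, mul_assoc, c1, c3, mul_one]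
  have hX : ∀ c : Fin 3 × Bool, ∃ b, ∀ t, ev t b = (r c.2 t : ℂ) • Y c.2 c.1 t := by
    rintro ⟨c, β⟩
    refine (h.2 _).2 ⟨?_, ?_, ?_⟩
    · refine Continuous.smul (Complex.continuous_ofReal.comp (Continuous.sqrt ?_))
        ((hw.star.mul continuous_const).mul hw)
      split_ifs <;> fun_prop
    · cases β
      · obtain ⟨x, hx⟩ := h0 c
        exact ⟨x, by simpa [r, e, hx] using hY false c⟩
      · exact ⟨0, by simp [r]⟩
    · cases β
      · exact ⟨0, by simp [r]⟩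
      · obtain ⟨x, hx⟩ := h1 c
        exact ⟨x, by simpa [r, e, hx] using hY true c⟩
  choose x hx using hX
  refine ⟨x, fun c => h.1 _ fun t => ?_, sub_eq_zero.1 (h.1 _ fun t => ?_),
    fun c f hf => zw_norm_le h (by positivity) fun t => ?_⟩
  · have : y c.2 c.1 * (y c.2 c.1 * (star (w (e c.2)) * w t)) = 0 := by
      rw [← mul_assoc, h2, zero_mul]
    simp only [map_mul, hx, smul_mul_smul_comm, Y, mul_assoc, c1, c2, this, mul_zero, smul_zero]
  · have e1 : ∀ β, ∑ c, star (Y β c t) * Y β c t = 1 := fun β => by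
      have : ∀ c, star (Y β c t) * Y β c t =
          star (w t) * w (e β) * (star (y β c) * y β c) * (star (w (e β)) * w t) := fun c => by
        simp only [Y, star_mul, star_star, mul_assoc, c1, c2]
      simp only [this, ← Finset.sum_mul, ← Finset.mul_sum, h3, mul_one]
      rw [mul_assoc, c2, c3]
    have e2 : ∀ c, ev t (star (x c) * x c) =
        ((r c.2 t * r c.2 t : ℝ) : ℂ) • (star (Y c.2 c.1 t) * Y c.2 c.1 t) := fun c => by
      rw [map_mul, map_star, hx, star_smul, smul_mul_smul_comm, RCLike.star_def,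
        Complex.conj_ofReal, Complex.ofReal_mul]
    rw [map_sub, map_sum, map_one]
    simp only [e2, Fintype.sum_prod_type_right, hr]
    simp [← Finset.smul_sum, e1, ← add_smul]
  · have e1 : ‖toMC (y c.2 c.1)‖ ≤ 1 := zw_contr (x := fun c' => toMC (y c.2 c')) (by
      simp only [← map_star, ← map_mul, ← map_sum, h3, map_one]) c.1
    have e2 := zw_conj (a := toMC (ev t (μ f))) (b := toMC (ev (e c.2) (μ f)))
      (Unitary.map_mem toMC (hu t)) (Unitary.map_mem toMC (hu (e c.2))) e1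
    simp only [← map_star, ← map_mul, ← map_sub] at e2
    have e3 : ‖(r c.2 t : ℂ)‖ ≤ 1 := by
      rw [Complex.norm_real, Real.norm_of_nonneg (Real.sqrt_nonneg _)]
      exact Real.sqrt_le_one.2 (by split_ifs; exacts [t.2.2, sub_le_self _ t.2.1])
    rw [map_sub, map_mul, map_mul, hx, smul_mul_assoc, mul_smul_comm, ← smul_sub, map_smul,
      norm_smul]
    refine (mul_le_of_le_one_left (norm_nonneg _) e3).trans (e2.trans ?_)
    linarith [h4 c.2 c.1 f hf, H f hf (e c.2) t]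

theorem zw_flat {Z : Type} [CStarAlgebra Z] {p q : ℕ → ℕ} {B : ℕ → Type}
    [∀ n, CStarAlgebra (B n)] {ev : ∀ n, unitInterval → (B n →⋆ₐ[ℂ] Mat (p n) (q n))}
    {φ : ∀ n, B n →⋆ₐ[ℂ] B (n + 1)} {ι : ∀ n, B n →⋆ₐ[ℂ] Z}
    (hdd : ∀ n, IsDimDrop (p n) (q n) (ev n)) (hstd : ∀ n, IsStdMap (ev n) (ev (n + 1)) (φ n))
    (hι : ∀ n b, ι (n + 1) (φ n b) = ι n b) (m : ℕ) (F : Finset (B m)) {ε : ℝ} (hε : 0 < ε) :
    ∃ (n : ℕ) (μ : B m →⋆ₐ[ℂ] B n), (∀ b, ι n (μ b) = ι m b) ∧ OscFlat (ev n) μ F ε := by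
  have h1 : ∀ d, ∃ (n : ℕ) (μ : B m →⋆ₐ[ℂ] B n), (∀ b, ι n (μ b) = ι m b) ∧
      OscInv (ev m) (ev n) μ d := fun d => by
    induction d with
    | zero =>
      refine ⟨m, StarAlgHom.id ℂ _, fun _ => rfl, fun _ => 1, continuous_const,
        fun _ => one_mem _, fun f s t ε h => ?_⟩
      simpa using h t s (by simp [dist_comm])
    | succ d ih =>
      obtain ⟨n, μ, h1, h4⟩ := ih
      exact ⟨n + 1, (φ n).comp μ, fun b => (hι n _).trans (h1 b), h4.step (hstd n)⟩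
  have h2 : ∀ f ∈ F, ∀ᶠ d : ℕ in atTop, ∀ x y : unitInterval, dist x y ≤ (1 / 2) ^ d →
      ‖toMC (ev m x f - ev m y f)‖ ≤ ε := fun f _ => by
    obtain ⟨δ, hδ, h⟩ := Metric.uniformContinuous_iff.1 (CompactSpace.uniformContinuous_of_continuous
      (continuous_toMC.comp ((hdd m).continuous f))) _ hε
    filter_upwards [(tendsto_pow_atTop_nhds_zero_of_lt_one (r := (1 / 2 : ℝ)) (by norm_num)
      (by norm_num)).eventually_lt_const hδ] with d hd x y hxy
    rw [map_sub, ← dist_eq_norm]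
    exact (h (hxy.trans_lt hd)).le
  obtain ⟨d, hd⟩ := ((eventually_all_finset F).2 h2).exists
  obtain ⟨n, μ, h3, w, hw, hu, H⟩ := h1 d
  exact ⟨n, μ, h3, w, hw, hu, fun f hf s t => H f s t _ fun x y hxy =>
    hd f hf x y (hxy.trans (mul_le_of_le_one_left (by positivity)
      ((Real.dist_le_of_mem_Icc s.2 t.2).trans_eq (sub_zero 1))))⟩

theorem zwit {Z : Type} [CStarAlgebra Z] (hZ : P101.IsJiangSu Z) (F : Finset Z) {ε : ℝ}
    (hε : 0 < ε) : ∃ x : Fin 3 × Bool → Z, (∀ c, x c * x c = 0) ∧ ∑ c, star (x c) * x c = 1 ∧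
      ∀ c, ∀ f ∈ F, ‖x c * f - f * x c‖ ≤ ε := by
  classical
  obtain ⟨p, q, B, _, ev, φ, ι, h1, h2, h3, h4, h5, h6⟩ := hZ
  have hp : ∀ n, 0 < p n := fun n => by linarith [(h1 n).1]
  have hq : ∀ n, 0 < q n := fun n => by linarith [(h1 n).2.1]
  have a1 : ∀ f ∈ F, ∀ᶠ m in atTop, ∃ g : B m, ‖f - ι m g‖ ≤ ε / 8 := fun f _ => by
    obtain ⟨_, hz, hd⟩ := Metric.mem_closure_iff.1 (h6 f) (ε / 8) (by positivity)
    obtain ⟨k, g, rfl⟩ := Set.mem_iUnion.1 hz
    refine eventually_atTop.2 ⟨k, fun m hm => ?_⟩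
    induction m, hm using Nat.le_induction with
    | base => exact ⟨g, by rw [← dist_eq_norm]; exact hd.le⟩
    | succ m _ ih => exact ih.elim fun g hg => ⟨φ m g, by rwa [h5]⟩
  obtain ⟨m, hm⟩ := ((eventually_all_finset F).2 a1).exists
  choose! g hg using hm
  obtain ⟨H, hH, hfib⟩ := fibre_wit (hp m) (hq m) (h2 m) (F.image g) (ε := ε / 4) (by positivity)
  have a2 : ∀ᶠ δ : ℝ in 𝓝[>] 0, 0 < δ ∧ δ < ε / 4 ∧ ∀ b ∈ H, δ < ‖b‖ :=
    Eventually.and self_mem_nhdsWithin (Eventually.filter_mono nhdsWithin_le_nhds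
      ((eventually_lt_nhds (by positivity)).and ((eventually_all_finset H).2 fun b hb =>
        eventually_lt_nhds (norm_pos_iff.2 (hH b hb)))))
  obtain ⟨δ, hδ, hδ1, hδ2⟩ := a2.exists
  obtain ⟨n, μ, h7, w, hw, hu, h8⟩ :=
    zw_flat h2 (fun n => (h3 n).2) h5 m (F.image g ∪ H) hδ
  have a3 : ∀ s, ∀ b ∈ H, ev n s (μ b) ≠ 0 := fun s b hb h0 => by
    refine (hδ2 b hb).not_ge ?_
    rw [← NonUnitalStarAlgHom.norm_map (ι m) (h4 m), ← h7, NonUnitalStarAlgHom.norm_map _ (h4 n)]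
    refine zw_norm_le (h2 n) hδ.le fun t => ?_
    have h9 := h8 b (Finset.mem_union_right _ hb) s t
    rwa [h0, mul_zero, zero_mul, sub_zero, map_mul, map_mul, map_star,
      zw_uni (Unitary.map_mem toMC (hu t))] at h9
  have a4 : ∀ (N : Type) [Fintype N] [DecidableEq N] (κ : Matrix N N ℂ →⋆ₐ[ℂ] Mat (p n) (q n))
      (ψ : B m →⋆ₐ[ℂ] Matrix N N ℂ) s, (∀ b, ev n s (μ b) = κ (ψ b)) →
      ∃ y : Fin 3 → Mat (p n) (q n), (∀ c, ∃ x, y c = κ x) ∧ (∀ c, y c * y c = 0) ∧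
        ∑ c, star (y c) * y c = 1 ∧ ∀ c, ∀ f ∈ F.image g,
          ‖toMC (y c * ev n s (μ f) - ev n s (μ f) * y c)‖ ≤ ε / 4 := by
    intro N _ _ κ ψ s hs
    obtain ⟨x, b1, b2, b3⟩ := hfib N ψ fun b hb h0 => a3 s b hb (by rw [hs, h0, map_zero])
    refine ⟨fun c => κ (x c), fun c => ⟨_, rfl⟩, fun c => by rw [← map_mul, b1, map_zero],
      by simp only [← map_star, ← map_mul, ← map_sum, b2, map_one], fun c f hf => ?_⟩
    rw [hs, ← map_mul, ← map_mul, ← map_sub]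
    exact (norm_map_le_toMC (toMCh.comp κ) _).trans (b3 c f hf)
  have : Nonempty (Fin (p n)) := ⟨⟨0, hp n⟩⟩
  have : Nonempty (Fin (q n)) := ⟨⟨0, hq n⟩⟩
  have a5 := fun b => ((h2 n).2 _).1 ⟨μ b, fun _ => rfl⟩
  obtain ⟨ψ₀, e₀⟩ := osc_left_hom ((ev n 0).comp μ) fun b => (a5 b).2.1
  obtain ⟨ψ₁, e₁⟩ := osc_left_hom ((oscSwap _ _).comp ((ev n 1).comp μ)) fun b =>
    (a5 b).2.2.imp fun y hy => (congrArg (oscSwap _ _) hy).trans (oscSwap_kron _ _)
  obtain ⟨y₀, b1, b2, b3, b4⟩ := a4 _ (extL _) ψ₀ 0 fun b => by rw [extL_eq_kronecker]; exact e₀ b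
  obtain ⟨y₁, c1, c2, c3, c4⟩ := a4 _ (extR _) ψ₁ 1 fun b => by
    rw [extR_eq_kronecker, ← oscSwap_kron, ← e₁]
    exact (oscSwap_swap _).symm
  obtain ⟨x, d1, d2, d3⟩ := zw_core (h2 n) (F := F.image g) (η := ε / 4) hδ.le (by positivity)
    ⟨w, hw, hu, fun f hf => h8 f (Finset.mem_union_left _ hf)⟩ (fun β => if β then y₁ else y₀)
    (fun c => (b1 c).imp fun x hx => hx.trans (extL_eq_kronecker x))
    (fun c => (c1 c).imp fun x hx => hx.trans (extR_eq_kronecker x))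
    (by rintro (_ | _); exacts [b2, c2]) (by rintro (_ | _); exacts [b3, c3])
    (by rintro (_ | _); exacts [b4, c4])
  have d4 : ∑ c, star (ι n (x c)) * ι n (x c) = 1 := by
    simp only [← map_star, ← map_mul, ← map_sum, d2, map_one]
  refine ⟨fun c => ι n (x c), fun c => by rw [← map_mul, d1, map_zero], d4, fun c f hf => ?_⟩
  have d5 := zw_near (zw_contr d4 c) f (ι m (g f))
  have d6 := (NonUnitalStarAlgHom.norm_apply_le (ι n) _).trans
    (d3 c _ (Finset.mem_image_of_mem g hf))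
  rw [map_sub, map_mul, map_mul, h7] at d6
  linarith [hg f hf]

theorem zw_tendsto {X E : Type} [NormedAddCommGroup E] [PseudoMetricSpace X] {a : ℕ → X}
    (ha : DenseRange a) (L : ℕ → X → E) (hL : ∀ n x y, ‖L n x - L n y‖ ≤ 2 * dist x y)
    (h : ∀ n, ∀ k ≤ n, ‖L n (a k)‖ ≤ 1 / ((n : ℝ) + 1)) (x : X) :
    Tendsto (fun n => L n x) atTop (𝓝 0) := by
  refine NormedAddGroup.tendsto_nhds_zero.2 fun ε hε => ?_
  obtain ⟨k, hk⟩ := ha.exists_dist_lt x (show 0 < ε / 4 by positivity)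
  filter_upwards [eventually_ge_atTop k, (tendsto_one_div_add_atTop_nhds_zero_nat
    (𝕜 := ℝ)).eventually_lt_const (half_pos hε)] with n h1 h2
  have h3 := norm_add_le (L n x - L n (a k)) (L n (a k))
  rw [sub_add_cancel] at h3
  linarith [hL n x (a k), h n k h1]

theorem exists_approx_seq (A : Type) [NonUnitalCStarAlgebra A]
    [TopologicalSpace.SeparableSpace A] : ∃ e : ℕ → A, (∀ n, IsSelfAdjoint (e n) ∧ ‖e n‖ ≤ 1) ∧
      ∀ a, Tendsto (fun n => e n * a) atTop (𝓝 a) := by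
  let _ := CStarAlgebra.spectralOrder A
  have := CStarAlgebra.spectralOrderedRing A
  have hl := CStarAlgebra.increasingApproximateUnit A
  obtain ⟨a, ha⟩ := TopologicalSpace.exists_dense_seq A
  have h1 : ∀ n : ℕ, ∃ e : A, (IsSelfAdjoint e ∧ ‖e‖ ≤ 1) ∧
      ∀ k ∈ Set.Iic n, ‖e * a k - a k‖ ≤ 1 / ((n : ℝ) + 1) := fun n =>
    ((hl.eventually_isSelfAdjoint.and hl.eventually_norm).and
      ((eventually_all_finite (Set.finite_Iic n)).2 fun k _ =>
        ((tendsto_iff_norm_sub_tendsto_zero.1 (hl.tendsto_mul_right (a k))).eventually_le_const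
          (by positivity)))).exists
  choose e h2 h3 using h1
  refine ⟨e, h2, fun x => tendsto_sub_nhds_zero_iff.1
    (zw_tendsto ha (fun n x => e n * x - x) (fun n x y => ?_) h3 x)⟩
  rw [show e n * x - x - (e n * y - y) = e n * (x - y) - (x - y) by noncomm_ring, dist_eq_norm]
  have h4 := (norm_mul_le (e n) (x - y)).trans (mul_le_of_le_one_left (norm_nonneg _) (h2 n).2)
  linarith [norm_sub_le (e n * (x - y)) (x - y)]

theorem IsF.noChar {A M D Z : Type} [NonUnitalCStarAlgebra A] [CStarAlgebra M] [CStarAlgebra D]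
    [CStarAlgebra Z] [TopologicalSpace.SeparableSpace A] {i : A →⋆ₙₐ[ℂ] M} {ω : Ultrafilter ℕ}
    {π : cenSeq i ω →⋆ₐ[ℂ] D} (h : IsF i ω π) (hω : (ω : Filter ℕ) ≤ cofinite)
    (hZ : P101.IsJiangSu Z) (hA : IsStable A Z) (χ : D →⋆ₙₐ[ℂ] ℂ) : χ = 0 := by
  classical
  obtain ⟨C, _, ι, hι, ⟨Φ⟩⟩ := hA
  have hω' : (ω : Filter ℕ) ≤ atTop := by rwa [← Nat.cofinite_eq_atTop]
  obtain ⟨e, he, he'⟩ := exists_approx_seq A
  have := hZ.separable
  obtain ⟨z, hz⟩ := TopologicalSpace.exists_dense_seq Z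
  choose x x1 x2 x3 using fun n : ℕ => zwit hZ ((Finset.range (n + 1)).image z)
    (ε := 1 / ((n : ℝ) + 1)) (by positivity)
  have x4 : ∀ n c, ‖x n c‖ ≤ 1 := fun n c => zw_contr (x2 n) c
  have x5 : ∀ c y, Tendsto (fun n => x n c * y - y * x n c) atTop (𝓝 0) := fun c =>
    zw_tendsto hz (fun n y => x n c * y - y * x n c) (fun n y y' => by
      rw [show x n c * y - y * x n c - (x n c * y' - y' * x n c) =
        -((y - y') * x n c - x n c * (y - y')) by noncomm_ring, norm_neg, dist_eq_norm]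
      refine (norm_comm_le _ _).trans ?_
      nlinarith [x4 n c, norm_nonneg (y - y')]) fun n k hk =>
        x3 n c _ (Finset.mem_image_of_mem _ (Finset.mem_range.2 (Nat.lt_succ_of_le hk)))
  let T : A ⊗[ℂ] Z →⋆ₙₐ[ℂ] A := (Φ.symm : C →⋆ₙₐ[ℂ] A).comp ι
  have hT : DenseRange T := Φ.symm.surjective.denseRange.comp hι.1
    (StarAlgEquiv.isometry Φ.symm).continuous
  let J : A ⊗[ℂ] Z →⋆ₙₐ[ℂ] M := i.comp T
  have hJ : ∀ a y, ‖J (a ⊗ₜ y)‖ ≤ ‖a‖ * ‖y‖ := fun a y =>
    (NonUnitalStarAlgHom.norm_apply_le (i.comp (Φ.symm : C →⋆ₙₐ[ℂ] A)) _).trans (hι.norm_le a y)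
  have n1 : ∀ {a : ℕ → A} {y : ℕ → Z} (K : ℝ), Tendsto a atTop (𝓝 0) → (∀ n, ‖y n‖ ≤ K) →
      Nul ω fun n => J (a n ⊗ₜ y n) := fun K ha hy =>
    squeeze_zero_norm (fun n => (hJ _ _).trans (mul_le_mul_of_nonneg_left (hy n) (norm_nonneg _)))
      (by simpa using ((tendsto_zero_iff_norm_tendsto_zero.1 ha).mul_const K).mono_left hω')
  have n2 : ∀ (a : A) {y : ℕ → Z}, Tendsto y atTop (𝓝 0) → Nul ω fun n => J (a ⊗ₜ y n) :=
    fun a _ hy => squeeze_zero_norm (fun n => hJ _ _)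
      (by simpa using ((tendsto_zero_iff_norm_tendsto_zero.1 hy).const_mul ‖a‖).mono_left hω')
  have e1 : ∀ a, Tendsto (fun n => e n * a - a) atTop (𝓝 0) := fun a =>
    tendsto_sub_nhds_zero_iff.2 (he' a)
  have e2 : ∀ a, Tendsto (fun n => a * e n - a) atTop (𝓝 0) := fun a => by
    simpa [fun n => (he n).1.star_eq] using (e1 (star a)).star
  have e3 : ∀ a, Tendsto (fun n => e n * (e n * a) - a) atTop (𝓝 0) := fun a => by
    have h1 : Tendsto (fun n => e n * (e n * a - a)) atTop (𝓝 0) :=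
      squeeze_zero_norm (fun n => (norm_mul_le _ _).trans
        (mul_le_of_le_one_left (norm_nonneg _) (he n).2))
        (tendsto_zero_iff_norm_tendsto_zero.1 (e1 a))
    simpa [mul_sub] using h1.add (e1 a)
  let s : Fin 3 × Bool → ℕ →ᵇ M := fun c =>
    .ofNormedAddCommGroupDiscrete (fun n => J (e n ⊗ₜ x n c)) 1 fun n =>
      (hJ _ _).trans (mul_le_one₀ (he n).2 (norm_nonneg _) (x4 n c))
  have hs : ∀ c n, s c n = J (e n ⊗ₜ x n c) := fun _ _ => rfl
  have hc : ∀ c, s c ∈ cenSeq i ω := fun c => mem_cenSeq_of_dense hT _ (by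
    rintro _ ⟨v, rfl⟩
    change Nul ω fun n => s c n * J v - J v * s c n
    induction v using TensorProduct.induction_on with
    | zero => exact Nul.zero.congr fun n => by simp
    | add v v' hv hv' => exact (hv.add hv').congr fun n => by rw [map_add]; noncomm_ring
    | tmul b y =>
      have k : ∀ n, ‖x n c * y‖ ≤ ‖y‖ ∧ ‖y * x n c‖ ≤ ‖y‖ := fun n =>
        ⟨(norm_mul_le _ _).trans (mul_le_of_le_one_left (norm_nonneg _) (x4 n c)),
          (norm_mul_le _ _).trans (mul_le_of_le_one_right (norm_nonneg _) (x4 n c))⟩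
      refine (((n1 _ (e1 b) fun n => (k n).1).add (n2 b (x5 c y))).sub
        (n1 _ (e2 b) fun n => (k n).2)).congr fun n => ?_
      simp only [hs, ← map_mul, Algebra.TensorProduct.tmul_mul_tmul, TensorProduct.sub_tmul,
        TensorProduct.tmul_sub, map_sub]
      abel)
  have d1 : ∀ c, χ (π ⟨s c, hc c⟩) = 0 := fun c => by
    rw [← mul_self_eq_zero, ← map_mul, ← map_mul, (h.2 _).2 fun a => Nul.zero.congr fun n => ?_,
      map_zero]
    change 0 = s c n * s c n * i a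
    rw [hs, ← map_mul, Algebra.TensorProduct.tmul_mul_tmul, x1, TensorProduct.tmul_zero, map_zero,
      zero_mul]
  have d2 : π (∑ c, star ⟨s c, hc c⟩ * ⟨s c, hc c⟩) = π 1 := by
    refine h.eq_iff.2 fun a => (nul_mul_of_dense (i := i) hT ((∑ c, star (s c) * s c) - 1) ?_
      a).congr fun n => by simp
    rintro _ ⟨v, rfl⟩
    change Nul ω fun n => ((∑ c, star (s c) * s c) - 1 : ℕ →ᵇ M) n * J v
    have k : ∀ n, ((∑ c, star (s c) * s c) - 1 : ℕ →ᵇ M) n = J ((e n * e n) ⊗ₜ 1) - 1 := fun n => by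
      rw [← x2 n, TensorProduct.tmul_sum, map_sum]
      simp [hs, ← map_star, ← map_mul, (he n).1.star_eq]
    simp only [k]
    induction v using TensorProduct.induction_on with
    | zero => exact Nul.zero.congr fun n => by simp
    | add v v' hv hv' => exact (hv.add hv').congr fun n => by rw [map_add, mul_add]
    | tmul b y =>
      refine (n1 _ (e3 b) fun _ => (le_refl ‖y‖)).congr fun n => ?_
      simp only [sub_mul, ← map_mul, Algebra.TensorProduct.tmul_mul_tmul, TensorProduct.sub_tmul,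
        map_sub, one_mul, mul_assoc]
  have d3 : χ 1 = 0 := by
    rw [← map_one π, ← d2]
    simp only [map_sum, map_mul, d1, mul_zero, Finset.sum_const_zero]
  ext y
  rw [← one_mul y, map_mul, d3, zero_mul]
  rfl

end Vale.Agent.P095
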