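import Vale.Agent.P095.Engine
import Vale.Agent.P095.ZWit
import Vale.Agent.P095.Folner2
import Vale.Agent.P095.MinEx
import Vale.Agent.P095.S.NoChar
import Vale.Agent.P101.Bridge

/-! Equivariant Jiang-Su stability of amenable group actions. -/

open Filter
open scoped CStarAlgebra ComplexOrder

namespace Vale.Agent.P095

theorem equivStable {A G Z : Type} [NonUnitalCStarAlgebra A] [PartialOrder A] [StarOrderedRing A]
    [TopologicalSpace.SeparableSpace A] [Group G] [Countable G] [CStarAlgebra Z]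
    (hZ : P101.IsJiangSu Z) (h1 : IsSimple A) (h2 : IsNuclear A) (h3 : IsStable A Z)
    (hG : St.IsAmenable G) (α : G →* (A ≃⋆ₐ[ℂ] A)) : EquivStable α Z := by
  classical
  obtain ⟨α', hα⟩ := exists_mact α
  have hω : (hyperfilter ℕ : Filter ℕ) ≤ cofinite := hyperfilter_le_cofinite
  obtain ⟨D, _, π, h⟩ := exists_F (cm A) (hyperfilter ℕ)
  have hα' : Inv (cm A) α' := fun g a => ⟨_, hα g a⟩
  obtain ⟨γ, hγ⟩ := h.exists_act hα'
  exact engine hZ α α' hα hω h hγ (S.Ctx.noChar ⟨cm_injective, isIdl_cm, hω, h, hγ, h1⟩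
    (S.IsNuclear.cp h2) (h.noChar hω hZ h3) (S.fol_of fun K _ hη => hG.folner K hη))

theorem hasMin (A Z : Type) [NonUnitalCStarAlgebra A] [CStarAlgebra Z] : St.HasMin A Z :=
  exists_minTensor A Z

/-- composition of completely positive maps -/
def cpComp {A B C : Type} [NonUnitalCStarAlgebra A] [PartialOrder A] [StarOrderedRing A]
    [NonUnitalCStarAlgebra B] [PartialOrder B] [StarOrderedRing B] [NonUnitalCStarAlgebra C]
    [PartialOrder C] [StarOrderedRing C] (g : B →CP C) (f : A →CP B) : A →CP C where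
  toLinearMap := g.toLinearMap ∘ₗ f.toLinearMap
  map_cstarMatrix_nonneg' k M hM :=
    g.map_cstarMatrix_nonneg' k _ (f.map_cstarMatrix_nonneg' k M hM)

theorem St.IsNuclear.old {A : Type} [NonUnitalCStarAlgebra A] [PartialOrder A]
    [StarOrderedRing A] (h : St.IsNuclear A) : P095.IsNuclear A := fun F ε hε => by
  obtain ⟨B, _, _, _, ⟨k, ⟨e⟩⟩, φ, ψ, h1, h2, h3⟩ := h F ε hε
  let e' : B ≃⋆ₐ[ℂ] CStarMatrix (Fin k) (Fin k) ℂ := e.trans CStarMatrix.ofMatrixStarAlgEquiv
  refine ⟨k, cpComp (CompletelyPositiveMapClass.toCompletelyPositiveLinearMap e') φ,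
    cpComp ψ (CompletelyPositiveMapClass.toCompletelyPositiveLinearMap e'.symm), fun a => ?_,
    fun x => ?_, fun a ha => ?_⟩
  · exact (StarAlgEquiv.norm_map e' (φ a)).trans_le (h1 a)
  · exact (h2 _).trans_eq (StarAlgEquiv.norm_map e'.symm x)
  · change ‖ψ (e'.symm (e' (φ a))) - a‖ < ε
    rw [e'.symm_apply_apply]
    exact h3 a ha

theorem equivStable_zero {A G Z : Type} [NonUnitalCStarAlgebra A] [Subsingleton A] [Group G]
    [CStarAlgebra Z] (α : G →* (A ≃⋆ₐ[ℂ] A)) : EquivStable α Z := fun C _ ι hι => by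
  have h0 : ∀ x : C, x = 0 := fun x => hι.1.induction_on x isClosed_singleton fun y => by
    rw [Subsingleton.elim y 0, map_zero]
  have : Subsingleton C := ⟨fun x y => (h0 x).trans (h0 y).symm⟩
  let Φ : A ≃⋆ₐ[ℂ] C :=
    { toFun := fun _ => 0, invFun := fun _ => 0, left_inv := fun _ => Subsingleton.elim _ _
      right_inv := fun _ => Subsingleton.elim _ _, map_mul' := fun _ _ => Subsingleton.elim _ _
      map_add' := fun _ _ => Subsingleton.elim _ _, map_star' := fun _ => Subsingleton.elim _ _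
      map_smul' := fun _ _ => Subsingleton.elim _ _ }
  refine ⟨1, fun _ _ _ => Subsingleton.elim _ _, Φ, fun _ => 1,
    ⟨fun _ => one_mem _, fun _ _ _ => Subsingleton.elim _ _⟩, fun g a => ?_⟩
  rw [star_one, one_mul, mul_one, Subsingleton.elim (Φ (α g a))]

theorem allStable {A G Z : Type} [NonUnitalCStarAlgebra A] [PartialOrder A] [StarOrderedRing A]
    [TopologicalSpace.SeparableSpace A] [Group G] [Countable G] [CStarAlgebra Z]
    (hZ : P101.IsJiangSu Z) (h1 : St.IsSimple A) (h2 : St.IsNuclear A) (h3 : St.IsStable A Z)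
    (hG : St.IsAmenable G) : St.AllStable G A Z := fun α => by
  obtain ⟨C, _, ⟨ι, hι⟩, h⟩ := h3
  rcases subsingleton_or_nontrivial A with hA | hA
  · exact equivStable_zero α
  · exact equivStable hZ ⟨hA, h1⟩ h2.old ⟨C, _, ι, hι, h⟩ hG α

end Vale.Agent.P095
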