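import Vale.Agent.P095.Defs

/-! An invariant mean gives Folner sets.

Plan (Tarski doubling, or Day-Namioka if you prefer). Suppose the condition fails for `K`, `η`. With
`S = insert 1 K`, `card (S * F) ≥ (1 + η) card F` for all finite `F` (some `h F \ F` is large), so
`card (S ^ n * F) ≥ 2 card F` for a fixed `n`. Hall (`Finset.all_card_le_biUnion_card_iff_exists_injective`
for the family `(g, b) : G × Bool ↦ S ^ n * {g}`) gives an injective `f : G × Bool → G` with
`f (g, b) ∈ S ^ n g`. For `s ∈ S ^ n` and `b` let `A s b = {g | f (g, b) = s * g}`; for fixed `b` these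
partition `G`, and the sets `s * A s b` are pairwise disjoint, so the mean gives `2 ≤ 1`. -/

namespace Vale.Agent.P095

open scoped Pointwise

open Classical in
/-- The indicator of a set as a bounded function. -/
noncomputable def folInd {G : Type} (P : G → Prop) : lp (fun _ : G => ℝ) ⊤ :=
  ⟨fun g => if P g then 1 else 0, memℓp_infty ⟨1, by
    rintro _ ⟨g, rfl⟩
    by_cases h : P g <;> simp [h]⟩⟩

theorem folInd_apply {G : Type} (P : G → Prop) (g : G) [Decidable (P g)] :
    folInd P g = if P g then (1 : ℝ) else 0 := by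
  classical
  have : folInd P g = @ite ℝ (P g) (Classical.propDecidable _) 1 0 := rfl
  rw [this]
  split_ifs <;> rfl

theorem fol_double {G : Type} [Group G] [DecidableEq G] (K : Finset G) {η : ℝ} (hη : 0 < η)
    (h : ∀ F : Finset G, F.Nonempty →
      ∃ k ∈ K, η * F.card < (((F.image fun g => k * g) \ F).card : ℝ)) :
    ∃ T : Finset G, ∀ F : Finset G, 2 * F.card ≤ (T * F).card := by
  have h1 : ∀ F : Finset G, (1 + η) * F.card ≤ ((insert 1 K * F).card : ℝ) := fun F => by
    rcases F.eq_empty_or_nonempty with rfl | hF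
    · simp
    obtain ⟨k, hk, hk'⟩ := h F hF
    have h2 : ((F.image fun g => k * g) \ F) ∪ F ⊆ insert 1 K * F := fun x hx => by
      rcases Finset.mem_union.1 hx with hx | hx
      · obtain ⟨g, hg, rfl⟩ := Finset.mem_image.1 (Finset.mem_sdiff.1 hx).1
        exact Finset.mul_mem_mul (Finset.mem_insert_of_mem hk) hg
      · simpa using Finset.mul_mem_mul (Finset.mem_insert_self 1 K) hx
    have h3 := Finset.card_le_card h2
    rw [Finset.card_union_of_disjoint Finset.sdiff_disjoint] at h3
    have h4 : ((((F.image fun g => k * g) \ F).card : ℝ) + F.card) ≤ (insert 1 K * F).card := by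
      exact_mod_cast h3
    linarith
  have h2 : ∀ (n : ℕ) (F : Finset G),
      (1 + η) ^ n * F.card ≤ (((insert 1 K) ^ n * F).card : ℝ) := fun n F => by
    induction n with
    | zero => simp
    | succ n ih =>
      rw [pow_succ', pow_succ', mul_assoc, mul_assoc]
      exact (mul_le_mul_of_nonneg_left ih (by linarith)).trans (h1 _)
  obtain ⟨n, hn⟩ := pow_unbounded_of_one_lt (2 : ℝ) (show 1 < 1 + η by linarith)
  refine ⟨(insert 1 K) ^ n, fun F => ?_⟩
  have h3 := (mul_le_mul_of_nonneg_right hn.le (Nat.cast_nonneg F.card)).trans (h2 n F)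
  exact_mod_cast h3

theorem IsAmenable.folner {G : Type} [Group G] [DecidableEq G] (h : IsAmenable G) (K : Finset G)
    {η : ℝ} (hη : 0 < η) : ∃ F : Finset G, F.Nonempty ∧
      ∀ k ∈ K, (((F.image fun g => k * g) \ F).card : ℝ) ≤ η * F.card := by
  classical
  by_contra hc
  push Not at hc
  obtain ⟨T, hT⟩ := fol_double K hη hc
  obtain ⟨f, hf, hfT⟩ := (Finset.all_card_le_biUnion_card_iff_exists_injective
    (fun x : G × Bool => T.image fun s => s * x.1)).1 fun s => by
      have h1 : s.card ≤ 2 * (s.image Prod.fst).card := by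
        have : s ⊆ s.image Prod.fst ×ˢ (Finset.univ : Finset Bool) := fun x hx =>
          Finset.mem_product.2 ⟨Finset.mem_image_of_mem _ hx, Finset.mem_univ _⟩
        have := Finset.card_le_card this
        simpa [mul_comm] using this
      refine h1.trans ((hT _).trans (Finset.card_le_card fun y hy => ?_))
      obtain ⟨a, ha, b, hb, rfl⟩ := Finset.mem_mul.1 hy
      obtain ⟨x, hx, rfl⟩ := Finset.mem_image.1 hb
      exact Finset.mem_biUnion.2 ⟨x, hx, Finset.mem_image_of_mem _ ha⟩
  obtain ⟨m, hm1, hm0, hmi⟩ := h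
  have hA : ∀ b : Bool, ∑ s ∈ T, folInd (fun g => f (g, b) = s * g) = 1 := fun b => by
    refine lp.ext (funext fun g => ?_)
    rw [lp.coeFn_sum, Finset.sum_apply]
    obtain ⟨s, hs, hs'⟩ := Finset.mem_image.1 (hfT (g, b))
    rw [Finset.sum_eq_single s]
    · rw [folInd_apply, if_pos hs'.symm]; rfl
    · intro t _ hts
      rw [folInd_apply, if_neg]
      intro h2
      exact hts (mul_right_cancel (h2.symm.trans hs'.symm))
    · intro h2; exact absurd hs h2
  have hB : ∀ (b : Bool) (s : G), m (folInd fun g => f (g, b) = s * g) =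
      m (folInd fun y => f (s⁻¹ * y, b) = y) := fun b s =>
    hmi s _ _ fun g => by rw [folInd_apply, folInd_apply, inv_mul_cancel_left]
  have hC : 0 ≤ m (1 - ∑ x ∈ Finset.univ ×ˢ T, folInd fun y => f (x.2⁻¹ * y, x.1) = y) := by
    refine hm0 _ fun y => ?_
    rw [lp.coeFn_sub, Pi.sub_apply, lp.coeFn_sum, Finset.sum_apply]
    rw [Finset.sum_congr rfl fun x _ => folInd_apply (fun y => f (x.2⁻¹ * y, x.1) = y) y,
      Finset.sum_boole]
    have h1 : ((Finset.univ ×ˢ T).filter fun x : Bool × G => f (x.2⁻¹ * y, x.1) = y).card ≤ 1 := by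
      refine Finset.card_le_one.2 fun a ha b hb => ?_
      have h2 := hf ((Finset.mem_filter.1 ha).2.trans (Finset.mem_filter.1 hb).2.symm)
      simp only [Prod.mk.injEq, mul_left_inj, inv_inj] at h2
      exact Prod.ext h2.2 h2.1
    have h2 : (1 : lp (fun _ : G => ℝ) ⊤) y = 1 := rfl
    rw [h2, sub_nonneg]
    exact_mod_cast h1
  rw [map_sub, map_sum, Finset.sum_product, hm1] at hC
  simp only [← hB, ← map_sum, hA, hm1] at hC
  norm_num at hC

end Vale.Agent.P095
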