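import Vale.Agent.P095.Reidx
import Vale.Agent.P101.Main
import Vale.Agent.P101.Core

/-! From invariant central witnesses in a unital algebra to invariant half flip unitaries. -/

open Filter Topology TopologicalSpace
open scoped BoundedContinuousFunction

namespace Vale.Agent.P095

open P101 P101.RichAux

variable {A M D G : Type} [NonUnitalCStarAlgebra A] [CStarAlgebra M] [CStarAlgebra D] [Group G]
  {i : A →⋆ₙₐ[ℂ] M} {ω : Ultrafilter ℕ} {π : cenSeq i ω →⋆ₐ[ℂ] D}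

theorem IsF.eventually_lt (h : IsF i ω π) (x : cenSeq i ω) (a : A) {ε : ℝ}
    (hε : ‖π x‖ * ‖i a‖ < ε) : ∀ᶠ n in (ω : Filter ℕ), ‖x.1 n * i a‖ < ε := by
  obtain ⟨y, hy, hy'⟩ := exists_lift_le π h.1 (π x)
  filter_upwards [nul_iff'.1 (h.eq_iff.1 hy.symm a) _ (sub_pos.2 hε)] with n hn
  have h1 := norm_add_le ((x.1 n - y.1 n) * i a) (y.1 n * i a)
  rw [← add_mul, sub_add_cancel] at h1
  have h2 := (norm_mul_le (y.1 n) (i a)).trans (mul_le_mul_of_nonneg_right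
    ((y.1.norm_coe_le_norm n).trans hy') (norm_nonneg _))
  linarith

theorem IsF.norm_le (h : IsF i ω π) (x : cenSeq i ω) {c : ℝ} (hc : 0 ≤ c)
    (hx : ∀ᶠ n in (ω : Filter ℕ), ‖x.1 n‖ ≤ c) : ‖π x‖ ≤ c := by
  classical
  have hb : ∀ n, ‖if ‖x.1 n‖ ≤ c then x.1 n else 0‖ ≤ c := fun n => by
    split_ifs with hn
    · exact hn
    · rwa [norm_zero]
  let v : ℕ →ᵇ M := .ofNormedAddCommGroupDiscrete _ c hb
  have hv : Nul ω fun n => x.1 n - v n := tendsto_const_nhds.congr' (hx.mono fun n hn =>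
    (sub_eq_zero.2 (if_pos hn).symm).symm)
  have hv' : v ∈ cenSeq i ω := fun a =>
    (((x.2 a).sub (hv.mul_const _)).add (hv.const_mul (i a))).congr fun n => by noncomm_ring
  rw [(h.eq_iff (y := ⟨v, hv'⟩)).2 fun a => hv.mul_const _]
  exact (NonUnitalStarAlgHom.norm_apply_le π _).trans
    ((BoundedContinuousFunction.norm_le hc).2 hb)

theorem exists_unitary_seq (x : ℕ →ᵇ M) (h1 : Nul ω fun n => star (x n) * x n - 1)
    (h2 : Nul ω fun n => x n * star (x n) - 1) :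
    ∃ w : ℕ →ᵇ M, (∀ n, w n ∈ unitary M) ∧ Nul ω fun n => w n - x n := by
  obtain ⟨U, _, ρ, h⟩ := exists_ultrapower M ω
  have hW : ρ x ∈ unitary U := by
    constructor <;> rw [← map_star, ← map_mul, ← sub_eq_zero, ← map_one ρ, ← map_sub]
    · exact (h.2 _).2 (nul_iff.1 h1)
    · exact (h.2 _).2 (nul_iff.1 h2)
  obtain ⟨w, h3, h4⟩ := h.exists_unitary hW
  exact ⟨w, h4, nul_iff.2 ((h.2 (w - x)).1 (by rw [map_sub, h3, sub_self]))⟩

theorem noChar_of_wit {F κ : Type} [CStarAlgebra F] [Fintype κ] (y : κ → F)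
    (h1 : ∀ c, y c * y c = 0) (h2 : ‖∑ c, star (y c) * y c - 1‖ < 1) (χ : F →⋆ₙₐ[ℂ] ℂ) :
    χ = 0 := by
  have h3 : ∀ c, χ (y c) = 0 := fun c => mul_self_eq_zero.1 (by rw [← map_mul, h1, map_zero])
  have h4 : ‖χ 1‖ < 1 := by
    have := (NonUnitalStarAlgHom.norm_apply_le χ _).trans_lt h2
    simpa [map_sum, h3] using this
  have h5 : χ 1 = 0 := by
    by_contra h
    rw [mul_left_cancel₀ h (show χ 1 * χ 1 = χ 1 * 1 by rw [← map_mul, mul_one, mul_one]),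
      norm_one] at h4
    exact lt_irrefl _ h4
  ext x
  rw [← mul_one x, map_mul, h5, mul_zero]
  rfl

theorem exists_exhaust {X : Type} [Nonempty X] {s : Set X} (hs : s.Countable) :
    ∃ T : ℕ → Finset X, ∀ x ∈ s, ∀ᶠ n in atTop, x ∈ T n := by
  classical
  obtain ⟨x0⟩ := ‹Nonempty X›
  obtain ⟨f, hf⟩ := (hs.insert x0).exists_eq_range (Set.insert_nonempty _ _)
  refine ⟨fun n => (Finset.range n).image f, fun x hx => ?_⟩
  obtain ⟨j, rfl⟩ : x ∈ Set.range f := hf ▸ Set.mem_insert_of_mem _ hx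
  exact (eventually_gt_atTop j).mono fun n hn =>
    Finset.mem_image_of_mem f (Finset.mem_range.2 hn)

theorem nul_of_le (hω : (ω : Filter ℕ) ≤ cofinite) {x : ℕ → M}
    (h : ∀ᶠ n : ℕ in atTop, ‖x n‖ ≤ 1 / ((n : ℝ) + 1)) : Nul ω x :=
  have hω' : (ω : Filter ℕ) ≤ atTop := by rwa [← Nat.cofinite_eq_atTop]
  squeeze_zero_norm' (hω' h) (tendsto_one_div_add_atTop_nhds_zero_nat.mono_left hω')

/-- approximately central, approximately invariant nilpotent witnesses -/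
def Wit (κ : Type) [Fintype κ] (α : G →* (M ≃⋆ₐ[ℂ] M)) : Prop :=
  ∀ (T : Finset M) (K : Finset G) (ε : ℝ), 0 < ε → ∃ y : κ → M,
    ‖∑ c, star (y c) * y c - 1‖ ≤ 24 / 25 + ε ∧ ∀ c, ‖y c‖ ≤ 1 ∧ ‖y c * y c‖ ≤ ε ∧
      (∀ b ∈ T, ‖y c * b - b * y c‖ ≤ ε) ∧ ∀ g ∈ K, ‖α g (y c) - y c‖ ≤ ε

theorem Wit.noChar [SeparableSpace M] [Countable G] {κ : Type} [Fintype κ]
    {α : G →* (M ≃⋆ₐ[ℂ] M)} (hW : Wit κ α) (hω : (ω : Filter ℕ) ≤ cofinite)
    {π : cenSeq (NonUnitalStarAlgHom.id ℂ M) ω →⋆ₐ[ℂ] D} (h : IsF _ ω π) {hα : Inv _ α}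
    {γ : G →* (D ≃⋆ₐ[ℂ] D)} (hγ : IsAct hα π γ) (χ : fixed γ →⋆ₙₐ[ℂ] ℂ) : χ = 0 := by
  obtain ⟨s, hs, hs'⟩ := exists_countable_dense M
  obtain ⟨T, hT⟩ := exists_exhaust hs
  obtain ⟨K, hK⟩ := exists_exhaust (Set.countable_univ (α := G))
  choose y h1 h2 h3 h4 h5 using fun n : ℕ => hW (T n) (K n) (1 / ((n : ℝ) + 1)) (by positivity)
  let x : κ → cenSeq (NonUnitalStarAlgHom.id ℂ M) ω := fun c =>
    ⟨.ofNormedAddCommGroupDiscrete (fun n => y n c) 1 fun n => h2 n c,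
      mem_cenSeq_of_dense hs' _ fun a ha => nul_of_le hω ((hT a ha).mono fun n hn => h4 n c a hn)⟩
  have hx : ∀ c, π (x c) ∈ fixed γ := fun c g => (hγ g _).trans <| h.eq_iff.2 fun a =>
    (nul_of_le hω ((hK g trivial).mono fun n hn => h5 n c g hn)).mul_const _
  refine noChar_of_wit (fun c => ⟨_, hx c⟩) (fun c => Subtype.ext ?_) ?_ χ
  · exact (map_mul π _ _).symm.trans <| (h.2 _).2 fun a =>
      (nul_of_le hω (.of_forall fun n => h3 n c)).mul_const _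
  · have h7 := h.norm_le (∑ c, star (x c) * x c - 1) (c := 49 / 50) (by norm_num) <| by
      filter_upwards [(Nat.cofinite_eq_atTop ▸ hω) (eventually_ge_atTop 99)] with n hn
      have : (100 : ℝ) ≤ n + 1 := by exact_mod_cast (by omega : 100 ≤ n + 1)
      refine le_trans (le_of_eq ?_) ((h1 n).trans (by
        linarith [one_div_le_one_div_of_le (by norm_num) this]))
      simp [x]
    rw [map_sub, map_sum, map_one] at h7
    refine lt_of_le_of_lt (le_of_eq ?_) (h7.trans_lt (by norm_num))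
    refine congrArg norm (?_ : (fixed γ).subtype _ = _)
    simp [map_star]

theorem key_flip {Z F C : Type} [CStarAlgebra Z] [CStarAlgebra F] [CStarAlgebra C]
    (hZ : IsJiangSu Z) (hR : Rich F) (hF : ∀ χ : F →⋆ₙₐ[ℂ] ℂ, χ = 0)
    (J : F →⋆ₐ[ℂ] C) (β : Z →⋆ₐ[ℂ] C) (hc : ∀ x y, Commute (J x) (β y))
    (T : Finset Z) {ε : ℝ} (hε : 0 < ε) :
    ∃ W ∈ unitary C, ∀ z ∈ T, ∃ u, ‖star W * β z * W - J u‖ < ε := by
  classical
  obtain ⟨p, q, B, _, ev, φ, ι, hpq, hdd, hφ, hinj, hι, hU⟩ := hZ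
  have hpos : ∀ n, 0 < p n ∧ 0 < q n := fun n =>
    ⟨zero_lt_one.trans (hpq n).1, zero_lt_one.trans (hpq n).2.1⟩
  have hp := hp_of_std p q B ev φ ι hpos (fun n => (hpq n).2.2.2) hdd (fun n => (hφ n).2) hι
  have hmono : Monotone fun n => Set.range (ι n) :=
    monotone_nat_of_le_succ fun n => Set.range_subset_iff.2 fun b => ⟨φ n b, hι n b⟩
  obtain ⟨m, hm⟩ := ((eventually_all_finset T).2 fun x _ => by
    obtain ⟨y, hy, hxy⟩ := Metric.mem_closure_iff.1 (hU x) _ (half_pos hε)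
    obtain ⟨n, hn⟩ := Set.mem_iUnion.1 hy
    refine (eventually_ge_atTop n).mono fun m hm => ?_
    obtain ⟨f, rfl⟩ := hmono hm hn
    exact ⟨f, by rwa [← dist_eq_norm]⟩ : ∀ᶠ m in atTop, ∀ x ∈ T, ∃ f, ‖x - ι m f‖ < ε / 2).exists
  choose! f hf using hm
  obtain ⟨W, hW, h⟩ := main_flip hpos (fun n => (hpq n).2.2.1) hdd hp hR (exists_pair hR hF) J β hc
    m (T.image f) (half_pos hε)
  refine ⟨W, hW, fun z hz => ?_⟩
  obtain ⟨u, hu⟩ := h _ (Finset.mem_image_of_mem f hz)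
  have h5 : ‖star W * β (z - ι m (f z)) * W‖ < ε / 2 := by
    rw [CStarRing.norm_mul_mem_unitary _ hW, CStarRing.norm_mem_unitary_mul _ (Unitary.star_mem hW)]
    exact (NonUnitalStarAlgHom.norm_apply_le β _).trans_lt (hf z hz)
  rw [map_sub, mul_sub, sub_mul] at h5
  exact ⟨u, by
    linarith [norm_sub_le_norm_sub_add_norm_sub (star W * β z * W) (star W * β (ι m (f z)) * W) (J u)]⟩

theorem key {N Z κ : Type} [SeparableSpace M] [CStarAlgebra N] [CStarAlgebra Z] [Countable G]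
    [Fintype κ] (hZ : IsJiangSu Z) {α : G →* (M ≃⋆ₐ[ℂ] M)} (hW : Wit κ α)
    (β : G →* (N ≃⋆ₐ[ℂ] N)) (j : M →⋆ₐ[ℂ] N) (k : Z →⋆ₐ[ℂ] N) (hc : ∀ b z, Commute (j b) (k z))
    (hj : ∀ g b, β g (j b) = j (α g b)) (hk : ∀ g z, β g (k z) = k z) (S : Finset M)
    (T : Finset Z) (K : Finset G) {ε : ℝ} (hε : 0 < ε) : ∃ w ∈ unitary N,
      (∀ b ∈ S, ‖w * j b - j b * w‖ ≤ ε) ∧ (∀ z ∈ T, ∃ b, ‖star w * k z * w - j b‖ ≤ ε) ∧
      ∀ g ∈ K, ‖β g w - w‖ ≤ ε := by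
  let ω := hyperfilter ℕ
  have hω : (ω : Filter ℕ) ≤ cofinite := hyperfilter_le_cofinite
  obtain ⟨D, _, π, h⟩ := exists_F (NonUnitalStarAlgHom.id ℂ M) ω
  have hα : Inv (NonUnitalStarAlgHom.id ℂ M) α := fun g a => ⟨_, rfl⟩
  obtain ⟨γ, hγ⟩ := h.exists_act hα
  obtain ⟨E, _, ρ, h'⟩ := exists_F (j : M →⋆ₙₐ[ℂ] N) ω
  have hβ : Inv (j : M →⋆ₙₐ[ℂ] N) β := fun g a => ⟨_, hj g a⟩
  obtain ⟨δ, hδ⟩ := h'.exists_act hβ
  have h1 : ∀ {x : ℕ → N}, (∀ a, Nul ω fun n => x n * (j : M →⋆ₙₐ[ℂ] N) a) → Nul ω x :=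
    fun hx => (hx 1).congr fun n => (congrArg _ (map_one j)).trans (mul_one _)
  obtain ⟨s, hs⟩ : ∃ s : cenSeq (NonUnitalStarAlgHom.id ℂ M) ω →⋆ₐ[ℂ] cenSeq (j : M →⋆ₙₐ[ℂ] N) ω,
      ∀ x n, (s x).1 n = j (x.1 n) :=
    ⟨((seqMap j).comp (StarSubalgebra.subtype _)).codRestrict _ fun x a =>
      ((x.2 a).map j).congr fun n => by rw [map_sub, map_mul, map_mul]; rfl, fun _ _ => rfl⟩
  obtain ⟨c, hc'⟩ : ∃ c : Z →⋆ₐ[ℂ] cenSeq (j : M →⋆ₙₐ[ℂ] N) ω, ∀ z n, (c z).1 n = k z :=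
    ⟨((mainConst N).comp k).codRestrict _ fun z a =>
      Nul.zero.congr fun n => (sub_eq_zero.2 (hc a z).symm).symm, fun _ _ => rfl⟩
  obtain ⟨J, hJ⟩ := exists_factor π h.1 (ρ.comp s) fun x hx => (h'.2 _).2 fun a =>
    (((h.2 x).1 hx a).map j).congr fun n => (map_mul j _ _).trans (congrArg (· * _) (hs x n).symm)
  have hJ' : ∀ x, J (π x) = ρ (s x) := hJ
  obtain ⟨J', hJ''⟩ : ∃ J' : fixed γ →⋆ₐ[ℂ] fixed δ, ∀ x, (J' x).1 = J x.1 :=
    ⟨(J.comp (fixed γ).subtype).codRestrict _ fun x g => by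
      obtain ⟨y, hy⟩ := h.1 x.1
      change δ g (J x.1) = J x.1
      conv_rhs => rw [← x.2 g]
      rw [← hy, hγ, hJ', hJ', hδ]
      refine congrArg ρ (Subtype.ext (BoundedContinuousFunction.ext fun n => ?_))
      rw [seqAct_apply, hs, hs, seqAct_apply, hj], fun _ => rfl⟩
  obtain ⟨c', hc''⟩ : ∃ c' : Z →⋆ₐ[ℂ] fixed δ, ∀ z, (c' z).1 = ρ (c z) :=
    ⟨(ρ.comp c).codRestrict _ fun z g => (hδ g _).trans (congrArg ρ (Subtype.ext
      (BoundedContinuousFunction.ext fun n => by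
        change β g ((c z).1 n) = (c z).1 n
        rw [hc', hk]))), fun _ => rfl⟩
  obtain ⟨W, hW', h2⟩ := key_flip hZ (h.rich_fixed (fun m a => ⟨_, rfl⟩) hω hγ)
    (hW.noChar hω h hγ) J' c' (fun x z => Subtype.ext <| by
      obtain ⟨y, hy⟩ := h.1 x.1
      change (J' x).1 * (c' z).1 = (c' z).1 * (J' x).1
      rw [hJ'', hc'', ← hy, hJ', ← map_mul, ← map_mul]
      refine congrArg ρ (Subtype.ext (BoundedContinuousFunction.ext fun n => ?_))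
      change (s y).1 n * (c z).1 n = (c z).1 n * (s y).1 n
      rw [hs, hc', hc]) T hε
  obtain ⟨x, hx⟩ := h'.1 W.1
  have hu : ρ x ∈ unitary E := hx ▸ Unitary.map_mem (fixed δ).subtype hW'
  obtain ⟨w, hw, hw'⟩ := exists_unitary_seq (ω := ω) x.1
    (h1 ((h'.eq_iff (x := star x * x) (y := 1)).1 (by rw [map_mul, map_star, hu.1, map_one])))
    (h1 ((h'.eq_iff (x := x * star x) (y := 1)).1 (by rw [map_mul, map_star, hu.2, map_one])))
  have hwc : w ∈ cenSeq (j : M →⋆ₙₐ[ℂ] N) ω := fun a =>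
    (((x.2 a).add (hw'.mul_const _)).sub (hw'.const_mul (j a))).congr fun n => by
      change _ = w n * j a - j a * w n
      change x.1 n * j a - j a * x.1 n + (w n - x.1 n) * j a - _ = _
      noncomm_ring
  have hx' : ρ ⟨w, hwc⟩ = W.1 := hx ▸ h'.eq_iff.2 fun a => hw'.mul_const _
  have e1 : ∀ᶠ n in (ω : Filter ℕ), ∀ b ∈ S, ‖w n * j b - j b * w n‖ ≤ ε :=
    (eventually_all_finset S).2 fun b _ => (nul_iff'.1 (hwc b) ε hε).mono fun n hn => hn.le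
  have e2 : ∀ᶠ n in (ω : Filter ℕ), ∀ g ∈ K, ‖β g (w n) - w n‖ ≤ ε :=
    (eventually_all_finset K).2 fun g _ => (nul_iff'.1 (h1 ((h'.eq_iff (y := ⟨w, hwc⟩)).1
      ((hδ g ⟨w, hwc⟩).symm.trans (by rw [hx']; exact W.2 g)))) ε hε).mono fun n hn => hn.le
  have e3 : ∀ᶠ n in (ω : Filter ℕ), ∀ z ∈ T, ∃ b, ‖star (w n) * k z * w n - j b‖ ≤ ε :=
    (eventually_all_finset T).2 fun z hz => by
      obtain ⟨u, hu⟩ := h2 z hz
      obtain ⟨y, hy⟩ := h.1 u.1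
      change ‖star W.1 * (c' z).1 * W.1 - (J' u).1‖ < ε at hu
      rw [hc'', hJ'', ← hy, hJ', ← hx', ← map_star, ← map_mul, ← map_mul, ← map_sub] at hu
      have h3 : ‖(j : M →⋆ₙₐ[ℂ] N) 1‖ ≤ 1 :=
        (congrArg norm (map_one j)).trans_le (IsStarProjection.one N).norm_le
      filter_upwards [h'.eventually_lt _ 1 ((mul_le_of_le_one_right (norm_nonneg _) h3).trans_lt
        hu)] with n hn
      refine ⟨y.1 n, le_of_eq_of_le (congrArg norm ?_) hn.le⟩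
      rw [← hs, ← hc' z n]
      exact ((congrArg _ (map_one j)).trans (mul_one _)).symm
  obtain ⟨n, hn⟩ := (e1.and (e3.and e2)).exists
  exact ⟨w n, hw n, hn⟩

end Vale.Agent.P095
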