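import Vale.Agent.P101.Osc
import Vale.Agent.P101.Ideal
import Vale.Agent.P101.Drop

/-! Nilpotent witnesses in matrix algebras. A homomorphism from a dimension drop algebra to a matrix
algebra factors through the evaluations at a finite set `T`; the interval is cut into small cells. -/

open scoped Matrix Kronecker

namespace Vale.Agent.P095

open P101

theorem zf_colour (R : Type) [Fintype R] [Nontrivial R] :
    ∃ (σ : Equiv.Perm R) (col : R → Fin 3), ∀ i, col (σ i) ≠ col i := by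
  obtain ⟨r, hr⟩ := Nat.exists_eq_add_of_le' (Fintype.one_lt_card (α := R))
  let e := Fintype.equivFinOfCardEq hr
  refine ⟨(e.trans (finRotate (r + 2))).trans e.symm,
    fun i => if (e i).val = r + 1 then 2 else if (e i).val % 2 = 0 then 0 else 1, fun i => ?_⟩
  have h1 := (e i).2
  simp only [Equiv.trans_apply, Equiv.apply_symm_apply, finRotate_apply, Fin.val_add_one,
    Fin.ext_iff, Fin.val_last]
  split_ifs <;> first | omega | decide | (exfalso; omega)

theorem zf_frame {N : Type} [Fintype N] [DecidableEq N] {Q : Matrix N N ℂ} (hQ : IsStarProjection Q) :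
    ∃ (S : Finset N) (V : Matrix N S ℂ), V * Vᴴ = Q ∧ Vᴴ * V = 1 := by
  have hH : Q.IsHermitian := hQ.isSelfAdjoint
  obtain ⟨U, hU⟩ : ∃ U : Matrix N N ℂ, U = hH.eigenvectorUnitary := ⟨_, rfl⟩
  obtain ⟨d, hd⟩ : ∃ d : N → ℂ, d = RCLike.ofReal ∘ hH.eigenvalues := ⟨_, rfl⟩
  have h1 : Uᴴ * U = 1 := hU ▸ Unitary.star_mul_self_of_mem hH.eigenvectorUnitary.2
  have h2 : Q = U * Matrix.diagonal d * Uᴴ := by
    rw [hU, hd]
    exact hH.spectral_theorem
  have h3 : Matrix.diagonal d = Uᴴ * Q * U := by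
    rw [h2, ← Matrix.mul_assoc, ← Matrix.mul_assoc, h1, Matrix.one_mul, Matrix.mul_assoc, h1,
      Matrix.mul_one]
  have h4 : Matrix.diagonal d * Matrix.diagonal d = Matrix.diagonal d := by
    rw [h3, Matrix.mul_assoc, ← Matrix.mul_assoc U, ← Matrix.mul_assoc U, mul_eq_one_comm.1 h1,
      Matrix.one_mul, ← Matrix.mul_assoc, Matrix.mul_assoc _ Q Q, hQ.isIdempotentElem.eq]
  have h5 : ∀ i, d i = if d i = 1 then 1 else 0 := fun i => by
    have h6 : d i * d i = d i := by simpa using congrFun (congrFun h4 i) i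
    split_ifs with h
    exacts [h, (mul_right_eq_self₀.1 h6).resolve_left h]
  refine ⟨Finset.univ.filter fun i => d i = 1, U.submatrix id Subtype.val, ?_, ?_⟩
  · ext i k
    rw [h2, Matrix.mul_apply, Matrix.mul_apply]
    simp only [Matrix.mul_diagonal, Matrix.submatrix_apply, Matrix.conjTranspose_apply, id]
    rw [Finset.sum_coe_sort _ fun l => U i l * star (U k l), Finset.sum_filter]
    refine Finset.sum_congr rfl fun l _ => ?_
    have h6 := h5 l
    split_ifs at h6 ⊢ with h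
    · rw [h, mul_one]
    · rw [h6, mul_zero, zero_mul]
  · rw [Matrix.conjTranspose_submatrix, ← Matrix.submatrix_mul _ _ _ id _ Function.bijective_id, h1,
      Matrix.submatrix_one _ Subtype.val_injective]

theorem corner_wit {N : Type} [Fintype N] [DecidableEq N] {Q a b : Matrix N N ℂ}
    (hQ : IsStarProjection Q) (ha : a ≠ 0) (hb : b ≠ 0) (h1 : Q * a = a) (h2 : Q * b = b)
    (h3 : star a * b = 0) : ∃ y : Fin 3 → Matrix N N ℂ,
      (∀ c, Q * y c = y c ∧ y c * Q = y c ∧ y c * y c = 0) ∧ ∑ c, star (y c) * y c = Q := by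
  obtain ⟨S, V, rfl, hV⟩ := zf_frame hQ
  have hc : ∀ X : Matrix S N ℂ, Vᴴ * (V * X) = X := fun X => by
    rw [← Matrix.mul_assoc, hV, Matrix.one_mul]
  have : Nontrivial S := by
    by_contra hn
    rw [not_nontrivial_iff_subsingleton] at hn
    have key : ∀ {a : Matrix N N ℂ}, a ≠ 0 → V * Vᴴ * a = a → ∃ r i, (Vᴴ * a) r i ≠ 0 := by
      intro a ha h1
      by_contra! h
      exact ha (by rw [← h1, Matrix.mul_assoc, show Vᴴ * a = 0 from Matrix.ext h, Matrix.mul_zero])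
    obtain ⟨r, i, hi⟩ := key ha h1
    obtain ⟨s, k, hk⟩ := key hb h2
    have h4 : (Vᴴ * a)ᴴ * (Vᴴ * b) = 0 := by
      rw [Matrix.conjTranspose_mul, Matrix.conjTranspose_conjTranspose, Matrix.mul_assoc,
        ← Matrix.mul_assoc V, h2]
      exact h3
    have h5 := congrFun (congrFun h4 i) k
    rw [Matrix.mul_apply, Fintype.sum_subsingleton _ r, Matrix.conjTranspose_apply] at h5
    exact mul_ne_zero (star_ne_zero.2 hi) (Subsingleton.elim r s ▸ hk) h5
  obtain ⟨σ, col, hσ⟩ := zf_colour S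
  let s : Fin 3 → Matrix S S ℂ := fun c => Matrix.of fun i k => if i = σ k ∧ col k = c then 1 else 0
  have hs1 : ∀ c, s c * s c = 0 := fun c => by
    ext i k
    refine Finset.sum_eq_zero fun l _ => ?_
    simp only [s, Matrix.of_apply]
    split_ifs with e1 e2
    · exact (hσ k (by rw [← e2.1, e1.2, e2.2])).elim
    all_goals simp
  have hs2 : ∑ c, (s c)ᴴ * s c = 1 := by
    ext i k
    simp only [s, Matrix.sum_apply, Matrix.mul_apply, Matrix.conjTranspose_apply, Matrix.of_apply,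
      Matrix.one_apply, ite_and, apply_ite star, star_one, star_zero, ite_mul, one_mul, zero_mul,
      Finset.sum_ite_eq', Finset.mem_univ, if_true, Finset.sum_ite_eq, σ.injective.eq_iff]
    split_ifs <;> simp_all
  refine ⟨fun c => V * s c * Vᴴ, fun c => ⟨?_, ?_, ?_⟩, ?_⟩
  · simp only [Matrix.mul_assoc, hc]
  · simp only [Matrix.mul_assoc, hc]
  · simp only [Matrix.mul_assoc, hc]
    rw [← Matrix.mul_assoc (s c), hs1, Matrix.zero_mul, Matrix.mul_zero]
  · simp only [Matrix.star_eq_conjTranspose, Matrix.conjTranspose_mul,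
      Matrix.conjTranspose_conjTranspose, Matrix.mul_assoc, hc]
    simp only [← Matrix.mul_assoc _ (s _), ← Matrix.mul_sum, ← Matrix.sum_mul, hs2, Matrix.one_mul]

theorem zf_units {N R : Type} [Fintype N] [DecidableEq N] [Fintype R] [DecidableEq R]
    {E : R → R → Matrix N N ℂ} (hm : ∀ i j k l, E i j * E k l = if j = k then E i l else 0)
    (hs : ∀ i j, star (E i j) = E j i) (o : R) {a b : Matrix N N ℂ} (ha : a ≠ 0) (hb : b ≠ 0)
    (h1 : E o o * a = a) (h2 : E o o * b = b) (h3 : star a * b = 0) :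
    ∃ x : Fin 3 → Matrix N N ℂ, (∀ c, x c * x c = 0 ∧ (∑ i, E i i) * x c = x c ∧
      ∀ i j, Commute (x c) (E i j)) ∧ ∑ c, star (x c) * x c = ∑ i, E i i := by
  obtain ⟨y, hy, hy'⟩ := corner_wit ⟨(hm o o o o).trans (if_pos rfl), hs o o⟩ ha hb h1 h2 h3
  have e1 : ∀ c i j, (∑ r, E r o * y c * E o r) * E i j = E i o * y c * E o j := fun c i j => by
    simp [Finset.sum_mul, mul_assoc, hm]
  have e2 : ∀ c i j, E i j * ∑ r, E r o * y c * E o r = E i o * y c * E o j := fun c i j => by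
    simp [Finset.mul_sum, ← mul_assoc, hm]
  refine ⟨fun c => ∑ r, E r o * y c * E o r, fun c => ⟨?_, ?_, fun i j => (e1 c i j).trans (e2 c i j).symm⟩,
    ?_⟩
  · rw [Finset.sum_mul]
    refine Finset.sum_eq_zero fun r _ => ?_
    rw [mul_assoc, e2, (hy c).1, ← mul_assoc, mul_assoc (E r o), (hy c).2.2, mul_zero, zero_mul]
  · simp only [Finset.sum_mul, e2]
  · have e3 : ∀ c, star (∑ r, E r o * y c * E o r) * ∑ r, E r o * y c * E o r =
        ∑ r, E r o * (star (y c) * y c) * E o r := fun c => by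
      rw [star_sum, Finset.sum_mul]
      refine Finset.sum_congr rfl fun r _ => ?_
      rw [star_mul, star_mul, hs, hs, mul_assoc, mul_assoc, e2, (hy c).1]
      simp only [mul_assoc]
    simp only [e3]
    rw [Finset.sum_comm]
    simp [← Finset.sum_mul, ← Finset.mul_sum, hy', hm]

section

variable {p q : ℕ} {B : Type} [CStarAlgebra B] {ev : unitInterval → (B →⋆ₐ[ℂ] Mat p q)}

theorem zf_ext (h : IsDimDrop p q ev) {b b' : B} (e : ∀ t, ev t b = ev t b') : b = b' :=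
  sub_eq_zero.1 (h.1 _ fun t => by rw [map_sub, e, sub_self])

theorem zf_mk (h : IsDimDrop p q ev) {g : unitInterval → ℂ} (hg : Continuous g) {x : Mat p q}
    (h0 : g 0 ≠ 0 → ∃ y, x = y ⊗ₖ (1 : Matrix (Fin q) (Fin q) ℂ))
    (h1 : g 1 ≠ 0 → ∃ y, x = (1 : Matrix (Fin p) (Fin p) ℂ) ⊗ₖ y) : ∃ b, ∀ t, ev t b = g t • x := by
  refine (h.2 _).2 ⟨hg.smul continuous_const, ?_, ?_⟩
  · by_cases e : g 0 = 0
    · exact ⟨0, by simp [e]⟩
    · obtain ⟨y, rfl⟩ := h0 e
      exact ⟨g 0 • y, (Matrix.smul_kronecker _ _ _).symm⟩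
  · by_cases e : g 1 = 0
    · exact ⟨0, by simp [e]⟩
    · obtain ⟨y, rfl⟩ := h1 e
      exact ⟨g 1 • y, (Matrix.kronecker_smul _ _ _).symm⟩

theorem zf_center (h : IsDimDrop p q ev) :
    ∃ Z : C(unitInterval, ℂ) →⋆ₐ[ℂ] B, ∀ g t, ev t (Z g) = g t • 1 := by
  choose Z hZ using fun g : C(unitInterval, ℂ) => zf_mk h (x := 1) g.continuous
    (fun _ => ⟨1, Matrix.one_kronecker_one.symm⟩) fun _ => ⟨1, Matrix.one_kronecker_one.symm⟩
  exact ⟨{ toFun := Z
           map_one' := zf_ext h fun t => by simp [hZ]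
           map_mul' := fun f g => zf_ext h fun t => by simp [hZ, mul_smul, smul_comm (f t)]
           map_zero' := zf_ext h fun t => by simp [hZ]
           map_add' := fun f g => zf_ext h fun t => by simp [hZ, add_smul]
           commutes' := fun c => zf_ext h fun t => by simp [hZ, Algebra.algebraMap_eq_smul_one]
           map_star' := fun g => zf_ext h fun t => by simp [hZ, map_star] }, hZ⟩

theorem zf_support (h : IsDimDrop p q ev) {N : Type} [Fintype N] [DecidableEq N]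
    (ψ : B →⋆ₐ[ℂ] Matrix N N ℂ) : ∃ T : Set unitInterval, T.Finite ∧ 0 ∈ T ∧ 1 ∈ T ∧
      ∀ b (η : ℝ), 0 ≤ η → (∀ t ∈ T, ‖toMC (ev t b)‖ ≤ η) → ‖toMC (ψ b)‖ ≤ η := by
  obtain ⟨Z, hZ⟩ := zf_center h
  obtain ⟨j, hj, hj'⟩ := h.exists_hom
  let χ := (toMCh.comp ψ).comp Z
  let I : Ideal C(unitInterval, ℂ) := RingHom.ker χ
  have hI : IsClosed (I : Set C(unitInterval, ℂ)) := isClosed_singleton.preimage (hom_continuous χ)
  let z : C(unitInterval, ℂ) := ⟨fun t => ((t : ℝ) : ℂ), by fun_prop⟩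
  have hf : (ContinuousMap.setOfIdeal I)ᶜ.Finite := by
    refine (((ψ (Z z)).charpoly.rootSet_finite ℂ).preimage (f := z) fun s _ t _ e =>
      Subtype.ext (Complex.ofReal_injective e)).subset fun t ht => ?_
    have h1 : Polynomial.aeval z (ψ (Z z)).charpoly ∈ I := by
      change toMC (ψ (Z _)) = 0
      rw [← Polynomial.aeval_algHom_apply, ← Polynomial.aeval_algHom_apply, Matrix.aeval_self_charpoly,
        map_zero]
    refine (Polynomial.mem_rootSet_of_ne (Matrix.charpoly_monic _).ne_zero).2 ?_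
    rw [← ContinuousMap.notMem_setOfIdeal.1 ht h1]
    exact Polynomial.aeval_algHom_apply (ContinuousMap.evalStarAlgHom ℂ ℂ t) z _
  refine ⟨insert 0 (insert 1 (ContinuousMap.setOfIdeal I)ᶜ), (hf.insert _).insert _, by simp, by simp,
    fun b η hη hb => le_of_forall_gt_imp_ge_of_dense fun η' hη' => ?_⟩
  have h0 : 0 < η' := hη.trans_lt hη'
  have hc : Continuous fun t => ‖toMC (ev t b)‖ := (continuous_toMC.comp (h.continuous b)).norm
  let g : C(unitInterval, ℂ) := ⟨fun t => ((η' / max η' ‖toMC (ev t b)‖ : ℝ) : ℂ),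
    Complex.continuous_ofReal.comp (continuous_const.div (continuous_const.max hc)
      fun t => (lt_max_of_lt_left h0).ne')⟩
  have h1 : 1 - g ∈ I := by
    rw [← ContinuousMap.idealOfSet_ofIdeal_isClosed hI, ContinuousMap.mem_idealOfSet]
    intro t ht
    have h2 := (hb t (by simp only [Set.mem_insert_iff]; exact Or.inr (Or.inr ht))).trans hη'.le
    simp [g, max_eq_left h2, h0.ne']
  have h2 : toMC (ψ b) = (toMCh.comp ψ) (Z g * b) := by
    have h3 : χ g = 1 := by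
      have := RingHom.mem_ker.1 h1
      rw [map_sub, map_one] at this
      exact (sub_eq_zero.1 this).symm
    rw [map_mul, show (toMCh.comp ψ) (Z g) = 1 from h3, one_mul]
    rfl
  rw [h2]
  refine (NonUnitalStarAlgHom.norm_apply_le _ _).trans ?_
  rw [← NonUnitalStarAlgHom.norm_map j hj, ContinuousMap.norm_le _ h0.le]
  intro t
  rw [hj', map_mul, hZ, smul_one_mul, map_smul, norm_smul]
  change ‖((η' / max η' ‖toMC (ev t b)‖ : ℝ) : ℂ)‖ * _ ≤ _
  rw [Complex.norm_real, Real.norm_of_nonneg (by positivity), div_mul_eq_mul_div,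
    div_le_iff₀ (by positivity)]
  exact mul_le_mul_of_nonneg_left (le_max_right _ _) h0.le

/-- the witnesses for the cell `C` with base point `s` -/
def ZFCell (ev : unitInterval → (B →⋆ₐ[ℂ] Mat p q)) (C : Set unitInterval) (s : unitInterval) : Prop :=
  ∃ h₁ h₂ : B, h₁ ≠ 0 ∧ h₂ ≠ 0 ∧ ∀ (N : Type) [Fintype N] [DecidableEq N]
    (ψ : B →⋆ₐ[ℂ] Matrix N N ℂ) (T : Set unitInterval), T.Finite → 0 ∈ T → 1 ∈ T →
    (∀ b b', (∀ t ∈ T, ev t b = ev t b') → ψ b = ψ b') → ψ h₁ ≠ 0 → ψ h₂ ≠ 0 →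
    ∃ (x : Fin 3 → Matrix N N ℂ) (A : B → B),
      (∀ f, ∀ t ∈ T, ev t (A f) = C.indicator (fun _ => ev s f) t) ∧
      (∀ c, x c * x c = 0 ∧ ψ (A 1) * x c = x c ∧ ∀ f, Commute (x c) (ψ (A f))) ∧
      ∑ c, star (x c) * x c = ψ (A 1)

theorem zf_tent (h : IsDimDrop p q ev) {u v : ℝ} (h0 : 0 ≤ u) (huv : u < v) (h1 : v ≤ 1) {x : Mat p q}
    (hx : x ≠ 0) : ∃ (b : B) (γ : unitInterval → ℂ), b ≠ 0 ∧ (∀ t, ev t b = γ t • x) ∧
      ∀ t, γ t ≠ 0 → u < t ∧ (t : ℝ) < v := by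
  have key : ∀ t : ℝ, ((max 0 (min (t - u) (v - t)) : ℝ) : ℂ) ≠ 0 ↔ u < t ∧ t < v := fun t => by
    rw [Complex.ofReal_ne_zero, Ne, max_eq_left_iff, not_le, lt_min_iff, sub_pos, sub_pos]
  obtain ⟨b, hb⟩ := zf_mk h (g := fun t => ((max 0 (min (t - u) (v - t)) : ℝ) : ℂ)) (by fun_prop) (x := x)
    (fun e => (((key _).1 e).1.not_ge h0).elim) fun e => (((key _).1 e).2.not_ge h1).elim
  refine ⟨b, _, fun e => ?_, hb, fun t => (key _).1⟩
  have h2 := hb ⟨(u + v) / 2, by linarith, by linarith⟩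
  rw [e, map_zero] at h2
  exact smul_ne_zero ((key _).2 ⟨by linarith, by linarith⟩) hx h2.symm

theorem zf_cell (h : IsDimDrop p q ev) {C : Set unitInterval} {s : unitInterval} {u v : ℝ} (h0 : 0 ≤ u)
    (huv : u < v) (h1 : v ≤ 1) (hC : ∀ t : unitInterval, u < t → (t : ℝ) < v → t ∈ C)
    {R : Type} [Fintype R] [DecidableEq R] (o : R) (Φ : Matrix R R ℂ →⋆ₐ[ℂ] Mat p q)
    (hΦ : Function.Injective Φ) (hs : ∀ f, ∃ y, Φ y = ev s f)
    (H0 : 0 ∈ C → ∀ x, ∃ y, Φ x = y ⊗ₖ (1 : Matrix (Fin q) (Fin q) ℂ))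
    (H1 : 1 ∈ C → ∀ x, ∃ y, Φ x = (1 : Matrix (Fin p) (Fin p) ℂ) ⊗ₖ y) : ZFCell ev C s := by
  have hU := (units_single (ι := R) (B := ℂ)).map Φ
  have ho : Φ (Matrix.single o o 1) ≠ 0 := fun e => by
    simpa using congrFun (congrFun ((map_eq_zero_iff Φ hΦ).1 e) o) o
  obtain ⟨b₁, γ₁, n₁, e₁, s₁⟩ := zf_tent h h0 (left_lt_add_div_two.2 huv) (by linarith) ho
  obtain ⟨b₂, γ₂, n₂, e₂, s₂⟩ := zf_tent h (by linarith) (add_div_two_lt_right.2 huv) h1 ho
  refine ⟨b₁, b₂, n₁, n₂, fun N _ _ ψ T hT T0 T1 hK m₁ m₂ => ?_⟩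
  obtain ⟨g, g0, g1, -⟩ := exists_continuous_zero_one_of_isClosed (hT.sdiff (t := C)).isClosed
    (hT.inter_of_left C).isClosed Set.disjoint_sdiff_inter
  have hg : ∀ t ∈ T, (g t : ℂ) ≠ 0 → t ∈ C := fun t ht e =>
    by_contra fun e' => e (by simp [g0 ⟨ht, e'⟩])
  choose e he using fun i j => zf_mk h (g := fun t => (g t : ℂ)) (by fun_prop)
    (fun e => H0 (hg 0 T0 e) (Matrix.single i j 1)) fun e => H1 (hg 1 T1 e) _
  have hin : ∀ t ∈ T, t ∈ C → ∀ i j, ev t (e i j) = Φ (Matrix.single i j 1) := fun t ht h' i j => by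
    simp [he, g1 ⟨ht, h'⟩]
  have hout : ∀ t ∈ T, t ∉ C → ∀ i j, ev t (e i j) = 0 := fun t ht h' i j => by
    simp [he, g0 ⟨ht, h'⟩]
  have hb : ∀ {b : B} {γ : unitInterval → ℂ}, (∀ t, ev t b = γ t • Φ (Matrix.single o o 1)) →
      (∀ t, γ t ≠ 0 → t ∈ C) → ψ (e o o) * ψ b = ψ b := fun {b γ} e1 e2 => by
    rw [← map_mul]
    refine hK _ _ fun t ht => ?_
    rw [map_mul, e1]
    by_cases h' : t ∈ C
    · rw [hin t ht h', mul_smul_comm, hU.mul_same, map_one, one_mul]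
    · rw [not_not.1 (mt (e2 t) h'), zero_smul, mul_zero]
  obtain ⟨x, hx, hx'⟩ := zf_units (E := fun i j => ψ (e i j)) (fun i j k l => by
      rw [← map_mul, ← map_zero ψ, ← apply_ite ψ]
      refine hK _ _ fun t ht => ?_
      rw [map_mul, apply_ite (ev t), map_zero]
      by_cases h' : t ∈ C
      · simp only [hin t ht h', hU.mul, map_one, one_mul]
      · simp only [hout t ht h', mul_zero, ite_self])
    (fun i j => by
      rw [← map_star]
      refine hK _ _ fun t _ => ?_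
      rw [map_star, he, he, star_smul, hU.star, RCLike.star_def, Complex.conj_ofReal])
    o m₁ m₂ (hb e₁ fun t ht => hC t (s₁ t ht).1 (by linarith [(s₁ t ht).2]))
    (hb e₂ fun t ht => hC t (by linarith [(s₂ t ht).1]) (s₂ t ht).2) (by
      rw [← map_star, ← map_mul, ← map_zero ψ]
      refine hK _ _ fun t _ => ?_
      rw [map_mul, map_star, e₁, e₂, map_zero]
      by_cases h' : γ₁ t = 0
      · rw [h', zero_smul, star_zero, zero_mul]
      · rw [not_not.1 fun h'' => (s₁ t h').2.not_gt (s₂ t h'').1, zero_smul, mul_zero])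
  choose y hy using hs
  have hA : ∀ f, ∀ t ∈ T, ev t (∑ i, ∑ j, y f i j • e i j) = C.indicator (fun _ => ev s f) t := by
    intro f t ht
    by_cases h' : t ∈ C
    · rw [Set.indicator_of_mem h', ← hy, Matrix.matrix_eq_sum_single (y f)]
      simp only [map_sum, map_smul, hin t ht h', ← Matrix.matrix_eq_sum_single]
      simp only [← map_smul, Matrix.smul_single, smul_eq_mul, mul_one, ← map_sum,
        ← Matrix.matrix_eq_sum_single]
    · simp only [Set.indicator_of_notMem h', map_sum, map_smul, hout t ht h', smul_zero,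
        Finset.sum_const_zero]
  have h1' : ψ (∑ i, ∑ j, y 1 i j • e i j) = ∑ i, ψ (e i i) := by
    rw [← map_sum]
    refine hK _ _ fun t ht => ?_
    rw [hA 1 t ht]
    by_cases h' : t ∈ C
    · simp only [Set.indicator_of_mem h', map_sum, hin t ht h', hU.sum, map_one]
    · simp only [Set.indicator_of_notMem h', map_sum, hout t ht h', Finset.sum_const_zero]
  refine ⟨x, fun f => ∑ i, ∑ j, y f i j • e i j, hA, fun c => ⟨(hx c).1, h1' ▸ (hx c).2.1, fun f => ?_⟩,
    h1' ▸ hx'⟩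
  simp only [map_sum, map_smul]
  exact Commute.sum_right _ _ _ fun i _ => Commute.sum_right _ _ _ fun j _ =>
    ((hx c).2.2 i j).smul_right _

theorem zf_glue (h : IsDimDrop p q ev) {ι : Type} [Fintype ι] (κ : unitInterval → ι)
    (s : ι → unitInterval) (hc : ∀ j, ZFCell ev {t | κ t = j} (s j)) :
    ∃ H : Finset B, (∀ b ∈ H, b ≠ 0) ∧ ∀ (N : Type) [Fintype N] [DecidableEq N]
      (ψ : B →⋆ₐ[ℂ] Matrix N N ℂ), (∀ b ∈ H, ψ b ≠ 0) → ∃ x : Fin 3 → Matrix N N ℂ,
        (∀ c, x c * x c = 0) ∧ ∑ c, star (x c) * x c = 1 ∧ ∀ c f (η : ℝ), 0 ≤ η →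
          (∀ t, ‖toMC (ev t f - ev (s (κ t)) f)‖ ≤ η) → ‖toMC (x c * ψ f - ψ f * x c)‖ ≤ 2 * η := by
  classical
  choose h₁ h₂ n₁ n₂ hc using hc
  refine ⟨Finset.univ.image h₁ ∪ Finset.univ.image h₂, fun b hb => ?_, fun N _ _ ψ hψ => ?_⟩
  · simp only [Finset.mem_union, Finset.mem_image] at hb
    rcases hb with ⟨j, -, rfl⟩ | ⟨j, -, rfl⟩
    exacts [n₁ j, n₂ j]
  obtain ⟨T, hT, T0, T1, hK⟩ := zf_support h ψ
  have hK0 : ∀ b b', (∀ t ∈ T, ev t b = ev t b') → ψ b = ψ b' := fun b b' e => by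
    have h1 := hK (b - b') 0 le_rfl fun t ht => by simp [e t ht]
    rw [← sub_eq_zero, ← map_sub]
    exact (map_eq_zero_iff toMC toMC.injective).1 (norm_le_zero_iff.1 h1)
  choose x A hA hx hx' using fun j => hc j N ψ T hT T0 T1 hK0 (hψ _ (by simp)) (hψ _ (by simp))
  have hsum : ∀ f, ∀ t ∈ T, ev t (∑ j, A j f) = ev (s (κ t)) f := fun f t ht => by
    simp [hA _ f t ht, Set.indicator_apply]
  have horth : ∀ j k f g, j ≠ k → ψ (A j f) * ψ (A k g) = 0 := fun j k f g e => by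
    rw [← map_mul, ← map_zero ψ]
    refine hK0 _ _ fun t ht => ?_
    rw [map_mul, hA _ _ t ht, hA _ _ t ht, map_zero]
    by_cases h' : κ t = j
    · rw [Set.indicator_of_notMem (s := {t | κ t = k}) fun h'' => e (h'.symm.trans h''), mul_zero]
    · rw [Set.indicator_of_notMem (s := {t | κ t = j}) h', zero_mul]
  have hl : ∀ j k f c, j ≠ k → ψ (A j f) * x k c = 0 := fun j k f c e => by
    rw [← (hx k c).2.1, ← mul_assoc, horth _ _ _ _ e, zero_mul]
  have hr : ∀ j k f c, j ≠ k → x k c * ψ (A j f) = 0 := fun j k f c e => by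
    rw [← (hx k c).2.1, ← ((hx k c).2.2 1).eq, mul_assoc, horth _ _ _ _ e.symm, mul_zero]
  have hst : ∀ j, star (ψ (A j 1)) = ψ (A j 1) := fun j => by
    simp only [← hx', star_sum, star_mul, star_star]
  have h1 : ∑ c, star (∑ j, x j c) * ∑ j, x j c = 1 := by
    have h2 : ∀ c, star (∑ j, x j c) * ∑ j, x j c = ∑ j, star (x j c) * x j c := fun c => by
      rw [star_sum, Finset.sum_mul_sum]
      refine Finset.sum_congr rfl fun j _ => Finset.sum_eq_single j (fun k _ e => ?_) (by simp)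
      rw [← (hx j c).2.1, star_mul, hst, mul_assoc, hl _ _ _ _ e.symm, mul_zero]
    simp only [h2]
    rw [Finset.sum_comm]
    simp only [hx']
    rw [← map_sum, ← map_one ψ]
    exact hK0 _ _ fun t ht => by rw [hsum 1 t ht, map_one, map_one]
  refine ⟨fun c => ∑ j, x j c, fun c => ?_, h1, fun c f η hη hf => ?_⟩
  · rw [Finset.sum_mul_sum]
    refine Finset.sum_eq_zero fun j _ => Finset.sum_eq_zero fun k _ => ?_
    rcases eq_or_ne j k with rfl | e
    · exact (hx j c).1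
    · rw [← (hx k c).2.1, ← mul_assoc, hr _ _ _ _ e.symm, zero_mul]
  have h2 : Commute (∑ j, x j c) (ψ (∑ j, A j f)) := by
    rw [map_sum]
    refine Commute.sum_left _ _ _ fun k _ => Commute.sum_right _ _ _ fun j _ => ?_
    rcases eq_or_ne j k with rfl | e
    · exact (hx j c).2.2 f
    · exact (hr _ _ _ _ e).trans (hl _ _ _ _ e).symm
  have h3 := hK (f - ∑ j, A j f) η hη fun t ht => by
    rw [map_sub, hsum f t ht]
    exact hf t
  have h4 : ‖toMC (∑ j, x j c)‖ ≤ 1 := by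
    let := CStarAlgebra.spectralOrder (MC N ℂ)
    let := CStarAlgebra.spectralOrderedRing (MC N ℂ)
    rw [← sq_le_one_iff₀ (norm_nonneg _), sq, ← CStarRing.norm_star_mul_self,
      CStarAlgebra.norm_le_one_iff_of_nonneg _ (star_mul_self_nonneg _), ← map_one toMC, ← h1,
      map_sum toMC fun c => star _ * _]
    simp only [map_mul, map_star]
    exact Finset.single_le_sum (f := fun c => star (toMC (∑ j, x j c)) * toMC (∑ j, x j c))
      (fun _ _ => star_mul_self_nonneg _) (Finset.mem_univ c)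
  have h5 : (∑ j, x j c) * ψ f - ψ f * ∑ j, x j c =
      (∑ j, x j c) * ψ (f - ∑ j, A j f) - ψ (f - ∑ j, A j f) * ∑ j, x j c := by
    rw [map_sub, mul_sub, sub_mul, h2.eq, sub_sub_sub_cancel_right]
  rw [h5, map_sub, map_mul, map_mul, two_mul]
  refine (norm_sub_le _ _).trans (add_le_add ((norm_mul_le _ _).trans ?_) ((norm_mul_le _ _).trans ?_))
  · exact (mul_le_of_le_one_left (norm_nonneg _) h4).trans h3
  · exact (mul_le_of_le_one_right (norm_nonneg _) h4).trans h3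

end

theorem fibre_wit {p q : ℕ} (hp : 0 < p) (hq : 0 < q) {B : Type} [CStarAlgebra B]
    {ev : unitInterval → (B →⋆ₐ[ℂ] Mat p q)} (h : IsDimDrop p q ev) (F : Finset B) {ε : ℝ}
    (hε : 0 < ε) : ∃ H : Finset B, (∀ b ∈ H, b ≠ 0) ∧ ∀ (N : Type) [Fintype N] [DecidableEq N]
      (ψ : B →⋆ₐ[ℂ] Matrix N N ℂ), (∀ b ∈ H, ψ b ≠ 0) → ∃ x : Fin 3 → Matrix N N ℂ,
        (∀ c, x c * x c = 0) ∧ ∑ c, star (x c) * x c = 1 ∧
        ∀ c, ∀ f ∈ F, ‖toMC (x c * ψ f - ψ f * x c)‖ ≤ ε := by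
  have h2 : ∀ f ∈ F, ∀ᶠ n : ℕ in Filter.atTop, ∀ x y : unitInterval, dist x y ≤ 1 / (n + 1) →
      ‖toMC (ev x f - ev y f)‖ ≤ ε / 2 := fun f _ => by
    obtain ⟨δ, hδ, h⟩ := Metric.uniformContinuous_iff.1 (CompactSpace.uniformContinuous_of_continuous
      (continuous_toMC.comp (h.continuous f))) _ (half_pos hε)
    filter_upwards [tendsto_one_div_add_atTop_nhds_zero_nat.eventually_lt_const hδ] with d hd x y hxy
    rw [map_sub, ← dist_eq_norm]
    exact (h (hxy.trans_lt hd)).le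
  obtain ⟨n, hn, hn1⟩ :=
    (((Filter.eventually_all_finset F).2 h2).and (Filter.eventually_gt_atTop 0)).exists
  have hn0 : (0 : ℝ) < n := Nat.cast_pos.2 hn1
  have hj : ∀ j : Fin (n + 1), (j.1 : ℝ) ≤ n := fun j => Nat.cast_le.2 (Nat.le_of_lt_succ j.2)
  let κ : unitInterval → Fin (n + 1) := fun t =>
    ⟨min n ⌊(t : ℝ) * (n + 1)⌋₊, Nat.lt_succ_of_le (min_le_left _ _)⟩
  let s : Fin (n + 1) → unitInterval := fun j =>
    ⟨j.1 / n, by positivity, (div_le_one hn0).2 (hj j)⟩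
  have hs0 : s 0 = 0 := Subtype.ext (by simp [s])
  have hs1 : s (Fin.last n) = 1 := Subtype.ext (by simp [s, hn0.ne'])
  have hκ0 : κ 0 = 0 := Fin.ext (by simp [κ])
  have hκ1 : κ 1 = Fin.last n := Fin.ext (by simp [κ, Nat.floor_add_one])
  have hne : (0 : Fin (n + 1)) ≠ Fin.last n := fun e => hn1.ne (congrArg Fin.val e)
  have : Nonempty (Fin p) := ⟨⟨0, hp⟩⟩
  have : Nonempty (Fin q) := ⟨⟨0, hq⟩⟩
  obtain ⟨H, hH, hH'⟩ := zf_glue h κ s fun j => by
    have a0 : (0 : ℝ) ≤ j.1 / (n + 1) := by positivity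
    have a1 : (j.1 : ℝ) / (n + 1) < (j.1 + 1) / (n + 1) := by gcongr; exact lt_add_one _
    have a2 : ((j.1 : ℝ) + 1) / (n + 1) ≤ 1 := (div_le_one (by positivity)).2 (by linarith [hj j])
    have a3 : ∀ t : unitInterval, (j.1 : ℝ) / (n + 1) < t → (t : ℝ) < (j.1 + 1) / (n + 1) →
        t ∈ {t | κ t = j} := fun t b1 b2 => by
      rw [div_lt_iff₀ (by positivity)] at b1
      rw [lt_div_iff₀ (by positivity)] at b2
      refine Fin.ext ?_
      simp only [κ]
      rw [(Nat.floor_eq_iff (mul_nonneg t.2.1 (by positivity))).2 ⟨b1.le, b2⟩]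
      exact min_eq_right (Nat.le_of_lt_succ j.2)
    by_cases e0 : j = 0
    · subst e0
      refine zf_cell h a0 a1 a2 a3 ⟨0, hp⟩ (extL (Fin q)) extL_injective (fun f => ?_)
        (fun _ x => ⟨x, extL_eq_kronecker x⟩) fun e => (hne (Eq.symm (hκ1.symm.trans e))).elim
      obtain ⟨y, hy⟩ := ((h.2 _).1 ⟨f, fun _ => rfl⟩).2.1
      exact ⟨y, by rw [hs0, hy, extL_eq_kronecker]⟩
    by_cases e1 : j = Fin.last n
    · subst e1
      refine zf_cell h a0 a1 a2 a3 ⟨0, hq⟩ (extR (Fin p)) extR_injective (fun f => ?_)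
        (fun e => (hne (hκ0.symm.trans e)).elim) fun _ x => ⟨x, extR_eq_kronecker x⟩
      obtain ⟨y, hy⟩ := ((h.2 _).1 ⟨f, fun _ => rfl⟩).2.2
      exact ⟨y, by rw [hs1, hy, extR_eq_kronecker]⟩
    exact zf_cell h a0 a1 a2 a3 (⟨0, hp⟩, ⟨0, hq⟩) (StarAlgHom.id ℂ _) Function.injective_id
      (fun f => ⟨_, rfl⟩) (fun e => (e0 (Eq.symm (hκ0.symm.trans e))).elim)
      fun e => (e1 (Eq.symm (hκ1.symm.trans e))).elim
  refine ⟨H, hH, fun N _ _ ψ hψ => ?_⟩
  obtain ⟨x, h3, h4, h5⟩ := hH' N ψ hψ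
  refine ⟨x, h3, h4, fun c f hf => (h5 c f _ (half_pos hε).le fun t => hn f hf _ _ ?_).trans_eq (by ring)⟩
  have b0 : 0 ≤ (t : ℝ) * (n + 1) := mul_nonneg t.2.1 (by positivity)
  have b1 : ((κ t).1 : ℝ) ≤ t * (n + 1) :=
    (Nat.cast_le.2 (min_le_right _ _)).trans (Nat.floor_le b0)
  have b2 : (t : ℝ) * (n + 1) ≤ (κ t).1 + 1 := by
    simp only [κ]
    rcases min_choice n ⌊(t : ℝ) * (n + 1)⌋₊ with e | e <;> rw [e]
    · exact mul_le_of_le_one_left (by positivity) t.2.2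
    · exact (Nat.lt_floor_add_one _).le
  have b3 : ((κ t).1 : ℝ) / n * (n + 1) = (κ t).1 + (κ t).1 / n := by field_simp
  have b4 := (s (κ t)).2
  change |(t : ℝ) - (κ t).1 / n| ≤ _
  rw [le_div_iff₀ (by positivity), ← abs_of_pos (show (0 : ℝ) < n + 1 by positivity), ← abs_mul, sub_mul,
    b3, abs_le]
  constructor <;> linarith [b4.1, b4.2]

end Vale.Agent.P095
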